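import Vale.Agent.P076N.RG.Spec

/-!
# P076N / RG : small tools shared by the rows of RING (helper5)
-/

set_option linter.all false

open Finset Vale.Agent.P127 Vale.Agent.P127.Stk
open scoped RealInnerProductSpace

namespace Vale.Agent.P076N.RG

section ent

variable {Ω : Type} [Fintype Ω] {S T : Type*}

theorem Fn.dom {Q P : Law Ω} {Λ : ℝ} (h : Dom Q id P Λ) {X : Ω → S} {Y : Ω → T} (hf : Fn P X Y) : Fn Q X Y :=
  fun ω ω' h1 h2 h3 => hf ω ω' (h.pos h1) (h.pos h2) h3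

theorem prE_mono (P : Law Ω) {E E' : Ω → Prop} (h : ∀ ω, 0 < P.w ω → E ω → E' ω) : prE P E ≤ prE P E' := by
  classical
  unfold prE
  rw [Finset.sum_filter, Finset.sum_filter]
  refine Finset.sum_le_sum fun ω _ => ?_
  by_cases h1 : E ω
  · rcases (P.nn ω).eq_or_lt with h0 | h0
    · simp [← h0]
    · simp [h1, h ω h0 h1]
  · simp only [h1, if_false]
    split_ifs
    · exact P.nn ω
    · exact le_rfl

theorem prE_dom {Q P : Law Ω} {Λ : ℝ} (h : Dom Q id P Λ) (E : Ω → Prop) : prE Q E ≤ Λ * prE P E := by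
  classical
  unfold prE
  rw [Finset.mul_sum]
  refine Finset.sum_le_sum fun ω _ => ?_
  have := h ω
  rwa [pr_id] at this

/-- union bound -/
theorem prE_ex {ι : Type*} (P : Law Ω) (I : Finset ι) (E : ι → Ω → Prop) :
    prE P (fun ω => ∃ i ∈ I, E i ω) ≤ ∑ i ∈ I, prE P (E i) := by
  classical
  unfold prE
  simp only [Finset.sum_filter]
  rw [Finset.sum_comm]
  refine Finset.sum_le_sum fun ω _ => ?_
  by_cases h : ∃ i ∈ I, E i ω
  · obtain ⟨i, hi, hE⟩ := h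
    rw [if_pos ⟨i, hi, hE⟩]
    refine le_trans ?_ (Finset.single_le_sum (f := fun i => if E i ω then P.w ω else 0) (fun j _ => ?_) hi)
    · simp [hE]
    · split_ifs
      · exact P.nn ω
      · exact le_rfl
  · rw [if_neg h]
    refine Finset.sum_nonneg fun j _ => ?_
    split_ifs
    · exact P.nn ω
    · exact le_rfl

theorem prE_or (P : Law Ω) (E E' : Ω → Prop) : prE P (fun ω => E ω ∨ E' ω) ≤ prE P E + prE P E' := by
  classical
  unfold prE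
  simp only [Finset.sum_filter]
  rw [← Finset.sum_add_distrib]
  refine Finset.sum_le_sum fun ω _ => ?_
  have := P.nn ω
  by_cases h1 : E ω <;> by_cases h2 : E' ω <;> simp [h1, h2, this]

/-- a real bound for the number of values -/
theorem hc_le_logr (P : Law Ω) (X : Ω → S) (Y : Ω → T) (r : ℝ)
    (h : ∀ ω, 0 < P.w ω → ∃ F : Finset S, (F.card : ℝ) ≤ r ∧ ∀ ω', 0 < P.w ω' → Y ω' = Y ω → X ω' ∈ F) :
    hc P X Y ≤ Real.log r := by
  obtain ⟨ω₀, h₀⟩ : ∃ ω, 0 < P.w ω := by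
    by_contra hn
    push Not at hn
    have : ∑ ω, P.w ω ≤ 0 := Finset.sum_nonpos fun ω _ => hn ω
    rw [P.sum_one] at this
    linarith
  obtain ⟨F, hF, hF'⟩ := h ω₀ h₀
  have h1 : 1 ≤ F.card := Finset.card_pos.2 ⟨_, hF' ω₀ h₀ rfl⟩
  have h2 : (1 : ℝ) ≤ r := le_trans (by exact_mod_cast h1) hF
  refine (hc_le_log P X Y ⌊r⌋₊ fun ω hω => ?_).trans ?_
  · obtain ⟨F, hF, hF'⟩ := h ω hω
    exact ⟨F, Nat.le_floor hF, hF'⟩
  · exact Real.log_le_log (by exact_mod_cast Nat.floor_pos.2 h2) (Nat.floor_le (by linarith))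

theorem card_Icc_le (c : ℤ) (r : ℝ) (hr : 0 ≤ r) : ((Finset.Icc (c - ⌊r⌋) (c + ⌊r⌋)).card : ℝ) ≤ 2 * r + 1 := by
  have h0 : 0 ≤ ⌊r⌋ := Int.floor_nonneg.2 hr
  have h1 : ((Finset.Icc (c - ⌊r⌋) (c + ⌊r⌋)).card : ℤ) = 2 * ⌊r⌋ + 1 := by
    rw [Int.card_Icc, Int.toNat_of_nonneg (by omega)]
    ring
  have h2 : ((Finset.Icc (c - ⌊r⌋) (c + ⌊r⌋)).card : ℝ) = 2 * (⌊r⌋ : ℝ) + 1 := by exact_mod_cast h1
  have := Int.floor_le r
  linarith

theorem mem_Icc_near {a c : ℤ} {r : ℝ} (h : |(a : ℝ) - c| ≤ r) : a ∈ Finset.Icc (c - ⌊r⌋) (c + ⌊r⌋) := by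
  have h1 : |a - c| ≤ ⌊r⌋ := Int.le_floor.2 (by push_cast; exact h)
  rw [abs_le] at h1
  rw [Finset.mem_Icc]
  omega

/-- an integer which is determined up to `r` -/
theorem hc_near1 (P : Law Ω) (X : Ω → ℤ) (Y : Ω → T) {r : ℝ}
    (h : ∀ ω ω', 0 < P.w ω → 0 < P.w ω' → Y ω = Y ω' → |(X ω : ℝ) - X ω'| ≤ r) : hc P X Y ≤ Real.log (2 * r + 1) := by
  refine hc_le_logr P X Y _ fun ω hω => ⟨Finset.Icc (X ω - ⌊r⌋) (X ω + ⌊r⌋), card_Icc_le _ r ?_, fun ω' hω' hY =>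
    mem_Icc_near (h ω' ω hω' hω hY)⟩
  simpa using h ω ω hω hω rfl

/-- an integer vector which is determined up to `r` -/
theorem hc_near {ι : Type} [Fintype ι] (P : Law Ω) (X : Ω → ι → ℤ) (Y : Ω → T) {r : ℝ} (hr : 0 ≤ r)
    (h : ∀ ω ω', 0 < P.w ω → 0 < P.w ω' → Y ω = Y ω' → ∀ i, |(X ω i : ℝ) - X ω' i| ≤ r) :
    hc P X Y ≤ Fintype.card ι * Real.log (2 * r + 1) := by
  classical
  rw [← Real.log_pow]
  refine hc_le_logr P X Y _ fun ω hω => ⟨Fintype.piFinset fun i => Finset.Icc (X ω i - ⌊r⌋) (X ω i + ⌊r⌋), ?_,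
    fun ω' hω' hY => Fintype.mem_piFinset.2 fun i => mem_Icc_near (h ω' ω hω' hω hY i)⟩
  rw [Fintype.card_piFinset, Nat.cast_prod, ← Finset.card_univ, ← Finset.prod_const]
  exact Finset.prod_le_prod (fun i _ => Nat.cast_nonneg _) fun i _ => card_Icc_le _ r hr

/-- subadditivity -/
theorem hc_pi_le {n : ℕ} (P : Law Ω) (X : Fin n → Ω → S) (Y : Ω → T) :
    hc P (fun ω i => X i ω) Y ≤ ∑ i, hc P (X i) Y := by
  induction n with
  | zero =>
    rw [hc_zero P (fun ω ω' _ _ _ => funext fun i => i.elim0)]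
    simp
  | succ n ih =>
    rw [Fin.sum_univ_succ]
    have h1 : hc P (fun ω i => X i ω) Y ≤ hc P (fun ω => (X 0 ω, fun i : Fin n => X i.succ ω)) Y := by
      refine hc_mono_left P fun ω ω' _ _ h => ?_
      simp only [Prod.mk.injEq] at h
      funext i
      exact Fin.cases h.1.1 (fun j => congrFun h.1.2 j) i
    rw [hc_pair] at h1
    have h2 := hc_mono_right P (fun ω (i : Fin n) => X i.succ ω) (Y := Y) (Y' := fun ω => (X 0 ω, Y ω))
      fun ω ω' _ _ h => (Prod.ext_iff.1 h).2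
    linarith [ih fun i => X i.succ]

end ent

theorem floor_sub_le {x y r : ℝ} (h : |x - y| ≤ r) : |((⌊x⌋ : ℤ) : ℝ) - (⌊y⌋ : ℤ)| ≤ r + 1 := by
  rw [abs_le] at h ⊢
  have := Int.floor_le x
  have := Int.lt_floor_add_one x
  have := Int.floor_le y
  have := Int.lt_floor_add_one y
  constructor <;> linarith

theorem floor_eq_close {x y ρ : ℝ} (hρ : 0 < ρ) (h : ⌊x / ρ⌋ = ⌊y / ρ⌋) : |x - y| ≤ ρ := by
  have h1 := Int.abs_sub_lt_one_of_floor_eq_floor h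
  rw [← sub_div, abs_div, abs_of_pos hρ, div_lt_one hρ] at h1
  exact h1.le

theorem floor_div_pow (x : ℝ) (a : ℕ) : ⌊x / 2 ^ a⌋ = ⌊x⌋ / 2 ^ a := by
  have := Int.floor_div_natCast x (2 ^ a)
  push_cast at this
  exact this

theorem floor_div_add (x : ℝ) (a b : ℕ) : ⌊x / 2 ^ (a + b)⌋ = ⌊x / 2 ^ a⌋ / 2 ^ b := by
  rw [pow_add, ← div_div, floor_div_pow]

theorem int_div_close {a b : ℤ} {r : ℕ} (h : a / 2 ^ r = b / 2 ^ r) : |(a : ℝ) - b| ≤ 2 ^ r := by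
  refine floor_eq_close (by positivity) ?_
  rw [floor_div_pow, floor_div_pow, Int.floor_intCast, Int.floor_intCast, h]

variable {k : ℕ}

theorem norm_le_of_coord {v : Vc k} {r : ℝ} (h : ∀ l, |v l| ≤ r) : ‖v‖ ≤ k * r := by
  have h1 : v = ∑ l, EuclideanSpace.single l (v l) := by
    ext j
    simp [Pi.single_apply]
  calc ‖v‖ = ‖∑ l, EuclideanSpace.single l (v l)‖ := by rw [← h1]
    _ ≤ ∑ l, ‖EuclideanSpace.single l (v l)‖ := norm_sum_le _ _
    _ ≤ ∑ _l : Fin k, r := Finset.sum_le_sum fun l _ => by simpa using h l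
    _ = k * r := by simp

theorem coord_le_norm (v : Vc k) (l : Fin k) : |v l| ≤ ‖v‖ := by
  simpa using PiLp.norm_apply_le v l

theorem toV_apply (q : Zv k) (l : Fin k) : toV q l = q l := rfl

theorem dd_apply (n : ℕ) (q : Zv k) (l : Fin k) : dd n q l = (q l : ℝ) / 2 ^ n := by
  simp [dd, toV_apply, div_eq_inv_mul]

/-- the rounded velocity -/
theorem dd_dir_close (n : ℕ) (u : Vc k) (l : Fin k) : |dd n (flv (2 ^ n)⁻¹ u) l - u l| ≤ (2 ^ n)⁻¹ := by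
  have h0 : (0 : ℝ) < 2 ^ n := by positivity
  rw [dd_apply]
  simp only [flv, div_inv_eq_mul]
  have h1 := Int.floor_le (u l * 2 ^ n)
  have h2 := Int.lt_floor_add_one (u l * 2 ^ n)
  have h3 : (⌊u l * 2 ^ n⌋ : ℝ) / 2 ^ n - u l = ((⌊u l * 2 ^ n⌋ : ℝ) - u l * 2 ^ n) * (2 ^ n)⁻¹ := by
    field_simp
  rw [h3, abs_mul, abs_of_pos (inv_pos.2 h0)]
  exact mul_le_of_le_one_left (inv_pos.2 h0).le (abs_le.2 ⟨by linarith, by linarith⟩)

theorem dd_dir_norm (n : ℕ) (u : Vc k) : ‖dd n (flv (2 ^ n)⁻¹ u) - u‖ ≤ k * (2 ^ n)⁻¹ :=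
  norm_le_of_coord fun l => by simpa using dd_dir_close n u l

end Vale.Agent.P076N.RG
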