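import Vale.Agent.P076N.RG.Lib

/-!
# P076N / RG : typical sets (row AEP) and the chain rule with submodularity (row SHR)
-/

set_option linter.all false

open Finset Vale.Agent.P127 Vale.Agent.P127.Stk

namespace Vale.Agent.P076N.RG

namespace Aep

variable {Ω S T : Type} [Fintype Ω]

theorem pr_dom {Q P : Law Ω} {Λ : ℝ} (h : Dom Q id P Λ) (X : Ω → S) (x : S) :
    Q.pr X x ≤ Λ * P.pr X x := by
  unfold Law.pr
  rw [Finset.mul_sum]
  refine Finset.sum_le_sum fun ω _ => ?_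
  have := h ω
  rwa [pr_id] at this

theorem ci_pos (P : Law Ω) (X : Ω → S) (Y : Ω → T) {ω : Ω} (h : 0 < P.w ω) : 0 < ci P X Y ω :=
  div_pos (P.pr_pos (fun ω' => (X ω', Y ω')) h) (P.pr_pos Y h)

theorem dom_on (P : Law Ω) (E : Ω → Prop) {Λ : ℝ} (hΛ : 0 < Λ) (h : 1 / Λ < prE P E) :
    0 < prE P E ∧ Dom (on P E) id P Λ := by
  have h0 : 0 < 1 / Λ := by positivity
  refine ⟨h0.trans h, ?_⟩
  have := Dom.on h0 h.le
  rwa [one_div_one_div] at this

theorem one (P : Law Ω) (X : Ω → S) (Y : Ω → T) (Λ L : ℝ) (hΛ : 0 < Λ)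
    (h : ∀ Q : Law Ω, Dom Q id P Λ → hc Q X Y ≤ L) :
    prE P (fun ω => 2 * Λ * ci P X Y ω ≤ Real.exp (-L)) ≤ 1 / Λ := by
  by_contra hn
  obtain ⟨hp, hd⟩ := dom_on P _ hΛ (not_le.1 hn)
  set Q := on P (fun ω => 2 * Λ * ci P X Y ω ≤ Real.exp (-L))
  have h1 := h Q hd
  have h2 : Q.H Y ≤ Q.ex fun ω => -Real.log (P.pr Y (Y ω)) :=
    Q.gibbs Y (P.pr Y) (P.pr_nonneg Y) (P.sum_pr_image Y).le fun ω hω => P.pr_pos Y (hd.pos hω)
  have h3 : (Q.ex fun ω => (L + Real.log 2) + -Real.log (P.pr Y (Y ω))) ≤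
      Q.H fun ω => (X ω, Y ω) := by
    refine Q.ex_mono fun ω hω => ?_
    obtain ⟨hE, hw⟩ := on_pos hp hω
    have a1 := Q.pr_pos (fun ω' => (X ω', Y ω')) hω
    have a2 := pr_dom hd (fun ω' => (X ω', Y ω')) (X ω, Y ω)
    have a3 := P.pr_pos Y hw
    have a4 : 2 * Q.pr (fun ω' => (X ω', Y ω')) (X ω, Y ω) ≤ Real.exp (-L) * P.pr Y (Y ω) := by
      unfold ci at hE
      rw [← mul_div_assoc, div_le_iff₀ a3] at hE
      linarith
    have a5 := Real.log_le_log (by positivity) a4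
    rw [Real.log_mul (by norm_num) a1.ne', Real.log_mul (Real.exp_pos _).ne' a3.ne',
      Real.log_exp] at a5
    linarith
  rw [Q.ex_add, Q.ex_const] at h3
  have h4 : 0 < Real.log 2 := Real.log_pos (by norm_num)
  unfold hc at h1
  linarith

theorem two (P : Law Ω) (X : Ω → S) (Y : Ω → T) (Λ L : ℝ) (hΛ : 0 < Λ)
    (h : ∀ Q : Law Ω, Dom Q id P Λ → L ≤ hc Q X Y) :
    prE P (fun ω => 2 * Real.exp (-L) ≤ ci P X Y ω) ≤ 1 / Λ := by
  by_contra hn
  obtain ⟨hp, hd⟩ := dom_on P _ hΛ (not_le.1 hn)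
  set Q := on P (fun ω => 2 * Real.exp (-L) ≤ ci P X Y ω)
  have h1 := h Q hd
  have h2 := Q.gibbs_cond X Y (fun x y => P.pr (fun ω' => (X ω', Y ω')) (x, y) / P.pr Y y)
    (fun x y => div_nonneg (P.pr_nonneg _ _) (P.pr_nonneg _ _))
    (fun y F => by
      rw [← Finset.sum_div]
      exact div_le_one_of_le₀ (P.sum_pr_pair_le X Y y F) (P.pr_nonneg _ _))
    fun ω hω => ci_pos P X Y (hd.pos hω)
  have h3 : (Q.ex fun ω => -Real.log (ci P X Y ω)) ≤ Q.ex fun _ => L - Real.log 2 := by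
    refine Q.ex_mono fun ω hω => ?_
    have a5 := Real.log_le_log (by positivity) (on_pos hp hω).1
    rw [Real.log_mul (by norm_num) (Real.exp_pos _).ne', Real.log_exp] at a5
    linarith
  rw [Q.ex_const] at h3
  have h4 : 0 < Real.log 2 := Real.log_pos (by norm_num)
  have h5 : hc Q X Y ≤ L - Real.log 2 := h2.trans h3
  linarith

open Classical in
theorem three (P : Law Ω) (X : Ω → S) (Y : Ω → T) (E : Ω → Prop) (t : ℝ) (y : T)
    (h : ∀ ω, E ω → 0 < P.w ω ∧ Y ω = y ∧ t ≤ ci P X Y ω) :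
    t * #((univ.filter E).image X) ≤ 1 := by
  rcases ((univ.filter E).image X).eq_empty_or_nonempty with he | ⟨x, hx⟩
  · rw [he]; simp
  obtain ⟨ω₀, h₀, -⟩ := mem_image.1 hx
  obtain ⟨a1, a2, -⟩ := h ω₀ (mem_filter.1 h₀).2
  have hy : 0 < P.pr Y y := a2 ▸ P.pr_pos Y a1
  have h1 : ∑ x ∈ (univ.filter E).image X, t * P.pr Y y ≤
      ∑ x ∈ (univ.filter E).image X, P.pr (fun ω => (X ω, Y ω)) (x, y) := by
    refine Finset.sum_le_sum fun x hx => ?_
    obtain ⟨ω, hω, rfl⟩ := mem_image.1 hx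
    obtain ⟨-, b2, b3⟩ := h ω (mem_filter.1 hω).2
    unfold ci at b3
    rw [b2, le_div_iff₀ hy] at b3
    exact b3
  have h2 := h1.trans (P.sum_pr_pair_le X Y y _)
  rw [Finset.sum_const, nsmul_eq_mul] at h2
  refine le_of_mul_le_mul_right ?_ hy
  linarith

open Classical in
theorem four (P : Law Ω) (X : Ω → S) (Y : Ω → T) (E : Ω → Prop) (t : ℝ) (y : T)
    (h : ∀ ω, E ω → Y ω = y ∧ ci P X Y ω ≤ t) :
    prE P E ≤ t * #((univ.filter E).image X) * P.pr Y y := by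
  have h1 : prE P E ≤ ∑ x ∈ (univ.filter E).image X, P.pr (fun ω => (X ω, Y ω)) (x, y) := by
    unfold prE
    rw [← Finset.sum_fiberwise_of_maps_to (g := X) (t := (univ.filter E).image X)
      (fun ω hω => mem_image_of_mem X hω)]
    refine Finset.sum_le_sum fun x _ => ?_
    unfold Law.pr
    refine Finset.sum_le_sum_of_subset_of_nonneg (fun ω hω => ?_) fun ω _ _ => P.nn ω
    simp only [mem_filter, mem_univ, true_and, Prod.mk.injEq] at hω ⊢
    exact ⟨hω.2, (h ω hω.1).1⟩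
  have h2 : ∑ x ∈ (univ.filter E).image X, P.pr (fun ω => (X ω, Y ω)) (x, y) ≤
      ∑ x ∈ (univ.filter E).image X, t * P.pr Y y := by
    refine Finset.sum_le_sum fun x hx => ?_
    obtain ⟨ω, hω, rfl⟩ := mem_image.1 hx
    obtain ⟨b2, b3⟩ := h ω (mem_filter.1 hω).2
    unfold ci at b3
    rw [b2] at b3
    rcases (P.pr_nonneg Y y).eq_or_lt with h0 | h0
    · have := P.sum_pr_pair_le X Y y {X ω}
      rw [Finset.sum_singleton] at this
      rw [← h0] at this ⊢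
      linarith
    · rwa [div_le_iff₀ h0] at b3
  rw [Finset.sum_const, nsmul_eq_mul] at h2
  linarith

theorem five (P : Law Ω) (X : Ω → S) (Y : Ω → T) (A : Finset S) (L : ℝ) (hL : 0 ≤ L)
    (hA : ∀ ω, 0 < P.w ω → X ω ∈ A) :
    hc P X Y ≤ Real.log 2 + L + prE P (fun ω => ci P X Y ω ≤ Real.exp (-L)) * Real.log #A := by
  classical
  have h1 : 1 ≤ ⌊Real.exp L⌋₊ := Nat.floor_pos.2 (Real.one_le_exp hL)
  have h2 := hc_le_exc P (fun ω => ci P X Y ω ≤ Real.exp (-L)) X Y #A ⌊Real.exp L⌋₊ h1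
    ⟨A, le_rfl, hA⟩ fun ω _ _ => by
      have h3 := three P X Y (fun ω' => 0 < P.w ω' ∧ ¬ ci P X Y ω' ≤ Real.exp (-L) ∧ Y ω' = Y ω)
        (Real.exp (-L)) (Y ω) fun ω' h => ⟨h.1, h.2.2, (not_le.1 h.2.1).le⟩
      have h4 : ∀ c : ℝ, Real.exp (-L) * c ≤ 1 → c ≤ Real.exp L := fun c hc => by
        rwa [Real.exp_neg, inv_mul_le_iff₀ (Real.exp_pos L), mul_one] at hc
      refine ⟨_, Nat.le_floor (h4 _ h3), fun ω' a1 a2 a3 => mem_image.2 ⟨ω', ?_, rfl⟩⟩
      simp only [mem_filter, mem_univ, true_and]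
      exact ⟨a1, a2, a3⟩
  have h3 : Real.log ⌊Real.exp L⌋₊ ≤ L := by
    refine (Real.log_le_log (by exact_mod_cast h1) (Nat.floor_le (Real.exp_pos L).le)).trans ?_
    rw [Real.log_exp]
  linarith

theorem tup_eq {ι : Type} [DecidableEq ι] {V : ι → Ω → ℤ} {A : Finset ι} {ω ω' : Ω} :
    tup V A ω = tup V A ω' ↔ ∀ i ∈ A, V i ω = V i ω' := by
  constructor
  · intro h i hi
    have := congrFun h i
    simpa [tup, hi] using this
  · intro h
    funext i
    by_cases hi : i ∈ A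
    · simp [tup, hi, h i hi]
    · simp [tup, hi]

end Aep

/-- **[AEP]** -/
theorem aep : AEP := fun _ _ _ _ P X Y =>
  ⟨Aep.one P X Y, Aep.two P X Y, Aep.three P X Y, Aep.four P X Y, Aep.five P X Y⟩

/-- **[SHR]** -/
theorem shr : SHR := by
  intro Ω ι Γ _ _ _ Q V G A T
  induction T using Finset.induction_on with
  | empty => intro _; simp
  | insert j T hj ih =>
    intro hd
    rw [Finset.disjoint_insert_right] at hd
    have h1 := ih hd.2
    have h2 : hc Q (fun ω => (tup V (A ∪ T) ω, V j ω)) G ≤ hc Q (tup V (A ∪ insert j T)) G := by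
      refine hc_mono_left Q fun ω ω' _ _ h => ?_
      have h' := Aep.tup_eq.1 (Prod.ext_iff.1 h).1
      refine Prod.ext (Aep.tup_eq.2 fun i hi => h' i ?_) (h' j (by simp))
      simp only [mem_union, mem_insert] at hi ⊢
      tauto
    have h3 : hc Q (V j) (fun ω => (tup V (univ.erase j) ω, G ω)) ≤
        hc Q (V j) (fun ω => (tup V (A ∪ T) ω, G ω)) := by
      refine hc_mono_right Q _ fun ω ω' _ _ h => ?_
      have h' := Aep.tup_eq.1 (Prod.ext_iff.1 h).1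
      refine Prod.ext (Aep.tup_eq.2 fun i hi => h' i ?_) (Prod.ext_iff.1 h).2
      refine mem_erase.2 ⟨?_, mem_univ _⟩
      rintro rfl
      rcases mem_union.1 hi with h | h
      · exact hd.1 h
      · exact hj h
    rw [hc_pair] at h2
    rw [Finset.sum_insert hj]
    linarith

end Vale.Agent.P076N.RG
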