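import Vale.Agent.P076N.RG.Lib

/-!
# P076N / RG : the multipliers determine the last direction (row ALP)
-/

set_option linter.all false

open Finset Vale.Agent.P127 Vale.Agent.P127.Stk
open scoped RealInnerProductSpace

namespace Vale.Agent.P076N.RG

namespace Alp

variable {k : ℕ}

/-- a functional at an affine combination -/
theorem val (D : Fin (k + 1) → Vc k) (μ : Vc k) (s : ℝ) (b : Fin (k + 1) → ℝ) :
    ⟪μ, ∑ i, b i • D i⟫ - s * ∑ i, b i = ∑ i, b i * (⟪μ, D i⟫ - s) := by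
  rw [inner_sum, Finset.mul_sum, ← Finset.sum_sub_distrib]
  refine Finset.sum_congr rfl fun i _ => ?_
  rw [real_inner_smul_right]
  ring

theorem val_last (D ν : Fin (k + 1) → Vc k) (v : Fin (k + 1) → ℝ)
    (kill : ∀ (i : Fin (k + 1)) (c : Fin k), c.castSucc ≠ i → ⟪ν i, D c.castSucc⟫ = v i)
    (b : Fin (k + 1) → ℝ) :
    ∑ i, b i * (⟪ν (Fin.last k), D i⟫ - v (Fin.last k)) =
      b (Fin.last k) * (⟪ν (Fin.last k), D (Fin.last k)⟫ - v (Fin.last k)) := by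
  rw [Fin.sum_univ_castSucc, Finset.sum_eq_zero, zero_add]
  intro c _
  rw [kill _ c (Fin.castSucc_ne_last c), sub_self, mul_zero]

theorem val_cs (D ν : Fin (k + 1) → Vc k) (v : Fin (k + 1) → ℝ)
    (kill : ∀ (i : Fin (k + 1)) (c : Fin k), c.castSucc ≠ i → ⟪ν i, D c.castSucc⟫ = v i)
    (b : Fin (k + 1) → ℝ) (c : Fin k) :
    ∑ i, b i * (⟪ν c.castSucc, D i⟫ - v c.castSucc) =
      b c.castSucc * (⟪ν c.castSucc, D c.castSucc⟫ - v c.castSucc) +
        b (Fin.last k) * (⟪ν c.castSucc, D (Fin.last k)⟫ - v c.castSucc) := by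
  rw [Fin.sum_univ_castSucc, Finset.sum_eq_single c]
  · intro c' _ hc
    rw [kill _ c' (fun h => hc (Fin.castSucc_injective _ h)), sub_self, mul_zero]
  · intro h
    exact absurd (mem_univ c) h

/-- the directions are an affine basis -/
theorem span (D ν : Fin (k + 1) → Vc k) (v : Fin (k + 1) → ℝ)
    (kill : ∀ (i : Fin (k + 1)) (c : Fin k), c.castSucc ≠ i → ⟪ν i, D c.castSucc⟫ = v i)
    (tr : ∀ i, ⟪ν i, D i⟫ - v i ≠ 0) (d : Vc k) :
    ∃ b : Fin (k + 1) → ℝ, ∑ i, b i • D i = d ∧ ∑ i, b i = 1 := by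
  let Ψ : (Fin (k + 1) → ℝ) →ₗ[ℝ] Vc k × ℝ := Fintype.linearCombination ℝ fun i => (D i, (1 : ℝ))
  have hΨ : ∀ b, Ψ b = (∑ i, b i • D i, ∑ i, b i) := fun b => by
    simp only [Ψ, Fintype.linearCombination_apply]
    refine Prod.ext ?_ ?_
    · rw [Prod.fst_sum]; simp
    · rw [Prod.snd_sum]; simp
  have hinj : Function.Injective Ψ := by
    rw [injective_iff_map_eq_zero]
    intro b hb
    rw [hΨ, Prod.mk_eq_zero] at hb
    have h0 : ∀ i, ∑ j, b j * (⟪ν i, D j⟫ - v i) = 0 := fun i => by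
      rw [← val, hb.1, hb.2]; simp
    have h1 : b (Fin.last k) = 0 := by
      have := h0 (Fin.last k)
      rw [val_last D ν v kill] at this
      exact (mul_eq_zero.1 this).resolve_right (tr _)
    funext i
    refine Fin.lastCases h1 (fun c => ?_) i
    have := h0 c.castSucc
    rw [val_cs D ν v kill, h1, zero_mul, add_zero] at this
    exact (mul_eq_zero.1 this).resolve_right (tr _)
  have hsur : Function.Surjective Ψ :=
    (LinearMap.injective_iff_surjective_of_finrank_eq_finrank (by simp [Module.finrank_prod])).1 hinj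
  obtain ⟨b, hb⟩ := hsur (d, 1)
  rw [hΨ, Prod.mk.injEq] at hb
  exact ⟨b, hb⟩

theorem close (D ν : Fin (k + 1) → Vc k) (v : Fin (k + 1) → ℝ) (A η : ℝ) (hA : 1 ≤ A) (d : Vc k)
    (kill : ∀ (i : Fin (k + 1)) (c : Fin k), c.castSucc ≠ i → ⟪ν i, D c.castSucc⟫ = v i)
    (tr : ∀ i, A⁻¹ ≤ |⟪ν i, D i⟫ - v i|) (tr' : A⁻¹ ≤ |⟪ν (Fin.last k), d⟫ - v (Fin.last k)|)
    (hD : ∀ i, ‖D i‖ ≤ A) (hd : ‖d‖ ≤ A) (hν : ‖ν (Fin.last k)‖ ≤ 1) (hv : |v (Fin.last k)| ≤ A)
    (hal : ∀ c : Fin k, |-(⟪ν c.castSucc, D (Fin.last k)⟫ - v c.castSucc) /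
        (⟪ν (Fin.last k), D (Fin.last k)⟫ - v (Fin.last k)) -
      -(⟪ν c.castSucc, d⟫ - v c.castSucc) / (⟪ν (Fin.last k), d⟫ - v (Fin.last k))| ≤ η) :
    ‖D (Fin.last k) - d‖ ≤ k * (4 * A ^ 3 * η) := by
  have hA0 : 0 < A := by linarith
  have hAi : 0 < A⁻¹ := inv_pos.2 hA0
  have hne : ∀ i, ⟪ν i, D i⟫ - v i ≠ 0 := fun i => abs_pos.1 (hAi.trans_le (tr i))
  have hne' : ⟪ν (Fin.last k), d⟫ - v (Fin.last k) ≠ 0 := abs_pos.1 (hAi.trans_le tr')
  obtain ⟨b, h1, h2⟩ := span D ν v kill hne d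
  have h0 : ∀ i, ⟪ν i, d⟫ - v i = ∑ j, b j * (⟪ν i, D j⟫ - v i) := fun i => by
    rw [← val, h1, h2, mul_one]
  have hY := h0 (Fin.last k)
  rw [val_last D ν v kill] at hY
  have hYb : |⟪ν (Fin.last k), d⟫ - v (Fin.last k)| ≤ 2 * A := by
    have a1 := abs_real_inner_le_norm (ν (Fin.last k)) d
    have a2 : ‖ν (Fin.last k)‖ * ‖d‖ ≤ 1 * A := mul_le_mul hν hd (norm_nonneg _) zero_le_one
    have a3 := abs_sub (⟪ν (Fin.last k), d⟫) (v (Fin.last k))
    linarith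
  have hb : ∀ c : Fin k, |b c.castSucc| ≤ 2 * A ^ 2 * η := by
    intro c
    have a1 := h0 c.castSucc
    rw [val_cs D ν v kill] at a1
    have a2 := hal c
    have hη : 0 ≤ η := (abs_nonneg _).trans a2
    set x := -(⟪ν c.castSucc, D (Fin.last k)⟫ - v c.castSucc) /
        (⟪ν (Fin.last k), D (Fin.last k)⟫ - v (Fin.last k)) -
      -(⟪ν c.castSucc, d⟫ - v c.castSucc) / (⟪ν (Fin.last k), d⟫ - v (Fin.last k)) with hx
    have a3 : b c.castSucc * (⟪ν c.castSucc, D c.castSucc⟫ - v c.castSucc) =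
        x * (⟪ν (Fin.last k), d⟫ - v (Fin.last k)) := by
      have a4 := hne (Fin.last k)
      rw [hx, sub_mul, div_mul_cancel₀ _ hne', a1]
      nth_rewrite 1 [hY]
      field_simp
      ring
    have a5 : |b c.castSucc| * A⁻¹ ≤ η * (2 * A) := by
      calc |b c.castSucc| * A⁻¹ ≤ |b c.castSucc| * |⟪ν c.castSucc, D c.castSucc⟫ - v c.castSucc| :=
            mul_le_mul_of_nonneg_left (tr _) (abs_nonneg _)
        _ = |x| * |⟪ν (Fin.last k), d⟫ - v (Fin.last k)| := by rw [← abs_mul, a3, abs_mul]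
        _ ≤ η * (2 * A) := mul_le_mul a2 hYb (abs_nonneg _) hη
    rw [← div_eq_mul_inv, div_le_iff₀ hA0] at a5
    linarith
  have h3 : D (Fin.last k) - d = ∑ c : Fin k, b c.castSucc • (D (Fin.last k) - D c.castSucc) := by
    rw [Fin.sum_univ_castSucc] at h1 h2
    simp only [smul_sub]
    rw [Finset.sum_sub_distrib, ← Finset.sum_smul, ← h1, eq_sub_of_add_eq h2, sub_smul, one_smul]
    abel
  rw [h3]
  refine (norm_sum_le _ _).trans ?_
  refine (Finset.sum_le_sum (g := fun _ => 4 * A ^ 3 * η) fun c _ => ?_).trans (by simp)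
  have a1 : ‖D (Fin.last k) - D c.castSucc‖ ≤ 2 * A := by
    have := norm_sub_le (D (Fin.last k)) (D c.castSucc)
    linarith [hD (Fin.last k), hD c.castSucc]
  rw [norm_smul, Real.norm_eq_abs]
  calc |b c.castSucc| * ‖D (Fin.last k) - D c.castSucc‖ ≤ (2 * A ^ 2 * η) * (2 * A) :=
        mul_le_mul (hb c) a1 (norm_nonneg _) ((abs_nonneg _).trans (hb c))
    _ = 4 * A ^ 3 * η := by ring

end Alp

/-- **[ALP]** -/
theorem alp (k : ℕ) : ALP k := by
  intro Ω _ R Z n Cd A hA hC hG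
  have h1 := hc_le_add R (fun ω => Z.dz ω (Fin.last k))
    (fun ω (c : Fin k) => ⌊(2 : ℝ) ^ n * Z.al n c ω⌋) Z.F
  have h2 := hc_pi_le R (fun (c : Fin k) ω => ⌊(2 : ℝ) ^ n * Z.al n c ω⌋) Z.F
  have hr : (0 : ℝ) ≤ 4 * k * A ^ 3 := by positivity
  have hn : (0 : ℝ) < 2 ^ n := by positivity
  have h3 := hc_near R (fun ω => Z.dz ω (Fin.last k))
    (fun ω => (fun c : Fin k => ⌊(2 : ℝ) ^ n * Z.al n c ω⌋, Z.F ω)) hr fun ω ω' hω hω' he l => by
      obtain ⟨e1, e2⟩ := Prod.ext_iff.1 he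
      obtain ⟨e3, e4⟩ := Prod.ext_iff.1 (hG.fn ω ω' hω hω' e2)
      simp only at e1 e2 e3 e4
      have a1 := Alp.close (Z.d n ω) (Z.ν ω) (Z.v ω) A (2 ^ n)⁻¹ hA (Z.d n ω' (Fin.last k))
        (hG.kill ω hω) (hG.tr ω hω) (by rw [e3, e4]; exact hG.tr ω' hω' _)
        (fun i => (hG.bd ω hω i).1.trans hC) ((hG.bd ω' hω' _).1.trans hC) (hG.bd ω hω _).2.1
        ((hG.bd ω hω _).2.2.trans hC) fun c => by
          have b1 := Int.abs_sub_lt_one_of_floor_eq_floor (congrFun e1 c)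
          rw [← mul_sub, abs_mul, abs_of_pos hn, ← lt_div_iff₀' hn, one_div] at b1
          unfold Wn.al at b1
          rw [← e3, ← e4] at b1
          exact b1.le
      have a2 := (coord_le_norm _ l).trans a1
      simp only [PiLp.sub_apply, Wn.d, dd_apply] at a2
      rw [← sub_div, abs_div, abs_of_pos hn, div_le_iff₀ hn] at a2
      refine a2.trans (le_of_eq ?_)
      field_simp
  rw [Fintype.card_fin] at h3
  have h4 : Real.log (2 * (4 * k * A ^ 3) + 1) ≤ Real.log (8 * k * A ^ 3 + 3) :=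
    Real.log_le_log (by linarith) (by linarith)
  have h5 := mul_le_mul_of_nonneg_left h4 (Nat.cast_nonneg (α := ℝ) k)
  linarith

end Vale.Agent.P076N.RG
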