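import Vale.Agent.P076N.RG.Lib
import Vale.Agent.P076.H200.RSGF

/-!
# P076N / RG : the projection theorem in the plane, counting form (row BPc)
-/

set_option linter.all false

open Finset Vale.Agent.P127 Vale.Agent.P127.Stk

namespace Vale.Agent.P076N.RG

open Vale.Agent.P076.H732 (GReg StRSG)

namespace Bpc

theorem pw_pos (a : ℝ) : (0 : ℝ) < 2 ^ a := Real.rpow_pos_of_pos two_pos a

theorem pw_add (a b : ℝ) : (2 : ℝ) ^ (a + b) = 2 ^ a * 2 ^ b := Real.rpow_add two_pos a b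

theorem pw_le {a b : ℝ} (h : a ≤ b) : (2 : ℝ) ^ a ≤ 2 ^ b :=
  Real.rpow_le_rpow_of_exponent_le one_le_two h

theorem pw_nat (a b : ℕ) : (2 : ℝ) ^ (a * b) = 2 ^ ((a : ℝ) * b) := by
  rw [← Real.rpow_natCast]; push_cast; rfl

theorem pw_inv (a b : ℕ) : ((2 : ℝ) ^ (a * b))⁻¹ = 2 ^ (-((a : ℝ) * b)) := by
  rw [pw_nat, Real.rpow_neg zero_le_two]

theorem pw_one : (2 : ℝ) ^ (1 : ℝ) = 2 := Real.rpow_one 2

theorem pw_two : (2 : ℝ) ^ (2 : ℝ) = 4 := by norm_num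

theorem pw4 (a b c : ℝ) : 2 * (2 : ℝ) ^ a * 2 ^ b * 2 ^ c = 2 ^ (1 + a + b + c) := by
  rw [pw_add, pw_add, pw_add, pw_one]

/-- cancel a power -/
theorem cancel {a b c x y : ℝ} (hy : 0 ≤ y) (h : 2 ^ a * x ≤ 2 ^ b * y) (hc : b ≤ a + c) :
    x ≤ 2 ^ c * y := by
  refine le_of_mul_le_mul_left (h.trans ?_) (pw_pos a)
  rw [← mul_assoc, ← pw_add]
  exact mul_le_mul_of_nonneg_right (pw_le hc) hy

theorem cancel' {a b c y : ℝ} (hy : 0 ≤ y) (h : 2 ^ a ≤ 2 ^ b * y) (hc : c + b ≤ a) :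
    2 ^ c ≤ y := by
  refine le_of_mul_le_mul_left (le_trans ?_ h) (pw_pos b)
  rw [← pw_add]
  exact pw_le (by linarith)

open Classical in
/-- the part after the zoom -/
theorem core (h2 : PIN) (h3 : ZM) (s e E' κ : ℝ) (j₀ N' j₁ m : ℕ) (hκ : 0 ≤ κ) (he : 1 ≤ e)
    (hE' : 13 * e ≤ E' * N' * m) (hj₁ : j₁ ≤ N') (hj₁' : (j₁ : ℝ) * m ≤ E' * N' * m)
    (hs : 13 * e ≤ s * j₁ * m)
    (hR : ∀ {ι : Type} (X Y : Finset ℤ) (J : Finset ι) (al : ι → ℝ)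
      (G : ι → Finset (ℤ × ℤ)) (W : ι → Finset ℝ), GReg κ E' N' m X → GReg κ E' N' m Y → J.Nonempty →
      (∀ i ∈ J, (2:ℝ) ^ (-(E' * N' * m)) ≤ |al i| ∧ |al i| ≤ (2:ℝ) ^ (E' * N' * m)) →
      (∀ j ≤ N', ∀ x : ℝ, ((J.filter fun i => |al i - x| ≤ (2:ℝ) ^ (-((j : ℝ) * m))).card : ℝ) ≤
        (2:ℝ) ^ ((-(s * j) + E' * N') * m) * J.card) →
      (∀ i ∈ J, (∀ z ∈ G i, z.1 ∈ X ∧ z.2 ∈ Y) ∧ (2:ℝ) ^ ((2 * κ - E') * N' * m) ≤ ((G i).card : ℝ) ∧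
        ((W i).card : ℝ) ≤ (2:ℝ) ^ ((κ + E') * N' * m) ∧
        ∀ z ∈ G i, ∃ w ∈ W i, |(z.1 : ℝ) + al i * z.2 - w| ≤ (2:ℝ) ^ (E' * N' * m)) → False)
    (ι : Type) (J : Finset ι) (al : ι → ℝ) (P : Finset (ℤ × ℤ)) (Y : Finset ℤ)
    (G : ι → Finset (ℤ × ℤ)) (W : ι → Finset ℤ) (hJ : J.Nonempty)
    (hone : ∀ i ∈ J, ∀ i' ∈ J, |(2 : ℝ) ^ (j₀ * m) * (al i - al i')| ≤ 1)
    (hfro : ∀ j ≤ N', ∀ x : ℝ, (#(J.filter fun i => |al i - x| ≤ ((2 : ℝ) ^ ((j₀ + j) * m))⁻¹) : ℝ) ≤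
      3 * (2 : ℝ) ^ (-(s * j * m)) * #J)
    (hP : (#P : ℝ) ≤ (2 : ℝ) ^ (2 * κ * (((j₀ : ℝ) + N') * m) + e)) (hY : TReg κ e (j₀ + N') m Y)
    (hYb : ∀ y ∈ Y, |(y : ℝ)| ≤ (2 : ℝ) ^ (((j₀ : ℝ) + N') * m + e))
    (hG : ∀ i ∈ J, G i ⊆ P ∧ (2 : ℝ) ^ (2 * κ * (((j₀ : ℝ) + N') * m) - e) ≤ #(G i) ∧
      TReg κ e (j₀ + N') m (W i) ∧
      ∀ z ∈ G i, z.2 ∈ Y ∧ ∃ w ∈ W i, |(z.1 : ℝ) + al i * z.2 - w| ≤ (2 : ℝ) ^ e) : False := by
  have hw : ∀ i z, ∃ w : ℤ, i ∈ J → z ∈ G i → w ∈ W i ∧ |(z.1 : ℝ) + al i * z.2 - w| ≤ (2 : ℝ) ^ e := by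
    intro i z
    by_cases h : i ∈ J ∧ z ∈ G i
    · obtain ⟨w, hw⟩ := ((hG i h.1).2.2.2 z h.2).2
      exact ⟨w, fun _ _ => hw⟩
    · exact ⟨0, fun a b => absurd ⟨a, b⟩ h⟩
  choose w hw using hw
  have hZ := fun i (hi : i ∈ J) (t : ℤ) =>
    h3 κ e E' j₀ N' m Y (W i) t hκ (by linarith) (by linarith) hY (hG i hi).2.2.1 hYb
  obtain ⟨i₀, hi₀, t, J', hJ', hc, hg⟩ := h2 ι (ℤ × ℤ) ℤ J P G (fun i z => w i z / 2 ^ (N' * m))
    (2 ^ (2 * κ * (((j₀ : ℝ) + N') * m) + e)) (2 ^ (2 * κ * (((j₀ : ℝ) + N') * m) - e))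
    (2 ^ (κ * j₀ * m + e)) (2 ^ (κ * ((j₀ : ℝ) + 2 * N') * m + 3 * e + 2)) hJ (pw_pos _) hP
    fun i hi => by
      refine ⟨(hG i hi).1, (hG i hi).2.1, ?_, fun t => ?_⟩
      · have a1 := (hG i hi).2.2.1.all N' (Nat.le_add_left _ _)
        push_cast at a1
        rw [add_sub_cancel_right] at a1
        refine le_trans ?_ a1
        refine Nat.cast_le.2 (card_le_card fun x hx => ?_)
        simp only [mem_image] at hx ⊢
        obtain ⟨z, hz, rfl⟩ := hx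
        exact ⟨w i z, (hw i z hi hz).1, rfl⟩
      · refine (hZ i hi t).2.2.1 (al i) _ (w i) fun z hz => ?_
        simp only [mem_filter] at hz
        exact ⟨((hG i hi).2.2.2 z hz.1).1, (hw i z hi hz.1).1, hz.2, (hw i z hi hz.1).2⟩
  have hc' : (#J : ℝ) ≤ 2 ^ (7 * e + 3) * #J' := by
    rw [sq, ← pw_add, pw4] at hc
    exact cancel (Nat.cast_nonneg _) hc (le_of_eq (by ring))
  have hex : ∀ i, ∃ (G' : Finset (ℤ × ℤ)) (W' : Finset ℝ), i ∈ J' →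
      (∀ z ∈ G', z.1 ∈ XS (W i₀) (N' * m) t ∧ z.2 ∈ YS Y (j₀ * m)) ∧
      (2:ℝ) ^ ((2 * κ - E') * N' * m) ≤ (#G' : ℝ) ∧ (#W' : ℝ) ≤ (2:ℝ) ^ ((κ + E') * N' * m) ∧
      ∀ z ∈ G', ∃ w ∈ W', |(z.1 : ℝ) + (2 : ℝ) ^ (j₀ * m) * (al i - al i₀) * z.2 - w| ≤
        (2:ℝ) ^ (E' * N' * m) := by
    intro i
    by_cases hi : i ∈ J'
    swap
    · exact ⟨∅, ∅, fun h => absurd h hi⟩
    have hiJ := hJ' hi
    obtain ⟨G', W', b1, b2, b3, b4⟩ := (hZ i₀ hi₀ t).2.2.2 (al i₀) (al i) (W i)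
      ((G i₀ ∩ G i).filter fun z => w i₀ z / 2 ^ (N' * m) = t) (w i₀) (hG i hiJ).2.2.1
      (hone i hiJ i₀ hi₀) fun z hz => by
        simp only [mem_filter, mem_inter] at hz
        exact ⟨((hG i hiJ).2.2.2 z hz.1.2).1, (hw i₀ z hi₀ hz.1.1).1, hz.2, (hw i₀ z hi₀ hz.1.1).2,
          w i z, hw i z hiJ hz.1.2⟩
    refine ⟨G', W', fun _ => ⟨b1, ?_, b3.trans (pw_le (by linarith)), fun z hz => ?_⟩⟩
    · have b5 := (hg i hi).trans (mul_le_mul_of_nonneg_left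
        (le_of_eq_of_le (by congr; exact Subsingleton.elim _ _) b2) (by positivity))
      rw [← mul_assoc _ _ (#G' : ℝ), pw4, sq, ← pw_add] at b5
      exact cancel' (Nat.cast_nonneg _) b5 (by linarith)
    · obtain ⟨u, hu, hu'⟩ := b4 z hz
      exact ⟨u, hu, hu'.trans (pw_le (by linarith))⟩
  choose G' W' hGW using hex
  set J'' := J'.filter fun i => ¬ |al i - al i₀| ≤ ((2 : ℝ) ^ ((j₀ + j₁) * m))⁻¹ with hJ''
  have hsub : J'' ⊆ J' := filter_subset _ _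
  have hhalf : (#J' : ℝ) ≤ 2 * #J'' := by
    have a1 : (#J' : ℝ) = #(J'.filter fun i => |al i - al i₀| ≤ ((2 : ℝ) ^ ((j₀ + j₁) * m))⁻¹) + #J'' := by
      rw [hJ'', ← Nat.cast_add, card_filter_add_card_filter_not]
    have a2 : (#(J'.filter fun i => |al i - al i₀| ≤ ((2 : ℝ) ^ ((j₀ + j₁) * m))⁻¹) : ℝ) ≤
        3 * (2 : ℝ) ^ (-(s * j₁ * m)) * #J :=
      le_trans (Nat.cast_le.2 (card_le_card (filter_subset_filter _ hJ'))) (hfro j₁ hj₁ _)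
    have a3 : (2 : ℝ) ^ (-(s * j₁ * m)) * 2 ^ (7 * e + 3) ≤ 2 ^ (-3 : ℝ) := by
      rw [← pw_add]; exact pw_le (by linarith)
    have a4 : (2 : ℝ) ^ (-3 : ℝ) = 1 / 8 := by norm_num
    have a5 : (2 : ℝ) ^ (-(s * j₁ * m)) * #J ≤ 2 ^ (-(s * j₁ * m)) * (2 ^ (7 * e + 3) * #J') :=
      mul_le_mul_of_nonneg_left hc' (pw_pos _).le
    have a6 := mul_le_mul_of_nonneg_right a3 (Nat.cast_nonneg (α := ℝ) #J')
    have a7 : (0 : ℝ) ≤ #J' := Nat.cast_nonneg _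
    rw [a4] at a6
    linarith
  have hJJ : (#J : ℝ) ≤ 2 ^ (7 * e + 3) * (2 * #J'') :=
    hc'.trans (mul_le_mul_of_nonneg_left hhalf (pw_pos _).le)
  have hp0 : (0 : ℝ) < 2 ^ (j₀ * m) := by positivity
  refine hR (XS (W i₀) (N' * m) t) (YS Y (j₀ * m)) J'' (fun i => (2 : ℝ) ^ (j₀ * m) * (al i - al i₀))
    G' W' (hZ i₀ hi₀ t).1 (hZ i₀ hi₀ t).2.1 ?_ (fun i hi => ⟨?_, ?_⟩) (fun j hj x => ?_)
    fun i hi => hGW i (hsub hi)
  · rw [← card_pos]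
    by_contra h0
    have h1 : #J'' = 0 := by omega
    have h2 : (0 : ℝ) < #J := by exact_mod_cast card_pos.2 hJ
    rw [h1] at hJJ
    simp only [Nat.cast_zero, mul_zero] at hJJ
    linarith
  · have a1 := (not_le.1 (mem_filter.1 hi).2).le
    rw [abs_mul, abs_of_pos hp0]
    refine le_trans ?_ (mul_le_mul_of_nonneg_left a1 hp0.le)
    rw [pw_inv, pw_nat, ← pw_add]
    refine pw_le ?_
    push_cast
    linarith
  · refine (hone i (hJ' (hsub hi)) i₀ hi₀).trans ?_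
    rw [← Real.rpow_zero 2]
    exact pw_le (by linarith)
  · have a1 : (#(J''.filter fun i => |(2 : ℝ) ^ (j₀ * m) * (al i - al i₀) - x| ≤
        (2:ℝ) ^ (-((j : ℝ) * m))) : ℝ) ≤
        #(J.filter fun i => |al i - (al i₀ + x / 2 ^ (j₀ * m))| ≤ ((2 : ℝ) ^ ((j₀ + j) * m))⁻¹) := by
      refine Nat.cast_le.2 (card_le_card fun i hi => ?_)
      rw [mem_filter] at hi ⊢
      refine ⟨hJ' (hsub hi.1), ?_⟩
      have b1 : al i - (al i₀ + x / 2 ^ (j₀ * m)) =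
          ((2 : ℝ) ^ (j₀ * m) * (al i - al i₀) - x) / 2 ^ (j₀ * m) := by
        field_simp
        ring
      rw [b1, abs_div, abs_of_pos hp0, div_le_iff₀ hp0]
      refine hi.2.trans (le_of_eq ?_)
      rw [pw_inv, pw_nat, ← pw_add]
      congr 1
      push_cast
      ring
    refine a1.trans ((hfro j hj _).trans ?_)
    have a2 : (2 : ℝ) ^ (-(s * j * m)) * 2 ^ (7 * e + 3) * 2 ^ (3 : ℝ) ≤
        2 ^ ((-(s * j) + E' * N') * m) := by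
      rw [← pw_add, ← pw_add]; exact pw_le (by linarith)
    have a3 : (2 : ℝ) ^ (3 : ℝ) = 8 := by norm_num
    have a4 := mul_le_mul_of_nonneg_right a2 (Nat.cast_nonneg (α := ℝ) #J'')
    have a5 := mul_le_mul_of_nonneg_left hJJ (pw_pos (-(s * j * m))).le
    have a6 : 0 ≤ (2 : ℝ) ^ (-(s * j * m)) * 2 ^ (7 * e + 3) * #J'' := by positivity
    rw [a3] at a4
    linarith

end Bpc

open Bpc in
/-- **[BPc]** -/
theorem bpc (h1 : FRO) (h2 : PIN) (h3 : ZM) : BPc := by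
  classical
  intro γ σ₀ hγ hσ₀
  by_cases hγ' : γ ≤ 1 - γ
  swap
  · exact ⟨1, 1, 0, one_pos, le_rfl, fun m κ _ a b => absurd (a.trans b) hγ'⟩
  obtain ⟨σ, hσ, hσ1, hσ2⟩ : ∃ σ : ℝ, 0 < σ ∧ σ ≤ 1 ∧ σ ≤ σ₀ :=
    ⟨min σ₀ 1, by positivity, min_le_right _ _, min_le_left _ _⟩
  obtain ⟨E', N₀, hE', hR⟩ := P076.H200.rsg γ (1 - γ) (σ / 2) hγ hγ' (by linarith) (by positivity)
  choose! M hM using hR
  obtain ⟨D, hD, hD1, hD2⟩ : ∃ D : ℝ, 0 < D ∧ D ≤ 1 ∧ D ≤ E' :=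
    ⟨min E' 1, by positivity, min_le_right _ _, min_le_left _ _⟩
  obtain ⟨N, hN⟩ := exists_nat_ge (4 * (N₀ + 2 / D) / σ)
  rw [div_le_iff₀ hσ] at hN
  have hD3 : 2 ≤ 2 / D := by rw [le_div_iff₀ hD]; linarith
  have hN0 : (0 : ℝ) ≤ N₀ := Nat.cast_nonneg _
  have hN1 : (1 : ℝ) ≤ N := by nlinarith [Nat.cast_nonneg (α := ℝ) N]
  have hE : 0 < σ ^ 2 * D / 224 := by positivity
  obtain ⟨m₁, hm₁⟩ := exists_nat_ge (1 / (σ ^ 2 * D / 224))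
  rw [div_le_iff₀ hE] at hm₁
  refine ⟨σ ^ 2 * D / 224, N, m₁ + (range (N + 1)).sup M, hE, by exact_mod_cast hN1, ?_⟩
  intro m κ hm hκ1 hκ2 ι J al P Y G W hJ hinj hP hY hYb hG
  have hm1 : (m₁ : ℝ) ≤ m := by exact_mod_cast le_trans (Nat.le_add_right _ _) hm
  set e : ℝ := σ ^ 2 * D / 224 * N * m with he
  have hm0 : (0 : ℝ) ≤ m := Nat.cast_nonneg _
  have he1 : 1 ≤ e := by
    have a1 : (m₁ : ℝ) * (σ ^ 2 * D / 224) ≤ m * (σ ^ 2 * D / 224) :=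
      mul_le_mul_of_nonneg_right hm1 hE.le
    have a2 : (m * (σ ^ 2 * D / 224)) * 1 ≤ (m * (σ ^ 2 * D / 224)) * N :=
      mul_le_mul_of_nonneg_left hN1 (by positivity)
    linarith
  have hmp : (0 : ℝ) < m := by
    rcases hm0.eq_or_lt with h | h
    · rw [he, ← h] at he1; norm_num at he1
    · exact h
  have hn0 : (0 : ℝ) ≤ N * m := by positivity
  have hJne : J.Nonempty := by
    rw [← card_pos]
    exact_mod_cast (pw_pos _).trans_le hJ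
  obtain ⟨j₀, hj₀, c, hne, hcard, hfro⟩ := h1 ι J al N m (σ / 2) (2 ^ e) (by positivity)
    (pw_pos _).le hJne (fun i hi => (hG i hi).1) hinj
  obtain ⟨N', rfl⟩ := Nat.exists_eq_add_of_le hj₀
  rw [Nat.add_sub_cancel_left, pw_nat] at hcard
  push_cast at *
  have hσe : 224 * e ≤ σ * ((j₀ + N') * m) := by
    have a1 : σ * D ≤ 1 := mul_le_one₀ hσ1 hD.le hD1
    have a2 : σ * ((j₀ + N') * m) * (σ * D) ≤ σ * ((j₀ + N') * m) * 1 :=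
      mul_le_mul_of_nonneg_left a1 (by positivity)
    rw [he]
    linarith
  have hn' : σ * ((j₀ + N') * m) ≤ 4 * (N' * m) := by
    have a1 : (1 : ℝ) ≤ 2 ^ e := by rw [← Real.rpow_zero 2]; exact pw_le (by linarith)
    have a2 : (2 : ℝ) ^ (σ * ((j₀ + N') * m)) ≤ 2 ^ (2 + e + N' * m + σ / 2 * j₀ * m) := by
      refine (pw_le ?_).trans (hJ.trans (hcard.trans ?_))
      · have := mul_le_mul_of_nonneg_right hσ2 hn0
        linarith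
      · rw [pw_add, pw_add, pw_add, pw_two]
        gcongr
        linarith
    have a3 := (Real.rpow_le_rpow_left_iff one_lt_two).1 a2
    have a4 : 0 ≤ σ * (N' * m) := by positivity
    linarith
  have hN' : N₀ + 2 / D ≤ N' := by
    refine le_of_mul_le_mul_right ?_ hmp
    have := mul_le_mul_of_nonneg_right hN hm0
    linarith
  have hDN : 2 ≤ D * N' := by
    have a1 : 2 / D ≤ N' := by linarith
    rwa [div_le_iff₀' hD] at a1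
  have hN'0 : (0 : ℝ) ≤ N' := Nat.cast_nonneg _
  have hf1 : (⌊D * N'⌋₊ : ℝ) ≤ D * N' := Nat.floor_le (by positivity)
  have hf2 : D * N' ≤ 2 * ⌊D * N'⌋₊ := by linarith [Nat.lt_floor_add_one (D * N')]
  have hkey : 56 * e ≤ σ * D * (N' * m) := by
    have := mul_le_mul_of_nonneg_left hn' (mul_pos hσ hD).le
    rw [he]
    linarith
  have hDE : D * (N' * m) ≤ E' * (N' * m) := mul_le_mul_of_nonneg_right hD2 (by positivity)
  refine core h2 h3 (σ / 2) e E' κ j₀ N' ⌊D * N'⌋₊ m (by linarith) he1 ?_ ?_ ?_ ?_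
    (hM N' (by exact_mod_cast (by linarith : (N₀ : ℝ) ≤ N')) (by exact_mod_cast (by linarith : (1 : ℝ) ≤ N'))
      m κ ?_ hκ1 hκ2)
    ι (J.filter fun i => ⌊(2 : ℝ) ^ (j₀ * m) * al i⌋ = c) al P Y G W hne ?_ ?_ ?_ hY ?_ ?_
  · have : σ * (D * (N' * m)) ≤ 1 * (D * (N' * m)) := mul_le_mul_of_nonneg_right hσ1 (by positivity)
    linarith
  · have : D * N' ≤ 1 * N' := mul_le_mul_of_nonneg_right hD1 hN'0
    exact_mod_cast (by linarith : (⌊D * N'⌋₊ : ℝ) ≤ N')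
  · have := mul_le_mul_of_nonneg_right hf1 hm0
    linarith
  · have := mul_le_mul_of_nonneg_right hf2 (mul_pos hσ hmp).le
    linarith
  · exact le_trans (le_sup (f := M) (mem_range.2 (by omega))) (le_trans (Nat.le_add_left _ _) hm)
  · intro i hi i' hi'
    rw [mul_sub]
    exact (Int.abs_sub_lt_one_of_floor_eq_floor
      ((mem_filter.1 hi).2.trans (mem_filter.1 hi').2.symm)).le
  · intro j hj x
    refine le_trans (Nat.cast_le.2 (card_le_card ?_)) (hfro j (by omega) x)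
    exact filter_subset_filter _ (filter_subset _ _)
  · refine hP.trans (le_of_eq ?_)
    congr 1
    rw [he]
    ring
  · intro y hy
    refine (hYb y hy).trans (le_of_eq ?_)
    congr 1
    rw [he]
    ring
  · intro i hi
    obtain ⟨-, a1, a2, a3, a4⟩ := hG i (mem_filter.1 hi).1
    refine ⟨a1, le_trans (le_of_eq ?_) a2, a3, a4⟩
    congr 1
    rw [he]
    ring

end Vale.Agent.P076N.RG
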