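import Vale.Agent.P076N.RG.Lib

/-!
# P076N / RG : the row BPe, from the hereditary entropy form to the counting form
-/

set_option linter.all false

open Finset Vale.Agent.P127 Vale.Agent.P127.Stk

namespace Vale.Agent.P076N.RG

namespace Bpe

variable {Ω : Type} [Fintype Ω]

theorem two_rpow (s : ℝ) : (2 : ℝ) ^ s = Real.exp (s * Real.log 2) := by
  rw [Real.rpow_def_of_pos (by norm_num), mul_comm]

/-- upper bound for the number of values off the bad event -/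
theorem cnt_le (h1 : AEP) {S T : Type} (R : Law Ω) (X : Ω → S) (Y : Ω → T) (E : Ω → Prop) {Λ s e e' : ℝ}
    (hΛ : 0 < Λ) (y : T)
    (hE : ∀ ω, E ω → 0 < R.w ω ∧ Y ω = y ∧ ¬ 2 * Λ * ci R X Y ω ≤ Real.exp (-(s * Real.log 2 + e)))
    (he : 2 * Λ * Real.exp e ≤ (2 : ℝ) ^ e') (A : Finset S) (hA : ∀ x ∈ A, ∃ ω, E ω ∧ X ω = x) :
    (#A : ℝ) ≤ (2 : ℝ) ^ (s + e') := by
  classical
  have h3 := (h1 Ω S T R X Y).2.2.1 E (Real.exp (-(s * Real.log 2 + e)) / (2 * Λ)) y fun ω hω =>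
    ⟨(hE ω hω).1, (hE ω hω).2.1, by
      have := (hE ω hω).2.2
      rw [div_le_iff₀ (by positivity)]
      linarith⟩
  have h4 : (#A : ℝ) ≤ #((univ.filter E).image X) := by
    refine Nat.cast_le.2 (card_le_card fun x hx => ?_)
    obtain ⟨ω, hω, rfl⟩ := hA x hx
    exact mem_image.2 ⟨ω, mem_filter.2 ⟨mem_univ _, hω⟩, rfl⟩
  have h5 : Real.exp (-(s * Real.log 2 + e)) / (2 * Λ) * #A ≤ 1 :=
    le_trans (mul_le_mul_of_nonneg_left h4 (by positivity)) h3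
  have h6 : (#A : ℝ) ≤ 2 * Λ * Real.exp (s * Real.log 2 + e) := by
    rw [Real.exp_neg, div_mul_eq_mul_div, div_le_one (by positivity), inv_mul_le_iff₀ (by positivity)] at h5
    linarith
  rw [Real.rpow_add (by norm_num), two_rpow s]
  rw [Real.exp_add] at h6
  have h7 := mul_le_mul_of_nonneg_left he (Real.exp_pos (s * Real.log 2)).le
  linarith

/-- lower bound for the number of values -/
theorem le_cnt (h1 : AEP) {S T : Type} (R : Law Ω) (X : Ω → S) (Y : Ω → T) (E : Ω → Prop) {t : ℝ} (ht : 0 ≤ t)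
    (y : T) (hE : ∀ ω, E ω → Y ω = y ∧ ci R X Y ω ≤ t) (A : Finset S) (hA : ∀ ω, E ω → X ω ∈ A) :
    prE R E ≤ t * #A * R.pr Y y := by
  classical
  have h3 := (h1 Ω S T R X Y).2.2.2.1 E t y hE
  have h4 : (#((univ.filter E).image X) : ℝ) ≤ #A := by
    refine Nat.cast_le.2 (card_le_card fun x hx => ?_)
    obtain ⟨ω, hω, rfl⟩ := mem_image.1 hx
    exact hA ω (mem_filter.1 hω).2
  exact h3.trans (mul_le_mul_of_nonneg_right (mul_le_mul_of_nonneg_left h4 ht) (R.pr_nonneg Y y))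

theorem div_div_pow (x : ℤ) {a b : ℕ} (h : a ≤ b) : x / 2 ^ b = x / 2 ^ a / 2 ^ (b - a) := by
  rw [Int.ediv_ediv_of_nonneg (by positivity), ← pow_add, Nat.add_sub_cancel' h]

theorem hc_two {T : Type} (Q : Law Ω) (Z : Ω → ℤ) (C : Ω → T) {a b : ℕ} (h : a ≤ b) :
    hc Q (fun ω => Z ω / 2 ^ a) (fun ω => (Z ω / 2 ^ b, C ω)) =
      hc Q (fun ω => Z ω / 2 ^ a) C - hc Q (fun ω => Z ω / 2 ^ b) C := by
  have h1 := hc_pair Q (fun ω => Z ω / 2 ^ b) (fun ω => Z ω / 2 ^ a) C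
  have h2 : hc Q (fun ω => (Z ω / 2 ^ b, Z ω / 2 ^ a)) C = hc Q (fun ω => Z ω / 2 ^ a) C := by
    refine hc_congr Q (fun ω ω' _ _ e => ?_) (fun ω ω' _ _ e => ?_) (fun ω ω' _ _ e => e) (fun ω ω' _ _ e => e)
    · simp only [Prod.mk.injEq] at e ⊢
      refine ⟨?_, e.1⟩
      rw [div_div_pow _ h, div_div_pow (Z ω') h, e.1]
    · simp only [Prod.mk.injEq] at e
      exact e.1.2
  linarith

/-- regular sets off a small event -/
theorem treg (h1 : AEP) {T : Type} (R : Law Ω) (Z : Ω → ℤ) (C : Ω → T) {Λ κ e e' : ℝ} (hΛ : 0 < Λ) (he0 : 0 ≤ e)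
    (N m : ℕ) (he : 2 * Λ * Real.exp (2 * e) ≤ (2 : ℝ) ^ e')
    (hQ : ∀ Q : Law Ω, Dom Q id R Λ → ∀ a ≤ N * m,
      |hc Q (fun ω => Z ω / 2 ^ a) C - κ * ((N : ℝ) * m - a) * Real.log 2| ≤ e) :
    ∃ B : Ω → Prop, prE R B ≤ (((N : ℝ) + 1) ^ 2 + (N + 1)) / Λ ∧
      ∀ (c : T) (A : Finset ℤ), (∀ x ∈ A, ∃ ω, (0 < R.w ω ∧ C ω = c ∧ ¬ B ω) ∧ Z ω = x) → TReg κ e' N m A := by
  classical
  let B1 : ℕ × ℕ → Ω → Prop := fun p ω => p.1 ≤ p.2 ∧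
    2 * Λ * ci R (fun ω => Z ω / 2 ^ (p.1 * m)) (fun ω => (Z ω / 2 ^ (p.2 * m), C ω)) ω ≤
      Real.exp (-(κ * ((p.2 : ℝ) - p.1) * m * Real.log 2 + 2 * e))
  let B2 : ℕ → Ω → Prop := fun i ω =>
    2 * Λ * ci R (fun ω => Z ω / 2 ^ (i * m)) C ω ≤ Real.exp (-(κ * ((N : ℝ) - i) * m * Real.log 2 + 2 * e))
  have hb1 : ∀ p ∈ range (N + 1) ×ˢ range (N + 1), prE R (B1 p) ≤ 1 / Λ := by
    intro p hp
    have hp2 : p.2 ≤ N := Nat.lt_succ_iff.1 (mem_range.1 (mem_product.1 hp).2)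
    by_cases h : p.1 ≤ p.2
    · refine le_trans (prE_mono R fun ω _ hω => hω.2) ((h1 Ω _ _ R _ _).1 Λ _ hΛ fun Q hd => ?_)
      rw [hc_two Q Z C (Nat.mul_le_mul_right m h)]
      have a1 := abs_le.1 (hQ Q hd (p.1 * m) (Nat.mul_le_mul_right m (h.trans hp2)))
      have a2 := abs_le.1 (hQ Q hd (p.2 * m) (Nat.mul_le_mul_right m hp2))
      push_cast at a1 a2
      nlinarith [a1.2, a2.1]
    · refine le_trans (prE_mono R (E' := fun _ => False) fun ω _ hω => h hω.1) ?_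
      have : prE R (fun _ => False) = 0 := by simp [prE]
      rw [this]
      positivity
  have hb2 : ∀ i ∈ range (N + 1), prE R (B2 i) ≤ 1 / Λ := by
    intro i hi
    have hi' : i ≤ N := Nat.lt_succ_iff.1 (mem_range.1 hi)
    refine (h1 Ω _ _ R _ _).1 Λ _ hΛ fun Q hd => ?_
    have a1 := abs_le.1 (hQ Q hd (i * m) (Nat.mul_le_mul_right m hi'))
    push_cast at a1
    nlinarith [a1.2]
  refine ⟨fun ω => (∃ p ∈ range (N + 1) ×ˢ range (N + 1), B1 p ω) ∨ ∃ i ∈ range (N + 1), B2 i ω, ?_, ?_⟩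
  · refine (prE_or R _ _).trans ?_
    have a1 := (prE_ex R _ B1).trans (sum_le_card_nsmul _ _ _ hb1)
    have a2 := (prE_ex R _ B2).trans (sum_le_card_nsmul _ _ _ hb2)
    simp only [card_product, card_range, nsmul_eq_mul] at a1 a2
    push_cast at a1 a2
    rw [add_div, div_eq_mul_one_div (((N : ℝ) + 1) ^ 2), div_eq_mul_one_div ((N : ℝ) + 1), sq]
    exact add_le_add a1 a2
  · intro c A hA
    constructor
    · intro i j hij hj c'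
      refine cnt_le h1 R (fun ω => Z ω / 2 ^ (i * m)) (fun ω => (Z ω / 2 ^ (j * m), C ω))
        (fun ω => 0 < R.w ω ∧ (Z ω / 2 ^ (j * m), C ω) = (c', c) ∧ ¬ B1 (i, j) ω) hΛ (c', c)
        (fun ω hω => ⟨hω.1, hω.2.1, fun h => hω.2.2 ⟨hij, h⟩⟩) he _ fun x hx => ?_
      obtain ⟨z, hz, rfl⟩ := mem_image.1 hx
      obtain ⟨hz1, hz2⟩ := mem_filter.1 hz
      obtain ⟨ω, hω, rfl⟩ := hA z hz1
      refine ⟨ω, ⟨hω.1, by rw [hz2, hω.2.1], fun h => hω.2.2 (Or.inl ⟨(i, j), ?_, h⟩)⟩, rfl⟩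
      exact mem_product.2 ⟨mem_range.2 (by omega), mem_range.2 (by omega)⟩
    · intro i hi
      refine cnt_le h1 R (fun ω => Z ω / 2 ^ (i * m)) C (fun ω => 0 < R.w ω ∧ C ω = c ∧ ¬ B2 i ω) hΛ c
        (fun ω hω => hω) he _ fun x hx => ?_
      obtain ⟨z, hz, rfl⟩ := mem_image.1 hx
      obtain ⟨ω, hω, rfl⟩ := hA z hz
      exact ⟨ω, ⟨hω.1, hω.2.1, fun h => hω.2.2 (Or.inr ⟨i, mem_range.2 (by omega), h⟩)⟩, rfl⟩

/-- decomposition along the fibres -/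
theorem prE_fib {T : Type} (R : Law Ω) (C : Ω → T) (E : Ω → Prop) :
    prE R E = ∑ c ∈ img C, prE R fun ω => E ω ∧ C ω = c := by
  classical
  unfold prE
  simp only [sum_filter]
  rw [sum_comm]
  refine sum_congr rfl fun ω _ => ?_
  rw [sum_eq_single (C ω)]
  · simp
  · intro c _ hc
    rw [if_neg fun h => hc h.2.symm]
  · intro h
    exact absurd (mem_img.2 ⟨ω, rfl⟩) h

theorem pr_eq {T : Type} (R : Law Ω) (C : Ω → T) (c : T) : R.pr C c = prE R fun ω => C ω = c := by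
  unfold Law.pr prE
  congr

theorem prE_split (R : Law Ω) (E B : Ω → Prop) :
    prE R E ≤ prE R (fun ω => B ω ∧ E ω) + prE R fun ω => ¬ B ω ∧ E ω :=
  le_trans (prE_mono R fun ω _ h => by tauto) (prE_or R _ _)

/-- the fibres which are mostly bad have small probability -/
theorem bad_fib {T : Type} (R : Law Ω) (C : Ω → T) (B : Ω → Prop) :
    prE R (fun ω => ¬ R.pr C (C ω) / 2 ≤ prE R fun ω' => ¬ B ω' ∧ C ω' = C ω) ≤ 2 * prE R B := by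
  rw [prE_fib R C, prE_fib R C B, mul_sum]
  refine sum_le_sum fun c _ => ?_
  by_cases h : R.pr C c / 2 ≤ prE R fun ω' => ¬ B ω' ∧ C ω' = c
  · refine le_trans (prE_mono R (E' := fun _ => False) fun ω _ hω => hω.1 (by rw [hω.2]; exact h)) ?_
    have : prE R (fun _ => False) = 0 := by simp [prE]
    rw [this]
    exact mul_nonneg (by norm_num) (prE_nonneg _ _)
  · have a1 := prE_split R (fun ω => C ω = c) B
    have a2 := prE_mono R (E := fun ω => (¬ R.pr C (C ω) / 2 ≤ prE R fun ω' => ¬ B ω' ∧ C ω' = C ω) ∧ C ω = c)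
      (E' := fun ω => C ω = c) fun ω _ hω => hω.2
    rw [pr_eq] at h
    linarith

/-- a popular fibre -/
theorem pop_fib {T : Type} (R : Law Ω) (C : Ω → T) (H : Ω → Prop) {p : ℝ} (hp : p < prE R H) :
    ∃ c, p * R.pr C c < prE R fun ω => H ω ∧ C ω = c := by
  by_contra hn
  push Not at hn
  have a1 : prE R H ≤ ∑ c ∈ img C, p * R.pr C c := by
    rw [prE_fib R C]
    exact sum_le_sum fun c _ => hn c
  rw [← mul_sum, R.sum_pr_image, mul_one] at a1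
  linarith

/-- many points have a small conditional probability of the cell -/
theorem rich (h1 : AEP) {T : Type} (R : Law Ω) (C : Ω → T) (al : Ω → ℝ) {σ : ℝ} {n : ℕ} (hσ : 0 < σ) (hn : (2 : ℝ) ≤ n)
    (hn' : 4 ≤ σ * n) (ha : ∀ ω, 0 < R.w ω → |al ω| ≤ (2 : ℝ) ^ (n : ℝ))
    (hh : σ * n ≤ hc R (fun ω => ⌊(2 : ℝ) ^ n * al ω⌋) C) :
    σ / 12 ≤ prE R fun ω => ci R (fun ω => ⌊(2 : ℝ) ^ n * al ω⌋) C ω ≤ Real.exp (-(σ * n / 2)) := by
  have h2n : (1 : ℝ) ≤ 2 ^ n := one_le_pow₀ (by norm_num)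
  have a1 := (h1 Ω _ _ R (fun ω => ⌊(2 : ℝ) ^ n * al ω⌋) C).2.2.2.2
    (Finset.Icc (0 - ⌊(2 : ℝ) ^ n * 2 ^ n + 1⌋) (0 + ⌊(2 : ℝ) ^ n * 2 ^ n + 1⌋)) (σ * n / 2) (by positivity) fun ω hω => by
      refine mem_Icc_near ?_
      have a2 := floor_sub_le (x := (2 : ℝ) ^ n * al ω) (y := 0) (r := (2 : ℝ) ^ n * 2 ^ n) (by
        rw [sub_zero, abs_mul, abs_of_pos (by positivity)]
        have := ha ω hω
        rw [Real.rpow_natCast] at this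
        exact mul_le_mul_of_nonneg_left this (by positivity))
      simpa using a2
  have a3 := card_Icc_le 0 ((2 : ℝ) ^ n * 2 ^ n + 1) (by positivity)
  generalize (Finset.Icc (0 - ⌊(2 : ℝ) ^ n * 2 ^ n + 1⌋) (0 + ⌊(2 : ℝ) ^ n * 2 ^ n + 1⌋)).card = c at a1 a3
  have hl := Real.log_two_lt_d9
  have a4 : Real.log c ≤ 3 * n := by
    rcases Nat.eq_zero_or_pos c with h0 | h0
    · simp [h0]
    · have a5 : (c : ℝ) ≤ 2 ^ (2 * n + 3) := by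
        rw [pow_add, two_mul, pow_add]
        nlinarith
      have a6 := Real.log_le_log (by exact_mod_cast h0) a5
      rw [Real.log_pow] at a6
      push_cast at a6
      nlinarith
  have a7 := mul_le_mul_of_nonneg_left a4
    (prE_nonneg R fun ω => ci R (fun ω => ⌊(2 : ℝ) ^ n * al ω⌋) C ω ≤ Real.exp (-(σ * n / 2)))
  generalize (prE R fun ω => ci R (fun ω => ⌊(2 : ℝ) ^ n * al ω⌋) C ω ≤ Real.exp (-(σ * n / 2))) = p at a1 a7 ⊢
  by_contra hc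
  push Not at hc
  nlinarith

/-- the numerical facts -/
theorem consts {σ Ec E Λ n : ℝ} (hσ : 0 < σ) (hEc : 0 < Ec) (hE0 : 0 < E) (hE8 : E ≤ Ec / 8) (hΛ2 : 2 ≤ Λ)
    (hn : 2 + 192 / σ ^ 2 + 8 * Λ / Ec + 4 / σ ≤ n) :
    2 ≤ n ∧ 4 ≤ σ * n ∧ 192 ≤ n * σ ^ 2 ∧ 2 * Λ * Real.exp (2 * (E * n)) ≤ (2 : ℝ) ^ (Ec * n) ∧
      2 * Λ * Real.exp (E * n) ≤ (2 : ℝ) ^ (Ec * n) ∧ (2 : ℝ) ^ (E * n) ≤ (2 : ℝ) ^ (Ec * n) ∧
      (2 : ℝ) ^ ((1 + E) * n) ≤ (2 : ℝ) ^ ((1 + Ec) * n) := by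
  have hΛ : 0 < Λ := by linarith
  have p1 : 0 < 192 / σ ^ 2 := by positivity
  have p2 : 0 < 8 * Λ / Ec := by positivity
  have p3 : 0 < 4 / σ := by positivity
  have hn2 : (2 : ℝ) ≤ n := by linarith
  have hn3 : 192 ≤ n * σ ^ 2 := (div_le_iff₀ (by positivity)).1 (by linarith)
  have hn4 : 8 * Λ ≤ n * Ec := (div_le_iff₀ hEc).1 (by linarith)
  have hn5 : 4 ≤ n * σ := (div_le_iff₀ hσ).1 (by linarith)
  have hl := Real.log_two_gt_d9
  have hEn : 0 ≤ E * n := by positivity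
  have hEE : E * n ≤ Ec / 8 * n := mul_le_mul_of_nonneg_right hE8 (by positivity)
  have hEc' : 0 ≤ Ec * n := by positivity
  have hK : 2 * Λ * Real.exp (2 * (E * n)) ≤ (2 : ℝ) ^ (Ec * n) := by
    have a1 : 2 * Λ ≤ Real.exp (Ec / 4 * n) := by
      have := Real.add_one_le_exp (Ec / 4 * n)
      linarith
    rw [two_rpow]
    calc 2 * Λ * Real.exp (2 * (E * n)) ≤ Real.exp (Ec / 4 * n) * Real.exp (2 * (E * n)) :=
          mul_le_mul_of_nonneg_right a1 (Real.exp_pos _).le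
      _ = Real.exp (Ec / 4 * n + 2 * (E * n)) := (Real.exp_add _ _).symm
      _ ≤ _ := Real.exp_le_exp.2 (by nlinarith)
  exact ⟨hn2, by linarith, hn3, hK,
    le_trans (mul_le_mul_of_nonneg_left (Real.exp_le_exp.2 (by linarith)) (by positivity)) hK,
    Real.rpow_le_rpow_of_exponent_le (by norm_num) (by linarith),
    Real.rpow_le_rpow_of_exponent_le (by norm_num) (by linarith)⟩

theorem num_J {σ n c : ℝ} (hσ : 0 < σ) (hn : 2 ≤ n) (hn3 : 192 ≤ n * σ ^ 2) (h : σ / 48 < Real.exp (-(σ * n / 2)) * c) :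
    (2 : ℝ) ^ (σ / 4 * n) ≤ c := by
  rw [Real.exp_neg, lt_inv_mul_iff₀ (Real.exp_pos _)] at h
  have a5 : Real.exp (σ * n / 2) = Real.exp (σ * n / 4) * Real.exp (σ * n / 4) := by
    rw [← Real.exp_add]
    ring_nf
  have a6 : 1 ≤ Real.exp (σ * n / 4) * (σ / 48) := by
    have := Real.add_one_le_exp (σ * n / 4)
    nlinarith
  have a7 : (2 : ℝ) ^ (σ / 4 * n) ≤ Real.exp (σ * n / 4) := by
    rw [two_rpow]
    have := Real.log_two_lt_d9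
    have : 0 ≤ σ * n := by positivity
    exact Real.exp_le_exp.2 (by nlinarith)
  have a8 := mul_le_mul_of_nonneg_left a6 (Real.exp_pos (σ * n / 4)).le
  rw [a5] at h
  linarith

theorem num_G {s e e' Λ p g : ℝ} (hΛ : 2 ≤ Λ) (hp : 0 < p) (hg : 0 ≤ g) (hK : 2 * Λ * Real.exp e ≤ (2 : ℝ) ^ e')
    (h : p / 2 ≤ 2 * Real.exp (-(s * Real.log 2 - e)) * g * p) : (2 : ℝ) ^ (s - e') ≤ g := by
  have a4 : 1 / 2 ≤ 2 * Real.exp (-(s * Real.log 2 - e)) * g := le_of_mul_le_mul_right (by linarith) hp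
  rw [neg_sub, Real.exp_sub, ← two_rpow, mul_div_assoc', div_mul_eq_mul_div, le_div_iff₀ (by positivity)] at a4
  rw [Real.rpow_sub (by norm_num), div_le_iff₀ (by positivity)]
  have a6 : 4 * Real.exp e ≤ (2 : ℝ) ^ e' :=
    le_trans (mul_le_mul_of_nonneg_right (by linarith) (Real.exp_pos _).le) hK
  have a7 := mul_le_mul_of_nonneg_left a6 hg
  linarith

end Bpe

open Bpe in
theorem bpe (h1 : AEP) (h2 : BPc) : BPe := by
  classical
  intro γ σ hγ hσ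
  obtain ⟨Ec, N, m₀, hEc, hN, hB⟩ := h2 γ (σ / 4) hγ (by positivity)
  obtain ⟨T, hT⟩ : ∃ T : ℝ, T = 2 * (((N : ℝ) + 1) ^ 2 + (N + 1)) + 2 := ⟨_, rfl⟩
  have hT0 : 0 < T := by rw [hT]; positivity
  obtain ⟨Λ, hΛ2, hΛT⟩ : ∃ Λ : ℝ, 2 ≤ Λ ∧ 48 * T / σ ≤ Λ := ⟨max 2 (48 * T / σ), le_max_left _ _, le_max_right _ _⟩
  have hΛ : 0 < Λ := by linarith
  obtain ⟨E, hE0, hE1, hE8⟩ : ∃ E : ℝ, 0 < E ∧ E ≤ 1 ∧ E ≤ Ec / 8 :=
    ⟨min 1 (Ec / 8), lt_min one_pos (by positivity), min_le_left _ _, min_le_right _ _⟩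
  refine ⟨E, Λ, N, max m₀ ⌈2 + 192 / σ ^ 2 + 8 * Λ / Ec + 4 / σ⌉₊, hE0, hΛ2, hN, ?_⟩
  intro m κ hm hκ1 hκ2 Ω φ δ _ R F D X Y W al hFD haD hsup hQ hh
  have hm1 : 2 + 192 / σ ^ 2 + 8 * Λ / Ec + 4 / σ ≤ (N : ℝ) * m := by
    have a1 : 2 + 192 / σ ^ 2 + 8 * Λ / Ec + 4 / σ ≤ m := Nat.ceil_le.1 ((le_max_right _ _).trans hm)
    have a2 : (1 : ℝ) ≤ N := by exact_mod_cast hN
    nlinarith [(Nat.cast_nonneg m : (0 : ℝ) ≤ m)]
  obtain ⟨hn2, hn5, hn3, hK, hK1, hmono, hmono'⟩ := consts hσ hEc hE0 hE8 hΛ2 hm1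
  simp only [← mul_assoc] at hmono hmono' hK1
  rw [← mul_assoc E, ← mul_assoc Ec] at hK
  clear hm1
  have hEn : 0 ≤ E * N * m := by positivity
  obtain ⟨BY, hBY, hTY⟩ := treg h1 R Y F hΛ hEn N m hK fun Q hd a ha => ((hQ Q hd).1 a ha).1
  obtain ⟨BW, hBW, hTW⟩ := treg h1 R W D hΛ hEn N m hK fun Q hd a ha => ((hQ Q hd).1 a ha).2
  have hB1 := (h1 Ω _ _ R (fun ω => (X ω, Y ω)) F).1 Λ _ hΛ fun Q hd => (hQ Q hd).2.1
  have hB2 := (h1 Ω _ _ R (fun ω => (X ω, Y ω)) D).2.1 Λ _ hΛ fun Q hd => (hQ Q hd).2.2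
  obtain ⟨B, hBp, hBi⟩ : ∃ B : Ω → Prop, prE R B ≤ T / Λ ∧ ∀ ω, ¬ B ω → ¬ BY ω ∧ ¬ BW ω ∧
      ¬ 2 * Λ * ci R (fun ω => (X ω, Y ω)) F ω ≤ Real.exp (-(2 * κ * N * m * Real.log 2 + E * N * m)) ∧
      ¬ 2 * Real.exp (-(2 * κ * N * m * Real.log 2 - E * N * m)) ≤ ci R (fun ω => (X ω, Y ω)) D ω := by
    refine ⟨fun ω => (BY ω ∨ BW ω) ∨
      (2 * Λ * ci R (fun ω => (X ω, Y ω)) F ω ≤ Real.exp (-(2 * κ * N * m * Real.log 2 + E * N * m)) ∨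
      2 * Real.exp (-(2 * κ * N * m * Real.log 2 - E * N * m)) ≤ ci R (fun ω => (X ω, Y ω)) D ω), ?_, ?_⟩
    · refine (prE_or R _ _).trans ((add_le_add ((prE_or R _ _).trans (add_le_add hBY hBW))
        ((prE_or R _ _).trans (add_le_add hB1 hB2))).trans (le_of_eq ?_))
      rw [hT]
      ring
    · intro ω hω
      simp only [not_or] at hω
      exact ⟨hω.1.1, hω.1.2, hω.2.1, hω.2.2⟩
  have hri := rich h1 R F al (σ := σ) (n := N * m) hσ (by push_cast; exact hn2) (by push_cast; exact hn5)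
    (fun ω hω => (hsup ω hω).2.1.trans (Real.rpow_le_rpow_of_exponent_le (by norm_num) (by
      push_cast
      rw [mul_assoc]
      exact mul_le_of_le_one_left (by positivity) hE1))) (by push_cast; rw [← mul_assoc]; exact hh)
  have hbad := bad_fib R D B
  obtain ⟨H, hHp, hHi⟩ : ∃ H : Ω → Prop, σ / 48 < prE R H ∧ ∀ ω, H ω → 0 < R.w ω ∧
      (R.pr D (D ω) / 2 ≤ prE R fun ω' => ¬ B ω' ∧ D ω' = D ω) ∧
      ci R (fun ω => ⌊(2 : ℝ) ^ (N * m) * al ω⌋) F ω ≤ Real.exp (-(σ * (N * m : ℕ) / 2)) := by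
    refine ⟨_, ?_, fun ω hω => hω⟩
    have a1 := hri.trans ((prE_mono R (E' := fun ω => (¬ R.pr D (D ω) / 2 ≤ prE R fun ω' => ¬ B ω' ∧ D ω' = D ω) ∨
      (0 < R.w ω ∧ (R.pr D (D ω) / 2 ≤ prE R fun ω' => ¬ B ω' ∧ D ω' = D ω) ∧
      ci R (fun ω => ⌊(2 : ℝ) ^ (N * m) * al ω⌋) F ω ≤ Real.exp (-(σ * (N * m : ℕ) / 2)))) fun ω hω h => by
        tauto).trans (prE_or R _ _))
    have a2 : T / Λ ≤ σ / 48 := by
      rw [div_le_iff₀ hσ] at hΛT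
      rw [div_le_div_iff₀ hΛ (by norm_num)]
      linarith
    linarith
  obtain ⟨f, hf⟩ := pop_fib R F H hHp
  have hf0 : 0 < R.pr F f := by
    have a1 := prE_mono R (E := fun ω => H ω ∧ F ω = f) (E' := fun ω => F ω = f) fun ω _ h => h.2
    rw [← pr_eq] at a1
    rcases (R.pr_nonneg F f).eq_or_lt with h0 | h0
    · rw [← h0] at hf a1
      linarith
    · exact h0
  obtain ⟨J, hJ1, hJ2, hJ3⟩ := Finset.exists_subset_injOn_image_eq_of_surjOn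
    (f := fun ω => ⌊(2 : ℝ) ^ (N * m) * al ω⌋) {ω | H ω ∧ F ω = f}
    ((univ.filter fun ω => H ω ∧ F ω = f).image fun ω => ⌊(2 : ℝ) ^ (N * m) * al ω⌋) (fun x hx => by
      obtain ⟨ω, hω, rfl⟩ := mem_image.1 (mem_coe.1 hx)
      exact ⟨ω, (mem_filter.1 hω).2, rfl⟩)
  have hJ : (2 : ℝ) ^ (σ / 4 * N * m) ≤ #J := by
    have a1 := le_cnt h1 R (fun ω => ⌊(2 : ℝ) ^ (N * m) * al ω⌋) F (fun ω => H ω ∧ F ω = f) (Real.exp_pos _).le f
      (fun ω hω => ⟨hω.2, (hHi ω hω.1).2.2⟩) (J.image fun ω => ⌊(2 : ℝ) ^ (N * m) * al ω⌋) fun ω hω => by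
        rw [hJ3]
        exact mem_image.2 ⟨ω, mem_filter.2 ⟨mem_univ _, hω⟩, rfl⟩
    have a2 := lt_of_mul_lt_mul_right (hf.trans_le a1) hf0.le
    have a3 : (#(J.image fun ω => ⌊(2 : ℝ) ^ (N * m) * al ω⌋) : ℝ) ≤ #J := Nat.cast_le.2 card_image_le
    have a4 := a2.trans_le (mul_le_mul_of_nonneg_left a3 (Real.exp_pos _).le)
    push_cast at a4
    rw [mul_assoc]
    exact num_J hσ hn2 hn3 a4
  refine hB m κ ((le_max_left _ _).trans hm) hκ1 hκ2 Ω J al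
    ((univ.filter fun ω => 0 < R.w ω ∧ F ω = f ∧ ¬ B ω).image fun ω => (X ω, Y ω))
    ((univ.filter fun ω => 0 < R.w ω ∧ F ω = f ∧ ¬ B ω).image Y)
    (fun i => (univ.filter fun ω => 0 < R.w ω ∧ D ω = D i ∧ ¬ B ω).image fun ω => (X ω, Y ω))
    (fun i => (univ.filter fun ω => 0 < R.w ω ∧ D ω = D i ∧ ¬ B ω).image W) hJ hJ2 ?_ ?_ ?_ ?_
  · rw [show (2 * κ + Ec) * N * m = 2 * κ * N * m + Ec * N * m by ring]
    refine cnt_le h1 R (fun ω => (X ω, Y ω)) F (fun ω => 0 < R.w ω ∧ F ω = f ∧ ¬ B ω) hΛ f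
      (fun ω hω => ⟨hω.1, hω.2.1, (hBi ω hω.2.2).2.2.1⟩) hK1 _ fun x hx => ?_
    obtain ⟨ω, hω, rfl⟩ := mem_image.1 hx
    exact ⟨ω, (mem_filter.1 hω).2, rfl⟩
  · refine hTY f _ fun x hx => ?_
    obtain ⟨ω, hω, rfl⟩ := mem_image.1 hx
    have := (mem_filter.1 hω).2
    exact ⟨ω, ⟨this.1, this.2.1, (hBi ω this.2.2).1⟩, rfl⟩
  · intro y hy
    obtain ⟨ω, hω, rfl⟩ := mem_image.1 hy
    exact (hsup ω (mem_filter.1 hω).2.1).1.trans hmono'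
  · intro i hi
    obtain ⟨hi1, hi2⟩ : H i ∧ F i = f := hJ1 (mem_coe.2 hi)
    obtain ⟨hi3, hi4, -⟩ := hHi i hi1
    have hsub : ∀ ω ∈ univ.filter fun ω => 0 < R.w ω ∧ D ω = D i ∧ ¬ B ω,
        ω ∈ univ.filter fun ω => 0 < R.w ω ∧ F ω = f ∧ ¬ B ω := fun ω hω => by
      have := (mem_filter.1 hω).2
      exact mem_filter.2 ⟨mem_univ _, this.1, (hFD ω i this.1 hi3 this.2.1).trans hi2, this.2.2⟩
    refine ⟨(hsup i hi3).2.1.trans hmono, image_subset_image hsub, ?_, ?_, ?_⟩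
    · have a1 := le_cnt h1 R (fun ω => (X ω, Y ω)) D (fun ω => 0 < R.w ω ∧ D ω = D i ∧ ¬ B ω)
        (t := 2 * Real.exp (-(2 * κ * N * m * Real.log 2 - E * N * m))) (by positivity) (D i)
        (fun ω hω => ⟨hω.2.1, (not_le.1 (hBi ω hω.2.2).2.2.2).le⟩)
        ((univ.filter fun ω => 0 < R.w ω ∧ D ω = D i ∧ ¬ B ω).image fun ω => (X ω, Y ω))
        fun ω hω => mem_image.2 ⟨ω, mem_filter.2 ⟨mem_univ _, hω⟩, rfl⟩
      have a2 := (hi4.trans (prE_mono R (E' := fun ω => 0 < R.w ω ∧ D ω = D i ∧ ¬ B ω)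
        fun ω hω h => ⟨hω, h.2, h.1⟩)).trans a1
      rw [show (2 * κ - Ec) * N * m = 2 * κ * N * m - Ec * N * m by ring]
      exact num_G hΛ2 (R.pr_pos D hi3) (Nat.cast_nonneg _) hK1 a2
    · refine hTW (D i) _ fun x hx => ?_
      obtain ⟨ω, hω, rfl⟩ := mem_image.1 hx
      have := (mem_filter.1 hω).2
      exact ⟨ω, ⟨this.1, this.2.1, (hBi ω this.2.2).2.1⟩, rfl⟩
    · intro z hz
      obtain ⟨ω, hω, rfl⟩ := mem_image.1 hz
      have := (mem_filter.1 hω).2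
      refine ⟨mem_image.2 ⟨ω, hsub ω hω, rfl⟩, W ω, mem_image.2 ⟨ω, hω, rfl⟩, ?_⟩
      rw [← haD ω i this.1 hi3 this.2.1]
      exact (hsup ω this.1).2.2.trans hmono

end Vale.Agent.P076N.RG
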