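import Vale.Agent.P076N.RG.Lib

/-!
# P076N / RG : `FRO` and `PIN` (helper5)
-/

set_option linter.all false

open Finset Vale.Agent.P127 Vale.Agent.P127.Stk

namespace Vale.Agent.P076N.RG

theorem card_le_sum_cells {ι : Type} (J : Finset ι) (f : ι → ℤ) (T : Finset ℤ) (B : ℝ) (h : ∀ i ∈ J, f i ∈ T)
    (hB : ∀ c ∈ T, (#(J.filter fun i => f i = c) : ℝ) ≤ B) : (#J : ℝ) ≤ #T * B := by
  rw [Finset.card_eq_sum_card_fiberwise h]
  push_cast
  exact (Finset.sum_le_sum hB).trans_eq (by simp)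

theorem fro : FRO := by
  classical
  intro ι J al N m s A hs hA hJ hal hinj
  set g : ℕ × ℤ → ℝ := fun q => #(J.filter fun i => ⌊(2 : ℝ) ^ (q.1 * m) * al i⌋ = q.2) * (2 : ℝ) ^ (s * q.1 * m) with hg
  set T : Finset (ℕ × ℤ) := (range (N + 1) ×ˢ J).image fun q => (q.1, ⌊(2 : ℝ) ^ (q.1 * m) * al q.2⌋) with hT
  obtain ⟨i₁, hi₁⟩ := hJ
  obtain ⟨q, hq, hmax⟩ := T.exists_max_image g ⟨_, Finset.mem_image_of_mem _
    (Finset.mem_product.2 (⟨by simp, hi₁⟩ : (0, i₁).1 ∈ range (N + 1) ∧ (0, i₁).2 ∈ J))⟩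
  obtain ⟨⟨j₀, i₀⟩, hq0, rfl⟩ := Finset.mem_image.1 hq
  obtain ⟨hj₀, hi₀⟩ := Finset.mem_product.1 hq0
  have hj₀' : j₀ ≤ N := Nat.lt_succ_iff.1 (Finset.mem_range.1 hj₀)
  simp only at hmax hi₀
  have hmax' : ∀ j ≤ N, ∀ c, g (j, c) ≤ g (j₀, ⌊(2 : ℝ) ^ (j₀ * m) * al i₀⌋) := fun j hj c => by
    by_cases hne : (J.filter fun i => ⌊(2 : ℝ) ^ (j * m) * al i⌋ = c).Nonempty
    · obtain ⟨i, hi⟩ := hne
      obtain ⟨h1, h2⟩ := Finset.mem_filter.1 hi
      exact hmax _ (Finset.mem_image.2 ⟨(j, i), Finset.mem_product.2 ⟨by simpa [Nat.lt_succ_iff] using hj, h1⟩,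
        by simp [h2]⟩)
    · rw [Finset.not_nonempty_iff_eq_empty] at hne
      simp only [hg, hne, Finset.card_empty, Nat.cast_zero, zero_mul]
      positivity
  refine ⟨j₀, hj₀', ⌊(2 : ℝ) ^ (j₀ * m) * al i₀⌋, ⟨i₀, Finset.mem_filter.2 ⟨hi₀, rfl⟩⟩, ?_, fun j hj x => ?_⟩
  · have e1 : (#(J.filter fun i => ⌊(2 : ℝ) ^ (j₀ * m) * al i⌋ = ⌊(2 : ℝ) ^ (j₀ * m) * al i₀⌋) : ℝ) ≤
        (2 : ℝ) ^ ((N - j₀) * m) := by
      have hle : j₀ * m ≤ N * m := Nat.mul_le_mul_right _ hj₀'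
      have := Finset.card_le_card_of_injOn (fun i => ⌊(2 : ℝ) ^ (N * m) * al i⌋)
        (s := J.filter fun i => ⌊(2 : ℝ) ^ (j₀ * m) * al i⌋ = ⌊(2 : ℝ) ^ (j₀ * m) * al i₀⌋)
        (fun i hi => Finset.mem_coe.2 (floor_mem_aux hle (Finset.mem_filter.1 hi).2))
        (hinj.mono (Finset.coe_subset.2 (Finset.filter_subset _ _)))
      rw [Int.card_Ico, add_sub_cancel_left, toNat_pow_aux, ← Nat.sub_mul] at this
      exact_mod_cast this
    have e2 := card_le_sum_cells J (fun i => ⌊(2 : ℝ) ^ (0 * m) * al i⌋) (Finset.Icc (-⌊A⌋ - 1) ⌊A⌋)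
      (g (j₀, ⌊(2 : ℝ) ^ (j₀ * m) * al i₀⌋)) (fun i hi => by
        have := abs_le.1 (hal i hi)
        simp only [zero_mul, pow_zero, one_mul, Finset.mem_Icc]
        refine ⟨Int.le_floor.2 ?_, Int.floor_le_floor this.2⟩
        push_cast
        linarith [Int.lt_floor_add_one A])
      fun c _ => le_trans (by simp [hg]) (hmax' 0 N.zero_le c)
    have e3 : (#(Finset.Icc (-⌊A⌋ - 1) ⌊A⌋) : ℝ) ≤ 2 * A + 2 := by
      have h0 : 0 ≤ ⌊A⌋ := Int.floor_nonneg.2 hA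
      have h1 : (#(Finset.Icc (-⌊A⌋ - 1) ⌊A⌋) : ℤ) = 2 * ⌊A⌋ + 2 := by
        rw [Int.card_Icc, Int.toNat_of_nonneg (by omega)]
        ring
      have h2 : (#(Finset.Icc (-⌊A⌋ - 1) ⌊A⌋) : ℝ) = 2 * (⌊A⌋ : ℝ) + 2 := by exact_mod_cast h1
      linarith [Int.floor_le A]
    rw [mul_assoc (2 * A + 2)]
    exact e2.trans (mul_le_mul e3 (mul_le_mul_of_nonneg_right e1 (by positivity)) (by simp only [hg]; positivity)
      (by positivity))
  · set r := (j₀ + j) * m with hr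
    have h2 : (0 : ℝ) < 2 ^ r := by positivity
    refine (card_le_sum_cells _ (fun i => ⌊(2 : ℝ) ^ r * al i⌋) (Finset.Icc (⌊(2 : ℝ) ^ r * x⌋ - 1) (⌊(2 : ℝ) ^ r * x⌋ + 1))
      ((2 : ℝ) ^ (-(s * j * m)) * #(J.filter fun i => ⌊(2 : ℝ) ^ (j₀ * m) * al i⌋ = ⌊(2 : ℝ) ^ (j₀ * m) * al i₀⌋))
      (fun i hi => ?_) fun c _ => ?_).trans_eq ?_
    · have t := mul_le_mul_of_nonneg_left (Finset.mem_filter.1 hi).2 h2.le
      rw [mul_inv_cancel₀ h2.ne', ← abs_of_pos h2, ← abs_mul, mul_sub, abs_le] at t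
      rw [Finset.mem_Icc, ← Int.floor_sub_one, ← Int.floor_add_one]
      exact ⟨Int.floor_le_floor (by linarith), Int.floor_le_floor (by linarith)⟩
    · have t := hmax' (j₀ + j) hj c
      simp only [hg] at t
      have e : (2 : ℝ) ^ (s * ((j₀ + j : ℕ) : ℝ) * m) = 2 ^ (s * j₀ * m) * 2 ^ (s * j * m) := by
        rw [← Real.rpow_add two_pos]
        push_cast
        ring_nf
      rw [e, mul_comm ((2 : ℝ) ^ (s * j₀ * m)), ← mul_assoc] at t
      have t2 := le_of_mul_le_mul_right t (by positivity)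
      rw [Real.rpow_neg zero_le_two, ← div_eq_inv_mul, le_div_iff₀ (by positivity)]
      refine le_trans (mul_le_mul_of_nonneg_right ?_ (by positivity)) t2
      exact_mod_cast Finset.card_le_card fun i hi => by
        simp only [Finset.mem_filter] at hi ⊢
        exact ⟨hi.1.1, hi.2⟩
    · rw [Int.card_Icc, mul_assoc 3]
      congr 1
      have : (⌊(2 : ℝ) ^ r * x⌋ + 1 + 1 - (⌊(2 : ℝ) ^ r * x⌋ - 1)) = 3 := by ring
      rw [this]
      rfl

theorem exists_avg {ι : Type} (J : Finset ι) (hJ : J.Nonempty) (f : ι → ℝ) {c : ℝ} (h : #J * c ≤ ∑ i ∈ J, f i) :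
    ∃ i ∈ J, c ≤ f i :=
  Finset.exists_le_of_sum_le hJ (by simpa using h)

theorem pin : PIN := by
  classical
  intro ι α τ J P G lab A B K U hJ hB hP hG
  have hJ0 : (0 : ℝ) < #J := by exact_mod_cast hJ.card_pos
  have hne : ∀ i ∈ J, (G i).Nonempty := fun i hi => Finset.card_pos.1 (by exact_mod_cast hB.trans_le (hG i hi).2.1)
  obtain ⟨i₁, hi₁⟩ := hJ
  have hP0 : (0 : ℝ) < #P := by exact_mod_cast ((hne i₁ hi₁).mono (hG i₁ hi₁).1).card_pos
  have hA : 0 < A := hP0.trans_le hP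
  have hK : 0 < K := lt_of_lt_of_le (by exact_mod_cast ((hne i₁ hi₁).image _).card_pos) (hG i₁ hi₁).2.2.1
  set χ : ι → α → ℝ := fun i z => if z ∈ G i then 1 else 0 with hχ
  have c1 : ∀ i ∈ J, ∀ j ∈ J, (#(G i ∩ G j) : ℝ) = ∑ z ∈ P, χ i z * χ j z := fun i hi j _ => by
    have : ∀ z, χ i z * χ j z = if z ∈ G i ∩ G j then 1 else 0 := fun z => by
      by_cases h1 : z ∈ G i <;> by_cases h2 : z ∈ G j <;> simp [hχ, h1, h2]
    simp only [this]
    rw [Finset.sum_boole, Finset.filter_mem_eq_inter,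
      Finset.inter_eq_right.2 (Finset.inter_subset_left.trans (hG i hi).1)]
  have c2 : #J * B ≤ ∑ z ∈ P, ∑ i ∈ J, χ i z := by
    rw [Finset.sum_comm, ← nsmul_eq_mul, ← Finset.sum_const]
    refine Finset.sum_le_sum fun i hi => (hG i hi).2.1.trans_eq ?_
    simp only [hχ]
    rw [Finset.sum_boole, Finset.filter_mem_eq_inter, Finset.inter_eq_right.2 (hG i hi).1]
  have c3 : ∑ i ∈ J, ∑ j ∈ J, (#(G i ∩ G j) : ℝ) = ∑ z ∈ P, (∑ i ∈ J, χ i z) ^ 2 := by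
    rw [Finset.sum_congr rfl fun i hi => Finset.sum_congr rfl fun j hj => c1 i hi j hj]
    simp only [sq, Finset.sum_mul_sum]
    rw [Finset.sum_comm (s := P)]
    exact Finset.sum_congr rfl fun i _ => Finset.sum_comm
  have c4 : (#J * B) ^ 2 ≤ A * ∑ i ∈ J, ∑ j ∈ J, (#(G i ∩ G j) : ℝ) := by
    rw [c3]
    exact (pow_le_pow_left₀ (by positivity) c2 2).trans (sq_sum_le_card_mul_sum_sq.trans
      (mul_le_mul_of_nonneg_right hP (Finset.sum_nonneg fun _ _ => sq_nonneg _)))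
  obtain ⟨i₀, hi₀, c5⟩ := exists_avg J ⟨i₁, hi₁⟩ (fun i => ∑ j ∈ J, (#(G i ∩ G j) : ℝ)) (c := #J * B ^ 2 / A) (by
    rw [← mul_div_assoc, div_le_iff₀' hA]
    linarith)
  have c6 : ∑ j ∈ J, (#(G i₀ ∩ G j) : ℝ) =
      ∑ s ∈ (G i₀).image (lab i₀), ∑ j ∈ J, (#((G i₀ ∩ G j).filter fun z => lab i₀ z = s) : ℝ) := by
    rw [Finset.sum_comm]
    refine Finset.sum_congr rfl fun j _ => ?_
    rw [Finset.card_eq_sum_card_fiberwise (f := lab i₀) (t := (G i₀).image (lab i₀)) fun z hz =>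
      Finset.mem_image_of_mem _ (Finset.mem_inter.1 hz).1]
    push_cast
    rfl
  obtain ⟨s, -, c7⟩ := exists_avg ((G i₀).image (lab i₀)) ((hne i₀ hi₀).image _)
    (fun s => ∑ j ∈ J, (#((G i₀ ∩ G j).filter fun z => lab i₀ z = s) : ℝ)) (c := #J * B ^ 2 / A / K) (by
      rw [← c6]
      refine le_trans ?_ c5
      exact (mul_le_mul_of_nonneg_right (hG i₀ hi₀).2.2.1 (by positivity)).trans_eq (mul_div_cancel₀ _ hK.ne'))
  set p : ι → Prop := fun i => B ^ 2 ≤ 2 * A * K * #((G i₀ ∩ G i).filter fun z => lab i₀ z = s) with hp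
  refine ⟨i₀, hi₀, s, J.filter p, Finset.filter_subset _ _, ?_, fun i hi => (Finset.mem_filter.1 hi).2⟩
  rw [← Finset.sum_filter_add_sum_filter_not J p] at c7
  have d1 : ∑ j ∈ J.filter p, (#((G i₀ ∩ G j).filter fun z => lab i₀ z = s) : ℝ) ≤ #(J.filter p) * U := by
    rw [← nsmul_eq_mul, ← Finset.sum_const]
    refine Finset.sum_le_sum fun j _ => le_trans ?_ ((hG i₀ hi₀).2.2.2 s)
    exact_mod_cast Finset.card_le_card (Finset.filter_subset_filter _ Finset.inter_subset_left)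
  have d2 : ∑ j ∈ J.filter (fun i => ¬ p i), (#((G i₀ ∩ G j).filter fun z => lab i₀ z = s) : ℝ) ≤
      #J * (B ^ 2 / (2 * A * K)) := by
    refine le_trans (Finset.sum_le_sum (g := fun _ => B ^ 2 / (2 * A * K)) fun j hj => ?_) ?_
    · rw [le_div_iff₀' (by positivity)]
      exact (not_le.1 (Finset.mem_filter.1 hj).2).le
    · rw [Finset.sum_const, nsmul_eq_mul]
      exact mul_le_mul_of_nonneg_right (by exact_mod_cast Finset.card_filter_le _ _) (by positivity)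
  have d3 : #J * B ^ 2 / A / K = 2 * (#J * (B ^ 2 / (2 * A * K))) := by field_simp
  have d4 : #J * (B ^ 2 / (2 * A * K)) ≤ #(J.filter p) * U := by linarith
  rw [← mul_div_assoc, div_le_iff₀ (by positivity)] at d4
  linarith

end Vale.Agent.P076N.RG
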