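import Vale.Agent.P076N.RG.Lib

/-!
# P076N / RG : `HAN k` (helper5)
-/

set_option linter.all false

open Finset Vale.Agent.P127 Vale.Agent.P127.Stk
open scoped RealInnerProductSpace

namespace Vale.Agent.P076N.RG

variable {k : ℕ}

theorem div_close {x y r : ℝ} {a : ℕ} (h : |x - y| ≤ r * 2 ^ a) : |((⌊x / 2 ^ a⌋ : ℤ) : ℝ) - (⌊y / 2 ^ a⌋ : ℤ)| ≤ r + 1 := by
  refine floor_sub_le ?_
  rwa [← sub_div, abs_div, abs_of_pos (by positivity : (0 : ℝ) < 2 ^ a), div_le_iff₀ (by positivity)]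

theorem inner_le {μ z : Vc k} {A r : ℝ} (h1 : ‖μ‖ ≤ A) (h2 : ∀ l, |z l| ≤ r) : |⟪μ, z⟫| ≤ A * (k * r) :=
  (abs_real_inner_le_norm _ _).trans
    (mul_le_mul h1 (norm_le_of_coord h2) (norm_nonneg _) ((norm_nonneg _).trans h1))

theorem han (k : ℕ) : HAN k := by
  intro Ω Γ _ Q Z n a μ s G A hA hμ hG hB hb
  have hk : (0 : ℝ) ≤ k := Nat.cast_nonneg k
  have h2 : (0 : ℝ) < 2 ^ a := by positivity
  have hkA : 0 ≤ k * A := by positivity
  have fμ : ∀ ω ω', 0 < Q.w ω → 0 < Q.w ω' → G ω = G ω' → μ ω' = μ ω ∧ s ω' = s ω := fun ω ω' h h' e =>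
    ⟨(Prod.ext_iff.1 (hμ ω ω' h h' e)).1.symm, (Prod.ext_iff.1 (hμ ω ω' h h' e)).2.symm⟩
  constructor
  · have e1 := hc_le_add Q (tup (Z.V μ s a) univ) (Z.cl a) G
    have e2 := hc_mono_right Q (Z.cl a) hB
    have e3 := hc_near Q (tup (Z.V μ s a) univ) (fun ω => (Z.cl a ω, G ω)) (r := (k + 1) * A + 1) (by positivity)
      fun ω ω' hω hω' e i => by
        simp only [Wn.cl, Prod.mk.injEq] at e
        obtain ⟨m1, m2⟩ := fμ ω ω' hω hω' e.2
        simp only [tup, Finset.mem_univ, if_true, Wn.V, m1, m2]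
        refine div_close ?_
        have t1 := inner_le (z := toV (Z.zx ω) - toV (Z.zx ω')) (r := 2 ^ a) (hb ω hω i).1 fun l =>
          int_div_close (congrFun e.1.1 l)
        have t2 : |s ω i * ((Z.zt ω : ℝ) - Z.zt ω')| ≤ A * 2 ^ a := by
          rw [abs_mul]
          exact mul_le_mul (hb ω hω i).2 (int_div_close e.1.2) (abs_nonneg _) (by linarith)
        rw [inner_sub_right] at t1
        rw [abs_le] at t1 t2 ⊢
        constructor <;> linarith
    rw [Fintype.card_fin] at e3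
    push_cast at e3
    have e4 : Real.log (2 * ((k + 1) * A + 1) + 1) ≤ Real.log (2 * (k + 1) * A + 5) :=
      Real.log_le_log (by positivity) (by linarith)
    linarith [mul_le_mul_of_nonneg_left e4 (by positivity : (0 : ℝ) ≤ k + 1)]
  intro i hi
  set W := fun ω => (Z.prj n a i ω, Z.D ω) with hW
  have key : ∀ ω ω', 0 < Q.w ω → 0 < Q.w ω' → W ω = W ω' → μ ω' = μ ω ∧ s ω' = s ω ∧ ∀ j,
      |(⟪μ ω j, toV (Z.zx ω)⟫ - s ω j * Z.zt ω) - (⟪μ ω j, toV (Z.zx ω')⟫ - s ω j * Z.zt ω') -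
        ((Z.zt ω : ℝ) - Z.zt ω') * (⟪μ ω j, Z.d n ω i⟫ - s ω j)| ≤ A * (k * 2 ^ a) := fun ω ω' hω hω' e => by
    simp only [hW, Prod.mk.injEq] at e
    obtain ⟨m1, m2⟩ := fμ ω ω' hω hω' (hG ω ω' hω hω' e.2)
    refine ⟨m1, m2, fun j => ?_⟩
    have ed : Z.d n ω' i = Z.d n ω i := by
      have : Z.dz ω = Z.dz ω' := (Prod.ext_iff.1 e.2).1
      simp only [Wn.d, this]
    have t1 := inner_le (z := (toV (Z.zx ω) - (Z.zt ω : ℝ) • Z.d n ω i) - (toV (Z.zx ω') - (Z.zt ω' : ℝ) • Z.d n ω' i))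
      (r := 2 ^ a) (hb ω hω j).1 fun l => floor_eq_close h2 (congrFun e.1 l)
    simp only [ed, inner_sub_right, real_inner_smul_right] at t1
    refine le_trans (le_of_eq ?_) t1
    congr 1
    ring
  have hA2 : A ≤ A ^ 2 := by nlinarith
  have hkA2 : k * A ≤ k * A ^ 2 := mul_le_mul_of_nonneg_left hA2 hk
  have e1 := hc_mono_right Q (Z.V μ s a i) (Y := fun ω => (tup (Z.V μ s a) (univ.erase i) ω, G ω))
    (Y' := fun ω => (tup (Z.V μ s a) (univ.erase i) ω, W ω)) fun ω ω' hω hω' e => by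
      simp only [hW, Prod.mk.injEq] at e ⊢
      exact ⟨e.1, hG ω ω' hω hω' e.2.2⟩
  have e2 := hc_le_add' Q (Z.V μ s a i) (tup (Z.V μ s a) (univ.erase i)) W
  have e3 := hc_near Q (tup (Z.V μ s a) (univ.erase i)) W (r := k * A + 1) (by positivity) fun ω ω' hω hω' e j => by
    obtain ⟨m1, m2, m3⟩ := key ω ω' hω hω' e
    simp only [tup]
    split_ifs with hj
    · simp only [Wn.V, m1, m2]
      refine div_close ?_
      have t := m3 j
      rw [(hi ω hω).1 j (Finset.ne_of_mem_erase hj), sub_self, mul_zero, sub_zero] at t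
      linarith
    · simp only [sub_self, abs_zero]
      positivity
  have e4 := hc_le_add Q (Z.tm a) (Z.V μ s a i) W
  have e5 := hc_near1 Q (Z.tm a) (fun ω => (Z.V μ s a i ω, W ω)) (r := (k + 1) * A ^ 2 + 1) fun ω ω' hω hω' e => by
    obtain ⟨m1, m2, m3⟩ := key ω ω' hω hω' (Prod.ext_iff.1 e).2
    have t1 : Z.V μ s a i ω = Z.V μ s a i ω' := (Prod.ext_iff.1 e).1
    simp only [Wn.V, m1, m2] at t1
    have t2 := floor_eq_close h2 t1
    have t3 : |((Z.zt ω : ℝ) - Z.zt ω') * (⟪μ ω i, Z.d n ω i⟫ - s ω i)| ≤ (1 + k * A) * 2 ^ a := by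
      have t := m3 i
      rw [abs_le] at t t2 ⊢
      constructor <;> linarith
    have t4 : |(Z.zt ω : ℝ) - Z.zt ω'| ≤ (k + 1) * A ^ 2 * 2 ^ a := by
      rw [abs_mul] at t3
      have t5 := (mul_le_mul_of_nonneg_left (hi ω hω).2 (abs_nonneg ((Z.zt ω : ℝ) - Z.zt ω'))).trans t3
      rw [← div_eq_mul_inv, div_le_iff₀ (by linarith)] at t5
      nlinarith [mul_le_mul_of_nonneg_right hA2 h2.le]
    have t6 := div_close t4
    rwa [floor_div_pow, floor_div_pow, Int.floor_intCast, Int.floor_intCast] at t6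
  rw [Fintype.card_fin] at e3
  push_cast at e3
  have l1 : Real.log (2 * (k * A + 1) + 1) ≤ Real.log (2 * (k + 1) * A ^ 2 + 5) :=
    Real.log_le_log (by positivity) (by nlinarith)
  have l2 : Real.log (2 * ((k + 1) * A ^ 2 + 1) + 1) ≤ Real.log (2 * (k + 1) * A ^ 2 + 5) :=
    Real.log_le_log (by positivity) (by linarith)
  linarith [mul_le_mul_of_nonneg_left l1 (by positivity : (0 : ℝ) ≤ k + 1)]

end Vale.Agent.P076N.RG
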