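import Vale.Agent.P076N.RG.Lib

/-!
# P076N / RG : `TL k` from `StLW k` (helper5)
-/

set_option linter.all false

open Finset Vale.Agent.P127 Vale.Agent.P127.Stk

namespace Vale.Agent.P076N.RG

variable {k : ℕ} {Ω : Type} [Fintype Ω]

/-- the same system with another law -/
def wP (S : TSys Ω k) (Q : Law Ω) : TSys Ω k := { S with P := Q }

theorem tm_fn (S : TSys Ω k) {a b : ℕ} (h : a ≤ b) {ω ω' : Ω} (e : S.tm a ω = S.tm a ω') : S.tm b ω = S.tm b ω' := by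
  obtain ⟨c, rfl⟩ := Nat.exists_eq_add_of_le h
  simp only [TSys.tm] at e ⊢
  rw [floor_div_add, floor_div_add, e]

theorem tub_fn (S : TSys Ω k) {a b : ℕ} (h : a ≤ b) {ω ω' : Ω} (e : S.tub a ω = S.tub a ω') :
    S.tub b ω = S.tub b ω' := by
  obtain ⟨c, rfl⟩ := Nat.exists_eq_add_of_le h
  simp only [TSys.tub, Prod.mk.injEq] at e ⊢
  refine ⟨e.1, funext fun l => ?_⟩
  have := congrFun e.2 l
  simp only [flv] at this ⊢
  rw [floor_div_add, floor_div_add, this]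

theorem hT_add (S : TSys Ω k) (p : ℕ) {a b c : ℕ} (h1 : a ≤ b) (h2 : b ≤ c) : S.hT p a c = S.hT p a b + S.hT p b c := by
  have e1 := hc_pair S.P (S.tm b) (S.tm a) fun ω => (S.tm c ω, S.tub p ω, S.side ω)
  have e2 : hc S.P (fun ω => (S.tm b ω, S.tm a ω)) (fun ω => (S.tm c ω, S.tub p ω, S.side ω)) = S.hT p a c :=
    hc_congr S.P (fun ω ω' _ _ e => Prod.ext (tm_fn S h1 (Prod.ext_iff.1 e).1) (Prod.ext_iff.1 e).1)
      (fun ω ω' _ _ e => (Prod.ext_iff.1 (Prod.ext_iff.1 e).1).2) (fun _ _ _ _ e => e) fun _ _ _ _ e => e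
  have e3 : hc S.P (S.tm a) (fun ω => (S.tm b ω, S.tm c ω, S.tub p ω, S.side ω)) = S.hT p a b :=
    hc_congr S.P (fun ω ω' _ _ e => (Prod.ext_iff.1 e).1) (fun ω ω' _ _ e => (Prod.ext_iff.1 e).1)
      (fun ω ω' _ _ e => Prod.ext (Prod.ext_iff.1 e).1 (Prod.ext (tm_fn S h2 (Prod.ext_iff.1 e).1) (Prod.ext_iff.1 e).2))
      fun ω ω' _ _ e => Prod.ext (Prod.ext_iff.1 e).1 (Prod.ext_iff.1 (Prod.ext_iff.1 e).2).2
  rw [← e2, e1, e3, add_comm]
  rfl

theorem hT_le (S : TSys Ω k) {p b : ℕ} (h : p ≤ b) (q : ℕ) : S.hT p b q ≤ S.hT b b q :=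
  hc_mono_right S.P _ fun ω ω' _ _ e => by
    simp only [Prod.mk.injEq] at e ⊢
    exact ⟨e.1, tub_fn S h e.2.1, e.2.2⟩

theorem hB_le {S : TSys Ω k} {κ e Λ : ℝ} {p q a b : ℕ} (h : Cnt S κ e p q) (h1 : p ≤ a) (h2 : a ≤ b) (h3 : b ≤ q)
    {Q : Law Ω} (hQ : Dom Q id S.P Λ) : (wP S Q).hB a b ≤ (k + 1) * κ * ((b : ℝ) - a) * Real.log 2 + e := by
  classical
  refine (hc_le_logr Q _ _ (Real.exp ((k + 1) * κ * ((b : ℝ) - a) * Real.log 2 + e)) fun ω hω => ?_).trans_eq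
    (Real.log_exp _)
  refine ⟨_, h a b h1 h2 h3 ω (hQ.pos hω), fun ω' hω' e' => ?_⟩
  exact Finset.mem_image_of_mem _ (Finset.mem_filter.2 ⟨Finset.mem_univ _, hQ.pos hω', (Prod.ext_iff.1 e').1,
    (Prod.ext_iff.1 e').2⟩)

theorem tl (k : ℕ) (hk : 1 ≤ k) (h : StLW k) : TL k := by
  intro Cu Λ e M hΛ he
  have hΛ0 : 0 < Λ := by linarith
  obtain ⟨η, hη, hη1⟩ : ∃ η : ℝ, 0 < η ∧ 16 * Λ * η ≤ e := ⟨e / (16 * Λ), by positivity, by field_simp; rfl⟩
  obtain ⟨ε₁, hε₁, n₀, hL⟩ := h (k - 1) (by omega) Cu (η / (M + 1)) (by positivity)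
  obtain ⟨y₁, hy₁⟩ := exists_nat_ge (1 / η)
  refine ⟨min η (ε₁ / Λ), max n₀ y₁, by positivity, ?_⟩
  intro ε' κ y p w Ω _ S h0 hε hy hw hB hBr hT hCt Q hQ a b ha hab hb
  have hε1 : ε' ≤ η := hε.trans (min_le_left _ _)
  have hε2 : Λ * ε' ≤ ε₁ := by
    rw [← le_div_iff₀' hΛ0]
    exact hε.trans (min_le_right _ _)
  have hy0 : (0 : ℝ) ≤ y := Nat.cast_nonneg y
  have hy1 : Real.log 2 ≤ η * y := by
    have e1 : (y₁ : ℝ) ≤ y := by exact_mod_cast (le_max_right _ _).trans hy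
    have e2 := hy₁.trans e1
    rw [div_le_iff₀' hη] at e2
    linarith [Real.log_le_sub_one_of_pos (show (0 : ℝ) < 2 by norm_num)]
  have hηy : 0 ≤ η * y := by positivity
  have hεy : ε' * y ≤ η * y := mul_le_mul_of_nonneg_right hε1 hy0
  have U : ∀ Q' : Law Ω, Dom Q' id S.P Λ → ∀ a b : ℕ, p ≤ a → a + y ≤ b → b ≤ p + M * y →
      (wP S Q').hT a a b ≤ κ * ((b : ℝ) - a) * Real.log 2 + 2 * (η * y) := by
    intro Q' hQ' a b h1 h2 h3
    have d1 : (y : ℝ) ≤ (b : ℝ) - a := by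
      have : ((a + y : ℕ) : ℝ) ≤ b := by exact_mod_cast h2
      push_cast at this
      linarith
    have d2 : (b : ℝ) - a ≤ (M + 1) * y := by
      have : (b : ℝ) ≤ (a + M * y : ℕ) := by exact_mod_cast (by omega : b ≤ a + M * y)
      push_cast at this
      linarith
    have e1 := hL w a b Ω (wP S Q') (by omega)
      (hw.trans (mul_le_mul (by nlinarith) d1 hy0 hε₁.le)) (fun ω hω => hB ω (hQ'.pos hω))
      fun pl => (prE_dom hQ' _).trans ((mul_le_mul_of_nonneg_left (hBr pl) hΛ0.le).trans hε2)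
    have e2 := hB_le hCt h1 (by omega) h3 hQ'
    have e3 : ((k - 1 : ℕ) : ℝ) + 2 = k + 1 := by
      rw [Nat.cast_sub hk]
      push_cast
      ring
    have e4 : η / (M + 1) * ((b : ℝ) - a) ≤ η * y := by
      rw [div_mul_eq_mul_div, div_le_iff₀ (by positivity)]
      nlinarith
    rw [e3] at e1
    have hk0 : (0 : ℝ) ≤ k := Nat.cast_nonneg k
    refine le_of_mul_le_mul_left ?_ (by positivity : (0 : ℝ) < k + 1)
    nlinarith [mul_nonneg hk0 hηy]
  have e1 := hQ.le_hc (S.tm p) (fun ω => (S.tm (p + M * y) ω, S.tub p ω, S.side ω))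
    (κ * (M * y) * Real.log 2 + 2 * (η * y)) fun R hR => by
      have := U R (hR.mono hΛ) p (p + M * y) le_rfl (by omega) le_rfl
      push_cast at this
      rw [add_sub_cancel_left] at this
      exact this
  have e2 : (wP S Q).hT p p (p + M * y) = (wP S Q).hT p p a + ((wP S Q).hT p a b + (wP S Q).hT p b (p + M * y)) := by
    rw [hT_add _ p (by omega : p ≤ a) (by omega : a ≤ p + M * y), hT_add _ p hab (by omega : b ≤ p + M * y)]
  have e3 := U Q hQ p a le_rfl ha (by omega)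
  have e4 := (hT_le (wP S Q) (by omega : p ≤ b) _).trans (U Q hQ b (p + M * y) (by omega) hb le_rfl)
  push_cast at e4
  have e5 : κ * (M * y) * Real.log 2 + 2 * (η * y) - S.hT p p (p + M * y) + Real.log 2 ≤ 4 * (η * y) := by linarith
  have e6 := mul_le_mul_of_nonneg_left e5 (by positivity : 0 ≤ 2 * Λ)
  have e7 := mul_le_mul_of_nonneg_right hη1 hy0
  have e8 := mul_le_mul_of_nonneg_right hΛ hηy
  change _ - 2 * Λ * (_ - S.hT p p (p + M * y) + _) ≤ (wP S Q).hT p p (p + M * y) at e1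
  change _ ≤ (wP S Q).hT p a b
  linarith

end Vale.Agent.P076N.RG
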