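import Vale.Agent.P076N.RG.Lib

/-!
# P076N / RG : `TR k` (helper5)
-/

set_option linter.all false

open Finset Vale.Agent.P127 Vale.Agent.P127.Stk
open scoped RealInnerProductSpace

namespace Vale.Agent.P076N.RG

variable {k : ℕ}

open Classical in
/-- an event whose parameter depends on the other copies -/
theorem cw_strip {Ω B : Type} [Fintype Ω] {P : Law Ω} {W : Ω → B} {N : ℕ} {Q : Law (Fin (N + 1) → Ω)}
    (hQ : ∀ w, Q.w w = cw P W N w) (i : Fin (N + 1)) (E : (Fin N → Ω) → Ω → Prop) {β : ℝ}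
    (h : ∀ g : B → Fin N → Ω, prE P (fun ω => E (g (W ω)) ω) ≤ β) :
    prE Q (fun w => E (fun j => w (i.succAbove j)) (w i)) ≤ β := by
  have key : ∀ F : (Fin N → Ω) → Ω → Prop, prE Q (fun w => F (fun j => w (i.succAbove j)) (w i)) =
      ∑ v : Fin N → Ω, ∑ s ∈ img W, ck_aux P W N s v * ∑ ω with W ω = s, if F v ω then P.w ω else 0 := by
    intro F
    unfold prE
    rw [Finset.sum_filter, ← Fintype.sum_equiv (Fin.insertNthEquiv (fun _ => Ω) i)
      (fun p : Ω × (Fin N → Ω) => if F p.2 p.1 then Q.w (i.insertNth p.1 p.2 : Fin (N + 1) → Ω) else 0) _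
      (fun p => by simp [Fin.insertNthEquiv])]
    rw [Fintype.sum_prod_type, Finset.sum_comm]
    refine Finset.sum_congr rfl fun v _ => ?_
    rw [← Finset.sum_fiberwise_of_maps_to (s := (Finset.univ : Finset Ω)) (t := img W) (g := W)
      (fun ω _ => mem_img.2 ⟨ω, rfl⟩)]
    refine Finset.sum_congr rfl fun s _ => ?_
    rw [Finset.mul_sum]
    refine Finset.sum_congr rfl fun ω hω => ?_
    have hs : W ω = s := by simpa using hω
    rw [hQ, cw_insert_aux, hs]
    split_ifs <;> ring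
  haveI : Nonempty Ω := by
    by_contra hn
    rw [not_nonempty_iff] at hn
    simpa using P.sum_one
  choose g hg using fun s : B =>
    Finite.exists_max fun v : Fin N → Ω => ∑ ω with W ω = s, if E v ω then P.w ω else 0
  have e1 : prE Q (fun w => E (g (W (w i))) (w i)) = prE P (fun ω => E (g (W ω)) ω) := by
    rw [← prE_eq_aux, ← prE_eq_aux]
    exact pr_law_aux Q P (fun w => w i) (cw_marg hQ i) (fun ω => E (g (W ω)) ω) True
  refine le_trans ?_ (e1.trans_le (h g))
  rw [key E, key fun _ ω => E (g (W ω)) ω]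
  refine Finset.sum_le_sum fun v _ => Finset.sum_le_sum fun s _ => mul_le_mul_of_nonneg_left ?_ ?_
  · refine (hg s v).trans_eq (Finset.sum_congr rfl fun ω hω => ?_)
    have hs : W ω = s := by simpa using hω
    rw [hs]
  · unfold ck_aux
    split_ifs
    · exact div_nonneg (Finset.prod_nonneg fun j _ => P.nn _) (pow_nonneg (P.pr_nonneg _ _) _)
    · exact le_rfl

/-- a hyperplane through `k` points of `ℝ^k` -/
theorem exists_hyp (hk : 1 ≤ k) (p : Fin k → Vc k) : ∃ a : Vc k × ℝ, ‖a.1‖ = 1 ∧ ∀ j, ⟪a.1, p j⟫ = a.2 := by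
  classical
  obtain ⟨l, rfl⟩ : ∃ l, k = l + 1 := ⟨k - 1, by omega⟩
  set U : Submodule ℝ (Vc (l + 1)) := Submodule.span ℝ (Set.range fun j : Fin l => p j.succ - p 0) with hU
  have h1 : Module.finrank ℝ U ≤ l := (finrank_range_le_card _).trans_eq (Fintype.card_fin l)
  have h2 : Uᗮ ≠ ⊥ := by
    intro h
    rw [Submodule.orthogonal_eq_bot_iff] at h
    rw [h, finrank_top, finrank_euclideanSpace, Fintype.card_fin] at h1
    omega
  obtain ⟨z, hz, hz0⟩ := Submodule.exists_mem_ne_zero_of_ne_bot h2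
  have hn : ‖z‖ ≠ 0 := norm_ne_zero_iff.2 hz0
  refine ⟨(‖z‖⁻¹ • z, ⟪‖z‖⁻¹ • z, p 0⟫), by simp [norm_smul, hn], fun j => ?_⟩
  refine Fin.cases rfl (fun j => ?_) j
  have h3 : ⟪z, p j.succ - p 0⟫ = 0 :=
    Submodule.inner_left_of_mem_orthogonal (K := U) (Submodule.subset_span (Set.mem_range_self j)) hz
  rw [inner_sub_right, sub_eq_zero] at h3
  simp only [real_inner_smul_left, h3]

/-- broadness in terms of unit normals -/
theorem brd_hyp (hk : 1 ≤ k) {Ω : Type} [Fintype Ω] {S : TSys Ω k} {w : ℕ} {β : ℝ} (h : S.Brd (k - 1) w β)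
    (a : S.α → Vc k × ℝ) (ha : ∀ s, ‖(a s).1‖ = 1) :
    prE S.P (fun ω => |⟪(a (S.ξ ω)).1, S.u ω⟫ - (a (S.ξ ω)).2| ≤ (2 ^ w)⁻¹) ≤ β := by
  set l : Fin k := ⟨k - 1, by omega⟩ with hl
  set e : Vc k := EuclideanSpace.single l 1 with he
  refine le_trans (prE_mono _ fun ω _ hω j hj => ?_)
    (h fun s => ((ℝ ∙ ((a s).1 - e))ᗮ.reflection, (a s).2 • (a s).1))
  have hj' : j = l := Fin.ext (by have := j.2; simp only [hl]; omega)
  subst hj'
  have hb := ha (S.ξ ω)
  show |((ℝ ∙ ((a (S.ξ ω)).1 - e))ᗮ.reflection (S.u ω - (a (S.ξ ω)).2 • (a (S.ξ ω)).1)) l| ≤ _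
  generalize a (S.ξ ω) = b at hω hb ⊢
  have h1 : (ℝ ∙ (b.1 - e))ᗮ.reflection b.1 = e := Submodule.reflection_sub (by simp [he, hb])
  have h2 : ∀ z : Vc k, ((ℝ ∙ (b.1 - e))ᗮ.reflection z) l = ⟪b.1, z⟫ := fun z => by
    rw [← ((ℝ ∙ (b.1 - e))ᗮ.reflection).inner_map_map b.1 z, h1, he, EuclideanSpace.inner_single_left]
    simp
  rw [h2, inner_sub_right, real_inner_smul_right, real_inner_self_eq_norm_sq, hb]
  simpa using hω

/-- the points for the functional `i` -/
noncomputable def pts (n : ℕ) (f : Fin k → Zv k) (i : Fin (k + 1)) : Fin k → Vc k :=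
  fun c => if c.castSucc = i then 0 else dd n (f c)

theorem tr (k : ℕ) (hk : 1 ≤ k) : TR k := by
  classical
  intro n
  choose hy h1 h2 using exists_hyp hk
  refine ⟨fun f i => (hy (pts n f i)).1, fun f i => (hy (pts n f i)).2, fun f i => (h1 _).le, fun f i C hC hf => ?_,
    fun f i c hc => ?_, fun w β Ω _ S P' hP' hBr hw => ?_⟩
  · show |(hy (pts n f i)).2| ≤ C
    rw [← h2 _ ⟨0, hk⟩]
    refine (abs_real_inner_le_norm _ _).trans ?_
    rw [h1, one_mul, pts]
    split_ifs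
    · simpa using hC
    · exact hf _
  · have := h2 (pts n f i) c
    rwa [pts, if_neg hc] at this
  · haveI : Nonempty Ω := by
      by_contra hn
      rw [not_nonempty_iff] at hn
      simpa using S.P.sum_one
    obtain ⟨ω₀⟩ := this
    have key : ∀ i : Fin (k + 1), prE P' (fun x => |⟪(hy (pts n (fun c => S.dir n (x c.castSucc)) i)).1, S.u (x i)⟫ -
        (hy (pts n (fun c => S.dir n (x c.castSucc)) i)).2| ≤ (2 ^ w)⁻¹) ≤ β := fun i => by
      have e1 := cw_strip hP' i (fun v ω =>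
        |⟪(hy (pts n (fun c => S.dir n ((i.insertNth ω₀ v : Fin (k + 1) → Ω) c.castSucc)) i)).1, S.u ω⟫ -
          (hy (pts n (fun c => S.dir n ((i.insertNth ω₀ v : Fin (k + 1) → Ω) c.castSucc)) i)).2| ≤ (2 ^ w)⁻¹)
        fun g => brd_hyp hk hBr
          (fun s => hy (pts n (fun c => S.dir n ((i.insertNth ω₀ (g s) : Fin (k + 1) → Ω) c.castSucc)) i)) fun s => h1 _
      refine le_trans (prE_mono _ fun x _ hx => ?_) e1
      have e2 : pts n (fun c => S.dir n ((i.insertNth ω₀ fun j => x (i.succAbove j) : Fin (k + 1) → Ω) c.castSucc)) i =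
          pts n (fun c => S.dir n (x c.castSucc)) i := by
        funext c
        simp only [pts]
        split_ifs with hc
        · rfl
        · obtain ⟨j, hj⟩ := Fin.exists_succAbove_eq hc
          rw [← hj, Fin.insertNth_apply_succAbove (α := fun _ => Ω)]
      rw [e2]
      exact hx
    refine le_trans (prE_mono _ fun x _ hx => ?_) ((prE_ex P' univ _).trans ((Finset.sum_le_sum fun i _ => key i).trans_eq
      (by simp)))
    push Not at hx
    obtain ⟨i, hi⟩ := hx
    refine ⟨i, Finset.mem_univ _, ?_⟩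
    have hb := h1 (pts n (fun c => S.dir n (x c.castSucc)) i)
    generalize hy (pts n (fun c => S.dir n (x c.castSucc)) i) = b at hi hb ⊢
    have e1 : |⟪b.1, dd n (S.dir n (x i)) - S.u (x i)⟫| ≤ k * (2 ^ n)⁻¹ :=
      (abs_real_inner_le_norm _ _).trans (by rw [hb, one_mul]; exact dd_dir_norm n _)
    have e2 : (k : ℝ) * (2 ^ n)⁻¹ ≤ (2 ^ (w + 1))⁻¹ := by
      rw [← div_eq_mul_inv, inv_eq_one_div, div_le_div_iff₀ (by positivity) (by positivity), one_mul]
      exact_mod_cast hw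
    have e3 : ((2 : ℝ) ^ w)⁻¹ = 2 * (2 ^ (w + 1))⁻¹ := by
      rw [pow_succ]
      field_simp
    rw [inner_sub_right] at e1
    rw [abs_lt] at hi
    rw [abs_le] at e1 ⊢
    constructor <;> linarith

end Vale.Agent.P076N.RG
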