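import Vale.Agent.P076N.RG.Lib

/-!
# P076N / RG : `W2 k` (helper5)
-/

set_option linter.all false

open Finset Vale.Agent.P127 Vale.Agent.P127.Stk

namespace Vale.Agent.P076N.RG

variable {k : ℕ}

theorem mod_div (z : ℤ) {a n : ℕ} (h : a ≤ n) : z % 2 ^ n / 2 ^ a = z / 2 ^ a - 2 ^ (n - a) * (z / 2 ^ n) := by
  obtain ⟨c, rfl⟩ := Nat.exists_eq_add_of_le h
  have h2 : (2 : ℤ) ^ a ≠ 0 := by positivity
  have e : z % 2 ^ (a + c) = z + (-(2 ^ c * (z / 2 ^ (a + c)))) * 2 ^ a := by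
    rw [Int.emod_def, pow_add]
    ring
  rw [Nat.add_sub_cancel_left, e, Int.add_mul_ediv_right _ _ h2]
  ring

theorem mod_real (x : ℝ) (ρ : ℕ) {a n : ℕ} (h : a ≤ n) :
    ⌊x / 2 ^ ρ⌋ % 2 ^ n / 2 ^ a = ⌊x / 2 ^ (ρ + a)⌋ - 2 ^ (n - a) * ⌊x / 2 ^ (ρ + n)⌋ := by
  rw [mod_div _ h, floor_div_add, floor_div_add]

/-- in one cube the lattice point moves with the point -/
theorem mod_close {x x' : ℝ} {ρ n : ℕ} (h : ⌊x / 2 ^ (ρ + n)⌋ = ⌊x' / 2 ^ (ρ + n)⌋) :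
    |(((⌊x / 2 ^ ρ⌋ % 2 ^ n : ℤ) : ℝ) - (⌊x' / 2 ^ ρ⌋ % 2 ^ n : ℤ)) - (x - x') / 2 ^ ρ| ≤ 1 := by
  have e1 := mod_real x ρ (Nat.zero_le n)
  have e2 := mod_real x' ρ (Nat.zero_le n)
  simp only [pow_zero, Int.ediv_one, add_zero] at e1 e2
  rw [e1, e2, h, sub_div, abs_le]
  push_cast
  constructor <;> linarith [Int.floor_le (x / 2 ^ ρ), Int.lt_floor_add_one (x / 2 ^ ρ), Int.floor_le (x' / 2 ^ ρ),
    Int.lt_floor_add_one (x' / 2 ^ ρ)]

theorem mod_le (z z' : ℤ) (n : ℕ) : |((z % 2 ^ n : ℤ) : ℝ) - (z' % 2 ^ n : ℤ)| ≤ 2 ^ n := by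
  have h2 : (0 : ℤ) < 2 ^ n := by positivity
  have e : |z % 2 ^ n - z' % 2 ^ n| ≤ 2 ^ n := by
    have := Int.emod_nonneg z h2.ne'
    have := Int.emod_lt_of_pos z h2
    have := Int.emod_nonneg z' h2.ne'
    have := Int.emod_lt_of_pos z' h2
    rw [abs_le]
    constructor <;> linarith
  exact_mod_cast e

theorem div_pow_le {x r : ℝ} (a : ℕ) (h : |x| ≤ r) : |x / 2 ^ a| ≤ r := by
  rw [abs_div, abs_of_pos (by positivity : (0 : ℝ) < 2 ^ a)]
  exact (div_le_self (abs_nonneg x) (one_le_pow₀ one_le_two)).trans h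

section

variable {Ω : Type} [Fintype Ω] (S : TSys Ω k)

theorem tub_close {p r : ℕ} (hp : p ≤ r) {ω ω' : Ω} (h : S.tub p ω = S.tub p ω') (l : Fin k) :
    |(S.x ω l - S.x ω' l) - (S.t ω - S.t ω') * S.u ω l| ≤ 2 ^ r := by
  simp only [TSys.tub, Prod.mk.injEq] at h
  have e := floor_eq_close (by positivity) (congrFun h.2 l)
  rw [← h.1] at e
  simp only [PiLp.sub_apply, PiLp.smul_apply, smul_eq_mul] at e
  refine le_trans (le_of_eq ?_) (e.trans (pow_le_pow_right₀ one_le_two hp))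
  congr 1
  ring

theorem cel_close {Cu : ℝ} {p r : ℕ} (hp : p ≤ r) {ω ω' : Ω} (hu : ‖S.u ω‖ ≤ Cu) (h : S.tub p ω = S.tub p ω')
    (ht : S.tm r ω = S.tm r ω') (l : Fin k) : |((S.cel r ω).1 l : ℝ) - (S.cel r ω').1 l| ≤ |Cu| + 1 + 1 := by
  have e1 := tub_close S hp h l
  have e2 : |S.t ω - S.t ω'| ≤ 2 ^ r := floor_eq_close (by positivity) ht
  have e3 : |(S.t ω - S.t ω') * S.u ω l| ≤ 2 ^ r * |Cu| := by
    rw [abs_mul]
    exact mul_le_mul e2 ((coord_le_norm _ l).trans (hu.trans (le_abs_self _))) (abs_nonneg _) (by positivity)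
  refine floor_sub_le ?_
  rw [← sub_div, abs_div, abs_of_pos (by positivity : (0 : ℝ) < 2 ^ r), div_le_iff₀ (by positivity)]
  rw [abs_le] at e1 e3 ⊢
  constructor <;> linarith

end

theorem w2 (k : ℕ) : W2 k := by
  intro Cu
  have hC := abs_nonneg Cu
  have hl : 0 ≤ Real.log (2 * (|Cu| + 4) + 1) := Real.log_nonneg (by linarith)
  refine ⟨2 * (k * Real.log (2 * (|Cu| + 4) + 1)), by positivity, ?_⟩
  intro p ρ n a Ω _ S ν v Q hp ha hs
  set Z := mkW S ρ n ν v with hZ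
  have xe : ∀ x, 0 < Q.w x → ∀ i, S.x (x i) = S.x (x 0) ∧ S.t (x i) = S.t (x 0) ∧ S.side (x i) = S.side (x 0) :=
    fun x hx i => by simp [TSys.x, TSys.t, TSys.side, (hs x hx i).1]
  have htm : ∀ x, Z.tm a x = S.tm (ρ + a) (x 0) - 2 ^ (n - a) * (Z.B x).1.2 := fun x => mod_real _ ρ ha
  refine ⟨hc_mono_left Q fun x x' _ _ e => ?_, fun i => ?_⟩
  · have e1 : S.cel (ρ + a) (x 0) = S.cel (ρ + a) (x' 0) := (Prod.ext_iff.1 e).1
    have e2 : Z.B x = Z.B x' := (Prod.ext_iff.1 e).2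
    refine Prod.ext (funext fun l => ?_) ?_
    · have h1 : ∀ x, (Z.cl a x).1 l = (S.cel (ρ + a) (x 0)).1 l - 2 ^ (n - a) * (Z.B x).1.1 l :=
        fun x => mod_real _ ρ ha
      rw [h1, h1, e1, e2]
    · show Z.tm a x = Z.tm a x'
      have e3 : S.tm (ρ + a) (x 0) = S.tm (ρ + a) (x' 0) := (Prod.ext_iff.1 e1).2
      rw [htm, htm, e2, e3]
  set Sx := fun x : Fin (k + 1) → Ω => (S.tm (ρ + n) (x i), S.tub p (x i), S.side (x i)) with hSx
  have c1 := hc_le_add' Q (fun x => S.tm (ρ + a) (x i)) (fun x => (Z.B x, Z.prj n a i x)) Sx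
  rw [hc_pair] at c1
  have c2 : hc Q Z.B Sx ≤ k * Real.log (2 * (|Cu| + 4) + 1) := by
    have e1 := hc_mono_left Q (X := Z.B) (X' := fun x => (S.cel (ρ + n) (x i)).1) (Y := Sx) fun x x' hx hx' e => by
      simp only [hSx, Prod.mk.injEq] at e
      obtain ⟨a1, a2, a3⟩ := xe x hx i
      obtain ⟨b1, b2, b3⟩ := xe x' hx' i
      simp only [TSys.cel, TSys.tm, a1, a2, a3, b1, b2, b3] at e
      exact Prod.ext (Prod.ext e.1 e.2.1) e.2.2.2
    have e2 := hc_near Q (fun x => (S.cel (ρ + n) (x i)).1) Sx (r := |Cu| + 4) (by linarith) fun x x' hx _ e l => by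
      simp only [hSx, Prod.mk.injEq] at e
      linarith [cel_close S (by omega : p ≤ ρ + n) (hs x hx i).2 e.2.1 e.1 l]
    rw [Fintype.card_fin] at e2
    exact e1.trans e2
  have c3 : hc Q (Z.prj n a i) (fun x => (Z.B x, Sx x)) ≤ k * Real.log (2 * (|Cu| + 4) + 1) := by
    have e2 := hc_near Q (Z.prj n a i) (fun x => (Z.B x, Sx x)) (r := |Cu| + 4) (by linarith) fun x x' hx hx' e l => by
      simp only [hSx, Prod.mk.injEq] at e
      obtain ⟨a1, a2, -⟩ := xe x hx i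
      obtain ⟨b1, b2, -⟩ := xe x' hx' i
      have eB : S.cel (ρ + n) (x 0) = S.cel (ρ + n) (x' 0) := (Prod.ext_iff.1 e.1).1
      have eu : S.u (x i) = S.u (x' i) := (Prod.ext_iff.1 e.2.2.1).1
      have ed : Z.d n x' i = Z.d n x i := by
        show dd n (flv _ (S.u (x' i))) = dd n (flv _ (S.u (x i)))
        rw [eu]
      have t1 : |((Z.zx x l : ℝ) - Z.zx x' l) - (S.x (x 0) l - S.x (x' 0) l) / 2 ^ ρ| ≤ 1 :=
        mod_close (congrFun (Prod.ext_iff.1 eB).1 l)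
      have t2 : |((Z.zt x : ℝ) - Z.zt x') - (S.t (x 0) - S.t (x' 0)) / 2 ^ ρ| ≤ 1 := mod_close (Prod.ext_iff.1 eB).2
      have t3 : |(Z.zt x : ℝ) - Z.zt x'| ≤ 2 ^ n := mod_le _ _ n
      have t4 : |Z.d n x i l - S.u (x i) l| ≤ (2 ^ n)⁻¹ := dd_dir_close n _ l
      have t5 := tub_close S hp e.2.2.1 l
      rw [a1, a2, b1, b2] at t5
      have t6 : |S.u (x i) l| ≤ |Cu| := (coord_le_norm _ l).trans ((hs x hx i).2.trans (le_abs_self _))
      have t7 : |((Z.zt x : ℝ) - Z.zt x') * (Z.d n x i l - S.u (x i) l)| ≤ 1 := by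
        rw [abs_mul]
        exact (mul_le_mul t3 t4 (abs_nonneg _) (by positivity)).trans_eq (mul_inv_cancel₀ (by positivity))
      have t8 : |(((Z.zt x : ℝ) - Z.zt x') - (S.t (x 0) - S.t (x' 0)) / 2 ^ ρ) * S.u (x i) l| ≤ |Cu| := by
        rw [abs_mul]
        exact (mul_le_mul t2 t6 (abs_nonneg _) zero_le_one).trans_eq (one_mul _)
      have t9 : |((S.x (x 0) l - S.x (x' 0) l) - (S.t (x 0) - S.t (x' 0)) * S.u (x i) l) / 2 ^ ρ| ≤ 1 := by
        rw [abs_div, abs_of_pos (by positivity : (0 : ℝ) < 2 ^ ρ), div_le_one (by positivity)]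
        exact t5
      refine (floor_sub_le (r := |Cu| + 3) ?_).trans_eq (by ring)
      rw [← sub_div]
      refine div_pow_le a ?_
      simp only [ed, PiLp.sub_apply, PiLp.smul_apply, smul_eq_mul, toV_apply]
      rw [sub_div, mul_div_right_comm] at t9
      rw [abs_le] at t1 t7 t8 t9 ⊢
      constructor <;> linarith
    rwa [Fintype.card_fin] at e2
  have c4 : hc Q (fun x => S.tm (ρ + a) (x i)) (fun x => ((Z.B x, Z.prj n a i x), Sx x)) ≤
      hc Q (Z.tm a) (fun x => (Z.prj n a i x, Z.dz x i, Z.B x)) := by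
    refine le_trans (hc_mono_right Q _ (Y := fun x => (Z.prj n a i x, Z.dz x i, Z.B x)) fun x x' _ _ e => ?_)
      (hc_mono_left Q fun x x' hx hx' e => ?_)
    · simp only [hSx, Prod.mk.injEq] at e ⊢
      refine ⟨e.1.2, ?_, e.1.1⟩
      have eu : S.u (x i) = S.u (x' i) := (Prod.ext_iff.1 e.2.2.1).1
      show flv _ (S.u (x i)) = flv _ (S.u (x' i))
      rw [eu]
    · simp only [Prod.mk.injEq] at e
      have e1 := e.1
      rw [htm, htm, e.2.2.2, sub_left_inj] at e1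
      simpa only [TSys.tm, (xe x hx i).2.1, (xe x' hx' i).2.1] using e1
  have c5 : mi Q (Z.tm a) Z.dz (fun x => (Z.prj n a i x, Z.dz x i, Z.B x)) ≤
      mi Q (fun x => S.cel ρ (x 0)) Z.dz Z.B := by
    have fz : ∀ x x' : Fin (k + 1) → Ω, S.cel ρ (x 0) = S.cel ρ (x' 0) → Z.zx x = Z.zx x' ∧ Z.zt x = Z.zt x' :=
      fun x x' e => ⟨funext fun l => congrArg (fun c : Zv k × ℤ => c.1 l % 2 ^ n) e,
        congrArg (fun c : Zv k × ℤ => c.2 % 2 ^ n) e⟩
    have e1 := mi_mono_left Q (X := Z.tm a) (X' := fun x => S.cel ρ (x 0)) Z.dz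
      (Z := fun x => (Z.prj n a i x, Z.dz x i, Z.B x)) fun x x' _ _ e => by
        simp only [Wn.tm, (fz x x' (Prod.ext_iff.1 e).1).2]
    have e2 := mi_cond_le Q (X := fun x => S.cel ρ (x 0)) Z.dz (W := Z.prj n a i) (fun x => (Z.dz x i, Z.B x))
      fun x x' _ _ e => by
        simp only [Prod.mk.injEq] at e
        simp only [Wn.prj, Wn.d, (fz x x' e.1).1, (fz x x' e.1).2, e.2.1]
    have e3 := mi_pair Q (fun x => S.cel ρ (x 0)) (fun x => Z.dz x i) Z.dz Z.B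
    have e4 := mi_mono_right Q (fun x => S.cel ρ (x 0)) (Y := fun x => (Z.dz x i, Z.dz x)) (Y' := Z.dz) (Z := Z.B)
      fun x x' _ _ e => by
        simp only [Prod.mk.injEq] at e ⊢
        exact ⟨congrFun e.1 i, e.1⟩
    linarith [mi_nonneg Q (fun x => S.cel ρ (x 0)) (fun x => Z.dz x i) Z.B]
  have c8 := hc_mono_right Q (Z.tm a) (Y := fun x => (Z.prj n a i x, Z.D x))
    (Y' := fun x => (Z.dz x, Z.prj n a i x, Z.dz x i, Z.B x)) fun x x' _ _ e => by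
      simp only [Wn.D, Prod.mk.injEq] at e ⊢
      exact ⟨e.2.1, e.1, e.2.2.2⟩
  unfold mi at c5
  unfold mi
  linarith

end Vale.Agent.P076N.RG
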