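import Vale.Agent.P076N.RG.Lib

/-!
# P076N / RG : `WND k` from `SHR HAN ALP BPe` (helper5)
-/

set_option linter.all false

open Finset Vale.Agent.P127 Vale.Agent.P127.Stk
open scoped RealInnerProductSpace

namespace Vale.Agent.P076N.RG

variable {k : ℕ}

section fam

variable {Ω Γ : Type} [Fintype Ω] (Q : Law Ω) (V : Fin (k + 1) → Ω → ℤ) (G : Ω → Γ) {x δ : ℝ}

theorem le_tup {A : Finset (Fin (k + 1))} {S : Type} (X : Ω → S)
    (h : ∀ ω ω', (∀ i ∈ A, V i ω = V i ω') → X ω = X ω') : hc Q X G ≤ hc Q (tup V A) G :=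
  hc_mono_left Q fun ω ω' _ _ e => h ω ω' fun i hi => by
    have := congrFun (Prod.ext_iff.1 e).1 i
    simpa [tup, hi] using this

theorem fam_up (h1 : SHR) (A : Finset (Fin (k + 1))) (hu : hc Q (tup V univ) G ≤ (k + 1) * x + δ)
    (hl : ∀ i, i ∉ A → x - δ ≤ hc Q (V i) fun ω => (tup V (univ.erase i) ω, G ω)) :
    hc Q (tup V A) G ≤ #A * x + (k + 2 - #A) * δ := by
  have e1 := h1 Ω (Fin (k + 1)) Γ Q V G A Aᶜ disjoint_compl_right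
  rw [Finset.union_compl] at e1
  have e2 : ∑ _i ∈ Aᶜ, (x - δ) ≤ ∑ i ∈ Aᶜ, hc Q (V i) fun ω => (tup V (univ.erase i) ω, G ω) :=
    Finset.sum_le_sum fun i hi => hl i (Finset.mem_compl.1 hi)
  have e3 : ((#Aᶜ : ℕ) : ℝ) = k + 1 - #A := by
    have := Finset.card_add_card_compl A
    rw [Fintype.card_fin] at this
    have h' : ((#A : ℕ) : ℝ) + (#Aᶜ : ℕ) = k + 1 := by exact_mod_cast this
    linarith
  rw [Finset.sum_const, nsmul_eq_mul, e3] at e2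
  linarith

theorem up1 (h1 : SHR) (i : Fin (k + 1)) (hu : hc Q (tup V univ) G ≤ (k + 1) * x + δ)
    (hl : ∀ j, j ≠ i → x - δ ≤ hc Q (V j) fun ω => (tup V (univ.erase j) ω, G ω)) :
    hc Q (V i) G ≤ x + (k + 1) * δ := by
  have e1 := fam_up Q V G h1 {i} hu fun j hj => hl j (by simpa using hj)
  have e2 := le_tup Q V G (A := {i}) (V i) fun ω ω' h => h i (by simp)
  rw [Finset.card_singleton] at e1
  push_cast at e1
  linarith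

theorem up2 (h1 : SHR) {i j : Fin (k + 1)} (hij : i ≠ j) (hu : hc Q (tup V univ) G ≤ (k + 1) * x + δ)
    (hl : ∀ l, l ≠ j → x - δ ≤ hc Q (V l) fun ω => (tup V (univ.erase l) ω, G ω)) :
    hc Q (fun ω => (V i ω, V j ω)) G ≤ 2 * x + k * δ := by
  have e1 := fam_up Q V G h1 {i, j} hu fun l hl' => hl l fun e => hl' (by simp [e])
  have e2 := le_tup Q V G (A := {i, j}) (fun ω => (V i ω, V j ω)) fun ω ω' h =>
    Prod.ext (h i (by simp)) (h j (by simp))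
  rw [Finset.card_pair hij] at e1
  push_cast at e1
  linarith

theorem lo1 (i : Fin (k + 1)) {Γ' : Type} (G' : Ω → Γ') (h : Fn Q G' G) :
    hc Q (V i) (fun ω => (tup V (univ.erase i) ω, G ω)) ≤ hc Q (V i) G' :=
  hc_mono_right Q _ fun ω ω' hω hω' e => h ω ω' hω hω' (Prod.ext_iff.1 e).2

theorem lo2 (h1 : SHR) {i j : Fin (k + 1)} (hij : i ≠ j)
    (hl : ∀ l, x - δ ≤ hc Q (V l) fun ω => (tup V (univ.erase l) ω, G ω)) :
    2 * x - 2 * δ ≤ hc Q (fun ω => (V i ω, V j ω)) G := by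
  have e1 := h1 Ω (Fin (k + 1)) Γ Q V G ∅ {i, j} (Finset.disjoint_empty_left _)
  rw [Finset.sum_pair hij, Finset.empty_union] at e1
  have e2 : hc Q (tup V {i, j}) G ≤ hc Q (fun ω => (V i ω, V j ω)) G := by
    refine hc_mono_left Q fun ω ω' _ _ e => funext fun l => ?_
    have e' := Prod.ext_iff.1 (Prod.ext_iff.1 e).1
    simp only [tup]
    split_ifs with hl
    · rcases Finset.mem_insert.1 hl with rfl | hl
      · exact e'.1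
      · rw [Finset.mem_singleton.1 hl]
        exact e'.2
    · rfl
  linarith [hc_nonneg Q (tup V ∅) G, hl i, hl j]

end fam

namespace Wn

variable {Ω : Type} (Z : Wn Ω k)

/-- the coefficients of the second family -/
noncomputable def be (n : ℕ) (ω : Ω) (i : Fin (k + 1)) : ℝ :=
  if i = Fin.last k then 0 else -(⟪Z.ν ω i, Z.d n ω (Fin.last k)⟫ - Z.v ω i) /
    (⟪Z.ν ω (Fin.last k), Z.d n ω (Fin.last k)⟫ - Z.v ω (Fin.last k))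

noncomputable def μ (n : ℕ) (ω : Ω) (i : Fin (k + 1)) : Vc k := Z.ν ω i + Z.be n ω i • Z.ν ω (Fin.last k)

noncomputable def s (n : ℕ) (ω : Ω) (i : Fin (k + 1)) : ℝ := Z.v ω i + Z.be n ω i * Z.v ω (Fin.last k)

theorem be_cast (n : ℕ) (ω : Ω) (c : Fin k) : Z.be n ω c.castSucc = Z.al n c ω := by
  simp [be, al, (Fin.castSucc_lt_last c).ne]

theorem be_last (n : ℕ) (ω : Ω) : Z.be n ω (Fin.last k) = 0 := by simp [be]

theorem ev_eq (n : ℕ) (ω : Ω) (i : Fin (k + 1)) (x : Vc k) (t : ℝ) : ⟪Z.μ n ω i, x⟫ - Z.s n ω i * t =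
    (⟪Z.ν ω i, x⟫ - Z.v ω i * t) + Z.be n ω i * (⟪Z.ν ω (Fin.last k), x⟫ - Z.v ω (Fin.last k) * t) := by
  simp only [μ, s, inner_add_left, real_inner_smul_left]
  ring

theorem V_div (μ : Ω → Fin (k + 1) → Vc k) (s : Ω → Fin (k + 1) → ℝ) (a : ℕ) (i : Fin (k + 1)) :
    (fun ω => Z.V μ s 0 i ω / 2 ^ a) = Z.V μ s a i := by
  funext ω
  simp only [V, pow_zero, div_one, floor_div_pow]

theorem V_last (n a : ℕ) : Z.V (Z.μ n) (Z.s n) a (Fin.last k) = Z.V Z.ν Z.v a (Fin.last k) := by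
  funext ω
  simp only [V, ev_eq, be_last, zero_mul, add_zero]

theorem fn_FD [Fintype Ω] (Q : Law Ω) : Fn Q Z.F Z.D := fun ω ω' _ _ h => by
  have h1 := Prod.ext_iff.1 h
  exact Prod.ext (funext fun c => congrFun h1.1 _) h1.2

variable [Fintype Ω] {Z} {R : Law Ω} {n : ℕ} {Cd A₀ : ℝ}

theorem Geo.mono (h : Z.Geo R n Cd A₀) {A : ℝ} (h0 : 0 < A₀) (hA : A₀ ≤ A) : Z.Geo R n Cd A :=
  ⟨h.box, h.fn, h.bd, h.kill, fun ω hω i => (inv_anti₀ h0 hA).trans (h.tr ω hω i)⟩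

theorem Geo.dom (h : Z.Geo R n Cd A₀) {Q : Law Ω} {Λ : ℝ} (hQ : Dom Q id R Λ) : Z.Geo Q n Cd A₀ :=
  ⟨fun ω hω => h.box ω (hQ.pos hω), Fn.dom hQ h.fn, fun ω hω => h.bd ω (hQ.pos hω), fun ω hω => h.kill ω (hQ.pos hω),
    fun ω hω => h.tr ω (hQ.pos hω)⟩

theorem Geo.fn_be (h : Z.Geo R n Cd A₀) : Fn R (Z.be n) Z.D := fun ω ω' hω hω' e => by
  have e1 := Prod.ext_iff.1 (h.fn ω ω' hω hω' (Z.fn_FD R ω ω' hω hω' e))
  have e2 : Z.dz ω = Z.dz ω' := (Prod.ext_iff.1 e).1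
  have e3 : Z.ν ω = Z.ν ω' := e1.1
  have e4 : Z.v ω = Z.v ω' := e1.2
  funext i
  simp only [be, d, e2, e3, e4]

theorem Geo.fn_μ (h : Z.Geo R n Cd A₀) : Fn R (fun ω => (Z.μ n ω, Z.s n ω)) Z.D := fun ω ω' hω hω' e => by
  have e1 := Prod.ext_iff.1 (h.fn ω ω' hω hω' (Z.fn_FD R ω ω' hω hω' e))
  have e2 := h.fn_be ω ω' hω hω' e
  have e3 : Z.ν ω = Z.ν ω' := e1.1
  have e4 : Z.v ω = Z.v ω' := e1.2
  refine Prod.ext (funext fun i => ?_) (funext fun i => ?_)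
  · simp only [μ, e2, e3]
  · simp only [s, e2, e4]

theorem Geo.be_le (h : Z.Geo R n Cd A₀) (h0 : 0 < A₀) {ω : Ω} (hω : 0 < R.w ω) (i : Fin (k + 1)) :
    |Z.be n ω i| ≤ 2 * |Cd| * A₀ := by
  unfold be
  split_ifs
  · rw [abs_zero]
    positivity
  · have t := h.tr ω hω (Fin.last k)
    have t0 := (inv_pos.2 h0).trans_le t
    obtain ⟨-, b2, b3⟩ := h.bd ω hω i
    have b1 := (h.bd ω hω (Fin.last k)).1
    have b4 : |⟪Z.ν ω i, Z.d n ω (Fin.last k)⟫| ≤ |Cd| :=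
      (abs_real_inner_le_norm _ _).trans ((mul_le_of_le_one_left (norm_nonneg _) b2).trans (b1.trans (le_abs_self _)))
    have b5 : |⟪Z.ν ω i, Z.d n ω (Fin.last k)⟫ - Z.v ω i| ≤ 2 * |Cd| := by
      linarith [abs_sub ⟪Z.ν ω i, Z.d n ω (Fin.last k)⟫ (Z.v ω i), le_abs_self Cd]
    rw [abs_div, abs_neg, div_le_iff₀ t0]
    calc _ ≤ 2 * |Cd| := b5
      _ = 2 * |Cd| * A₀ * A₀⁻¹ := by field_simp
      _ ≤ _ := mul_le_mul_of_nonneg_left t (by positivity)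

theorem Geo.kill2 (h : Z.Geo R n Cd A₀) (h0 : 0 < A₀) {ω : Ω} (hω : 0 < R.w ω) (i : Fin (k + 1)) :
    (∀ j, j ≠ i → ⟪Z.μ n ω j, Z.d n ω i⟫ = Z.s n ω j) ∧ A₀⁻¹ ≤ |⟪Z.μ n ω i, Z.d n ω i⟫ - Z.s n ω i| := by
  have e := fun j => Z.ev_eq n ω j (Z.d n ω i) 1
  simp only [mul_one] at e
  rcases Fin.eq_castSucc_or_eq_last i with ⟨c, rfl⟩ | rfl
  · have e0 := h.kill ω hω (Fin.last k) c (Fin.castSucc_lt_last c).ne
    refine ⟨fun j hj => sub_eq_zero.1 ?_, ?_⟩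
    · rw [e, e0, h.kill ω hω j c hj.symm]
      ring
    · rw [e, e0, sub_self, mul_zero, add_zero]
      exact h.tr ω hω _
  · have t0 := abs_pos.1 ((inv_pos.2 h0).trans_le (h.tr ω hω (Fin.last k)))
    refine ⟨fun j hj => sub_eq_zero.1 ?_, ?_⟩
    · rw [e, be, if_neg hj]
      field_simp
      ring
    · rw [e, be_last, zero_mul, add_zero]
      exact h.tr ω hω _

end Wn

/-- the entropy part -/
theorem wnd_ent (hk : 1 ≤ k) (h1 : SHR) (h2 : HAN k) {Ω : Type} [Fintype Ω] {Q : Law Ω} {Z : Wn Ω k} {n : ℕ}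
    {Cd A η e κ : ℝ} (hG : Z.Geo Q n Cd A) (hA : 1 ≤ A) (hCd : Cd ≤ A) (he : 0 ≤ e)
    (hb : ∀ ω, 0 < Q.w ω → ∀ i, ‖Z.μ n ω i‖ ≤ A ∧ |Z.s n ω i| ≤ A) (c : Fin k)
    (hW : ∀ ω, 0 < Q.w ω → |(Z.V Z.ν Z.v 0 c.castSucc ω : ℝ) + Z.al n c ω * Z.V Z.ν Z.v 0 (Fin.last k) ω -
      Z.V (Z.μ n) (Z.s n) 0 c.castSucc ω| ≤ 3 * A)
    (hη : Real.log (13 * (k + 1) * A ^ 3) ≤ η)
    (hQ : ∀ a ≤ n, hc Q (Z.cl a) Z.B ≤ (k + 1) * κ * ((n : ℝ) - a) * Real.log 2 + e ∧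
      ∀ i, κ * ((n : ℝ) - a) * Real.log 2 - e ≤ hc Q (Z.tm a) (fun ω => (Z.prj n a i ω, Z.D ω))) :
    (∀ a ≤ n, |hc Q (Z.V Z.ν Z.v a (Fin.last k)) Z.F - κ * ((n : ℝ) - a) * Real.log 2| ≤ (k + 2) * (e + (k + 2) * η) ∧
      |hc Q (Z.V (Z.μ n) (Z.s n) a c.castSucc) Z.D - κ * ((n : ℝ) - a) * Real.log 2| ≤ (k + 2) * (e + (k + 2) * η)) ∧
    hc Q (fun ω => (Z.V Z.ν Z.v 0 c.castSucc ω, Z.V Z.ν Z.v 0 (Fin.last k) ω)) Z.F ≤
      2 * κ * n * Real.log 2 + (k + 2) * (e + (k + 2) * η) ∧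
    2 * κ * n * Real.log 2 - (k + 2) * (e + (k + 2) * η) ≤
      hc Q (fun ω => (Z.V Z.ν Z.v 0 c.castSucc ω, Z.V Z.ν Z.v 0 (Fin.last k) ω)) Z.D := by
  have hk0 : (1 : ℝ) ≤ k := by exact_mod_cast hk
  have hA2 : A ≤ A ^ 2 := by nlinarith
  have hA3 : A ^ 2 ≤ A ^ 3 := by nlinarith
  have l1 : Real.log (2 * (k + 1) * A + 5) ≤ η := (Real.log_le_log (by positivity) (by nlinarith)).trans hη
  have l2 : Real.log (2 * (k + 1) * A ^ 2 + 5) ≤ η := (Real.log_le_log (by positivity) (by nlinarith)).trans hη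
  have l3 : Real.log (2 * (6 * A) + 1) ≤ η := (Real.log_le_log (by positivity) (by nlinarith)).trans hη
  have hη0 : 0 ≤ η := (Real.log_nonneg (by linarith)).trans l3
  have m1 := mul_le_mul_of_nonneg_left l1 (by positivity : (0 : ℝ) ≤ k + 1)
  have m2 := mul_le_mul_of_nonneg_left l2 (by positivity : (0 : ℝ) ≤ k + 2)
  obtain ⟨δ, hδ⟩ : ∃ δ, δ = e + (k + 2) * η := ⟨_, rfl⟩
  have hδ0 : η ≤ δ := by nlinarith
  have hkδ : δ ≤ k * δ := le_mul_of_one_le_left (by linarith) hk0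
  rw [← hδ]
  have f1 : ∀ a ≤ n, hc Q (tup (Z.V Z.ν Z.v a) univ) Z.F ≤ (k + 1) * (κ * ((n : ℝ) - a) * Real.log 2) + δ ∧
      ∀ j, j ≠ Fin.last k → κ * ((n : ℝ) - a) * Real.log 2 - δ ≤
        hc Q (Z.V Z.ν Z.v a j) fun ω => (tup (Z.V Z.ν Z.v a) (univ.erase j) ω, Z.F ω) := fun a ha => by
    obtain ⟨u, l⟩ := h2 Ω _ Q Z n a Z.ν Z.v Z.F A hA hG.fn (Z.fn_FD Q) (fun ω ω' _ _ e => (Prod.ext_iff.1 e).2)
      fun ω hω i => ⟨(hG.bd ω hω i).2.1.trans hA, (hG.bd ω hω i).2.2.trans hCd⟩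
    refine ⟨by linarith [(hQ a ha).1], fun j hj => ?_⟩
    obtain ⟨c', rfl⟩ := Fin.exists_castSucc_eq.2 hj
    linarith [(hQ a ha).2 c'.castSucc, l c'.castSucc fun ω hω => ⟨fun j hj => hG.kill ω hω j c' hj.symm, hG.tr ω hω _⟩]
  have f2 : ∀ a ≤ n, hc Q (tup (Z.V (Z.μ n) (Z.s n) a) univ) Z.D ≤ (k + 1) * (κ * ((n : ℝ) - a) * Real.log 2) + δ ∧
      ∀ j, κ * ((n : ℝ) - a) * Real.log 2 - δ ≤
        hc Q (Z.V (Z.μ n) (Z.s n) a j) fun ω => (tup (Z.V (Z.μ n) (Z.s n) a) (univ.erase j) ω, Z.D ω) := fun a ha => by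
    obtain ⟨u, l⟩ := h2 Ω _ Q Z n a (Z.μ n) (Z.s n) Z.D A hA hG.fn_μ (fun ω ω' _ _ e => e)
      (fun ω ω' _ _ e => (Prod.ext_iff.1 e).2) hb
    refine ⟨by linarith [(hQ a ha).1], fun j => ?_⟩
    linarith [(hQ a ha).2 j, l j fun ω hω => hG.kill2 (by linarith) hω j]
  have hne : c.castSucc ≠ Fin.last k := (Fin.castSucc_lt_last c).ne
  refine ⟨fun a ha => ⟨abs_le.2 ⟨?_, ?_⟩, abs_le.2 ⟨?_, ?_⟩⟩, ?_, ?_⟩
  · have e1 := lo1 Q (Z.V (Z.μ n) (Z.s n) a) Z.D (Fin.last k) Z.F (Z.fn_FD Q)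
    have e2 := (f2 a ha).2 (Fin.last k)
    have e3 := e2.trans e1
    rw [Z.V_last] at e3
    linarith
  · linarith [up1 Q _ _ h1 _ (f1 a ha).1 (f1 a ha).2]
  · linarith [lo1 Q (Z.V (Z.μ n) (Z.s n) a) Z.D c.castSucc Z.D (fun ω ω' _ _ e => e), (f2 a ha).2 c.castSucc]
  · linarith [up1 Q _ _ h1 c.castSucc (f2 a ha).1 fun j _ => (f2 a ha).2 j]
  · have e1 := up2 Q _ _ h1 hne (f1 0 n.zero_le).1 (f1 0 n.zero_le).2
    simp only [Nat.cast_zero, sub_zero] at e1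
    linarith
  · have e1 := lo2 Q _ _ h1 hne (f2 0 n.zero_le).2
    simp only [Nat.cast_zero, sub_zero, Z.V_last] at e1
    have e2 := hc_le_add Q (fun ω => (Z.V (Z.μ n) (Z.s n) 0 c.castSucc ω, Z.V Z.ν Z.v 0 (Fin.last k) ω))
      (fun ω => (Z.V Z.ν Z.v 0 c.castSucc ω, Z.V Z.ν Z.v 0 (Fin.last k) ω)) Z.D
    have e3 := hc_mono_left Q (X := fun ω => (Z.V (Z.μ n) (Z.s n) 0 c.castSucc ω, Z.V Z.ν Z.v 0 (Fin.last k) ω))
      (X' := Z.V (Z.μ n) (Z.s n) 0 c.castSucc)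
      (Y := fun ω => ((Z.V Z.ν Z.v 0 c.castSucc ω, Z.V Z.ν Z.v 0 (Fin.last k) ω), Z.D ω)) fun ω ω' _ _ e => by
        simp only [Prod.mk.injEq] at e ⊢
        exact ⟨e.1, e.2.1.2⟩
    have e4 := hc_near1 Q (Z.V (Z.μ n) (Z.s n) 0 c.castSucc)
      (fun ω => ((Z.V Z.ν Z.v 0 c.castSucc ω, Z.V Z.ν Z.v 0 (Fin.last k) ω), Z.D ω)) (r := 6 * A) fun ω ω' hω hω' e => by
        simp only [Prod.mk.injEq] at e
        have t1 := hW ω hω
        have t2 := hW ω' hω'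
        have t3 : Z.al n c ω = Z.al n c ω' := by
          rw [← Z.be_cast, ← Z.be_cast, hG.fn_be ω ω' hω hω' e.2]
        rw [e.1.1, e.1.2, t3] at t1
        rw [abs_le] at t1 t2 ⊢
        constructor <;> linarith
    linarith

/-- the pointwise part -/
theorem wnd_pt {Ω : Type} [Fintype Ω] {R : Law Ω} {Z : Wn Ω k} {n : ℕ} {Cd A₀ : ℝ} (hG : Z.Geo R n Cd A₀) (h0 : 1 ≤ A₀)
    {ω : Ω} (hω : 0 < R.w ω) (c : Fin k) :
    (∀ i, ‖Z.μ n ω i‖ ≤ 3 * (1 + |Cd|) ^ 2 * A₀ ∧ |Z.s n ω i| ≤ 3 * (1 + |Cd|) ^ 2 * A₀) ∧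
    |Z.al n c ω| ≤ 3 * (1 + |Cd|) ^ 2 * A₀ ∧
    |(Z.V Z.ν Z.v 0 c.castSucc ω : ℝ) + Z.al n c ω * Z.V Z.ν Z.v 0 (Fin.last k) ω -
      Z.V (Z.μ n) (Z.s n) 0 c.castSucc ω| ≤ 3 * (3 * (1 + |Cd|) ^ 2 * A₀) ∧
    |(Z.V Z.ν Z.v 0 (Fin.last k) ω : ℝ)| ≤ (k + |Cd| + 1) * 2 ^ n := by
  have hb := fun i => hG.be_le (by linarith) hω i
  have hc := abs_nonneg Cd
  have hca : 0 ≤ |Cd| * A₀ := by positivity
  have hcc : 0 ≤ |Cd| * |Cd| * A₀ := by positivity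
  have hl := hG.bd ω hω (Fin.last k)
  have ha : |Z.al n c ω| ≤ 2 * |Cd| * A₀ := Z.be_cast n ω c ▸ hb _
  refine ⟨fun i => ⟨?_, ?_⟩, by nlinarith, ?_, ?_⟩
  · have e1 := norm_add_le (Z.ν ω i) (Z.be n ω i • Z.ν ω (Fin.last k))
    rw [norm_smul, Real.norm_eq_abs] at e1
    have e2 := mul_le_of_le_one_right (abs_nonneg (Z.be n ω i)) hl.2.1
    have := (hG.bd ω hω i).2.1
    have := hb i
    show ‖Z.ν ω i + _‖ ≤ _
    nlinarith
  · have e1 := abs_add_le (Z.v ω i) (Z.be n ω i * Z.v ω (Fin.last k))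
    rw [abs_mul] at e1
    have e2 := mul_le_mul (hb i) (hl.2.2.trans (le_abs_self _)) (abs_nonneg _) (by positivity)
    have := (hG.bd ω hω i).2.2.trans (le_abs_self _)
    show |Z.v ω i + _| ≤ _
    nlinarith
  · simp only [Wn.V, pow_zero, div_one, Wn.ev_eq, Wn.be_cast]
    generalize ⟪Z.ν ω c.castSucc, toV (Z.zx ω)⟫ - Z.v ω c.castSucc * Z.zt ω = x
    generalize ⟪Z.ν ω (Fin.last k), toV (Z.zx ω)⟫ - Z.v ω (Fin.last k) * Z.zt ω = y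
    generalize Z.al n c ω = a at ha ⊢
    have e1 : (⌊x⌋ : ℝ) + a * ⌊y⌋ - ⌊x + a * y⌋ = (Int.fract (x + a * y) - Int.fract x) - a * Int.fract y := by
      simp only [Int.fract]
      ring
    have e2 : |a * Int.fract y| ≤ |a| := by
      rw [abs_mul, abs_of_nonneg (Int.fract_nonneg y)]
      exact mul_le_of_le_one_right (abs_nonneg _) (Int.fract_lt_one y).le
    have e3 : |Int.fract (x + a * y) - Int.fract x| ≤ 1 := by
      rw [abs_le]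
      constructor <;> linarith [Int.fract_nonneg x, Int.fract_lt_one x, Int.fract_nonneg (x + a * y),
        Int.fract_lt_one (x + a * y)]
    rw [e1]
    nlinarith [abs_sub (Int.fract (x + a * y) - Int.fract x) (a * Int.fract y)]
  · have b := hG.box ω hω
    have h2 : (1 : ℝ) ≤ 2 ^ n := one_le_pow₀ one_le_two
    have e1 : ‖toV (Z.zx ω)‖ ≤ k * 2 ^ n := norm_le_of_coord fun l => by
      have : |((Z.zx ω l : ℤ) : ℝ)| ≤ 2 ^ n := by exact_mod_cast b.1 l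
      exact this
    have e2 : |(Z.zt ω : ℝ)| ≤ 2 ^ n := by exact_mod_cast b.2
    have e3 : |⟪Z.ν ω (Fin.last k), toV (Z.zx ω)⟫| ≤ k * 2 ^ n :=
      (abs_real_inner_le_norm _ _).trans ((mul_le_of_le_one_left (norm_nonneg _) hl.2.1).trans e1)
    have e4 : |Z.v ω (Fin.last k) * Z.zt ω| ≤ |Cd| * 2 ^ n := by
      rw [abs_mul]
      exact mul_le_mul (hl.2.2.trans (le_abs_self _)) e2 (abs_nonneg _) hc
    have e5 := floor_sub_le (x := ⟪Z.ν ω (Fin.last k), toV (Z.zx ω)⟫ - Z.v ω (Fin.last k) * Z.zt ω) (y := 0)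
      (r := k * 2 ^ n + |Cd| * 2 ^ n) (by
        rw [sub_zero]
        linarith [abs_sub ⟪Z.ν ω (Fin.last k), toV (Z.zx ω)⟫ (Z.v ω (Fin.last k) * Z.zt ω)])
    simp only [Int.floor_zero, Int.cast_zero, sub_zero] at e5
    simp only [Wn.V, pow_zero, div_one]
    linarith

theorem wnd_num (Cd : ℝ) {E : ℝ} (hE : 0 < E) : ∃ n₀ : ℕ, ∀ n w : ℕ, n₀ ≤ n → (w : ℝ) ≤ E * n →
    Real.log (13 * (k + 1) * (3 * (1 + |Cd|) ^ 2 * 2 ^ (w + 1)) ^ 3) ≤ 4 * E * n := by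
  obtain ⟨n₀, h⟩ := exists_nat_ge (Real.log (13 * (k + 1) * (6 * (1 + |Cd|) ^ 2) ^ 3) / E)
  refine ⟨n₀, fun n w hn hw => ?_⟩
  have h1 : (n₀ : ℝ) ≤ n := by exact_mod_cast hn
  rw [div_le_iff₀ hE] at h
  have e : (13 * (k + 1) * (3 * (1 + |Cd|) ^ 2 * 2 ^ (w + 1)) ^ 3 : ℝ) =
      (13 * (k + 1) * (6 * (1 + |Cd|) ^ 2) ^ 3) * 2 ^ (3 * w) := by ring
  have l2 : Real.log 2 ≤ 1 := by linarith [Real.log_le_sub_one_of_pos (show (0 : ℝ) < 2 by norm_num)]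
  rw [e, Real.log_mul (by positivity) (by positivity), Real.log_pow]
  push_cast
  nlinarith [mul_le_mul_of_nonneg_left h1 hE.le, (Nat.cast_nonneg w : (0 : ℝ) ≤ w)]

theorem wnd (k : ℕ) (hk : 1 ≤ k) (h1 : SHR) (h2 : HAN k) (h3 : ALP k) (h4 : BPe) : WND k := by
  intro γ σ Cd hγ hσ
  have hk0 : (1 : ℝ) ≤ k := by exact_mod_cast hk
  obtain ⟨E₀, Λ, N, m₀, hE₀, hΛ, hN, h4⟩ := h4 γ (σ / (2 * k)) hγ (by positivity)
  obtain ⟨E, hE, hE1, hE2⟩ : ∃ E : ℝ, 0 < E ∧ (k + 2) * (4 * k + 9) * E ≤ E₀ ∧ 4 * E ≤ σ / (2 * k) := by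
    refine ⟨min (E₀ / ((k + 2) * (4 * k + 9))) (σ / (2 * k) / 4), by positivity, ?_, ?_⟩
    · rw [← le_div_iff₀' (by positivity)]
      exact min_le_left _ _
    · linarith [min_le_right (E₀ / ((k + 2) * (4 * k + 9))) (σ / (2 * k) / 4)]
  obtain ⟨n₀, hn₀⟩ := wnd_num (k := k) Cd hE
  refine ⟨E, Λ, N, m₀ + n₀, hE, hΛ, hN, ?_⟩
  intro m w κ hm hw hκ1 hκ2 Ω _ R Z hG hQ hric
  have h4' := h4 m κ (by omega) hκ1 hκ2
  have hmn : m ≤ N * m := Nat.le_mul_of_pos_left _ hN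
  have hnR : (N : ℝ) * m = (N * m : ℕ) := by push_cast; ring
  simp only [mul_assoc _ (N : ℝ) (m : ℝ), hnR] at h4' hw hQ hric
  clear h4 hnR
  generalize N * m = n at *
  have hη := hn₀ n w (by omega) hw
  have hA₀ : (1 : ℝ) ≤ 2 ^ (w + 1) := one_le_pow₀ one_le_two
  have hpt := fun ω hω c => wnd_pt hG hA₀ (ω := ω) hω c
  have hc0 := abs_nonneg Cd
  have hA1 : (2 : ℝ) ^ (w + 1) ≤ 3 * (1 + |Cd|) ^ 2 * 2 ^ (w + 1) := le_mul_of_one_le_left (by positivity) (by nlinarith)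
  have hA2 : 1 + |Cd| ≤ 3 * (1 + |Cd|) ^ 2 * 2 ^ (w + 1) :=
    le_trans (by nlinarith) (le_mul_of_one_le_right (by positivity) hA₀)
  have hG' := hG.mono (by positivity) hA1
  generalize 3 * (1 + |Cd|) ^ 2 * (2 : ℝ) ^ (w + 1) = A at *
  have hA : 1 ≤ A := hA₀.trans hA1
  have hCd : Cd ≤ A := by linarith [le_abs_self Cd]
  have hn0 : (0 : ℝ) ≤ n := Nat.cast_nonneg n
  have hEn : 0 ≤ E * n := by positivity
  have hA3 : A ≤ A ^ 3 := le_self_pow₀ hA (by norm_num)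
  have hkA : 0 ≤ k * A ^ 3 := by positivity
  -- the multiplier
  obtain ⟨c, hcr⟩ : ∃ c : Fin k, σ / (2 * k) * n ≤ hc R (fun ω => ⌊(2 : ℝ) ^ n * Z.al n c ω⌋) Z.F := by
    by_contra hn
    push Not at hn
    have e1 := h3 Ω R Z n Cd A hA hCd hG'
    have e2 := Finset.sum_lt_sum_of_nonempty (s := (univ : Finset (Fin k))) ⟨⟨0, hk⟩, Finset.mem_univ _⟩ fun c _ => hn c
    rw [Finset.sum_const, Finset.card_univ, Fintype.card_fin, nsmul_eq_mul] at e2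
    have e3 : Real.log (8 * k * A ^ 3 + 3) ≤ σ / (2 * k) * n :=
      (Real.log_le_log (by positivity) (by nlinarith)).trans (hη.trans (mul_le_mul_of_nonneg_right hE2 hn0))
    have e4 := mul_le_mul_of_nonneg_left e3 (Nat.cast_nonneg k : (0 : ℝ) ≤ k)
    have e5 : (k : ℝ) * (σ / (2 * k) * n) = σ * n / 2 := by field_simp
    linarith
  have hbig : 13 * (k + 1) * A ^ 3 ≤ (2 : ℝ) ^ (E₀ * n) := by
    have l2 : 1 / 2 ≤ Real.log 2 := by linarith [Real.log_two_gt_d9]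
    rw [Real.le_rpow_iff_log_le (by positivity) two_pos]
    have e1 : 8 * E ≤ E₀ := le_trans (mul_le_mul_of_nonneg_right (by nlinarith) hE.le) hE1
    have e2 := mul_le_mul_of_nonneg_right e1 hn0
    nlinarith [mul_le_mul_of_nonneg_left l2 (mul_nonneg hE₀.le hn0)]
  have herr : (k + 2) * (E * n + (k + 2) * (4 * E * n)) ≤ E₀ * n := by
    have := mul_le_mul_of_nonneg_right hE1 hn0
    linarith
  refine h4' Ω _ _ R Z.F Z.D (Z.V Z.ν Z.v 0 c.castSucc) (Z.V Z.ν Z.v 0 (Fin.last k)) (Z.V (Z.μ n) (Z.s n) 0 c.castSucc)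
    (Z.al n c) (Z.fn_FD R) (fun ω ω' hω hω' e => ?_) (fun ω hω => ?_) (fun Q hD => ?_) hcr
  · rw [← Z.be_cast, ← Z.be_cast, hG.fn_be ω ω' hω hω' e]
  · obtain ⟨-, p2, p3, p4⟩ := hpt ω hω c
    refine ⟨p4.trans ?_, p2.trans (by nlinarith), p3.trans (by nlinarith)⟩
    rw [add_mul 1, one_mul, Real.rpow_add two_pos, Real.rpow_natCast, mul_comm]
    exact mul_le_mul_of_nonneg_left (by nlinarith) (by positivity)
  · obtain ⟨q1, q2, q3⟩ := wnd_ent hk h1 h2 (hG'.dom hD) hA hCd hEn (fun ω hω => (hpt ω (hD.pos hω) c).1) c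
      (fun ω hω => (hpt ω (hD.pos hω) c).2.2.1) hη (hQ Q hD)
    refine ⟨fun a ha => ?_, by linarith, by linarith⟩
    rw [Z.V_div, Z.V_div]
    exact ⟨(q1 a ha).1.trans herr, (q1 a ha).2.trans herr⟩

end Vale.Agent.P076N.RG
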