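import Vale.Agent.P076N.RG.Lib

/-!
# P076N / RG : the row ZM, the zoomed sets and graphs
-/

set_option linter.all false

open Finset Vale.Agent.P127 Vale.Agent.P127.Stk

namespace Vale.Agent.P076N.RG

open Vale.Agent.P076.H732 (GReg)

namespace Zm

theorem pw_le {a b : ℝ} (h : a ≤ b) : (2 : ℝ) ^ a ≤ (2 : ℝ) ^ b := Real.rpow_le_rpow_of_exponent_le (by norm_num) h

theorem pw_add (a b : ℝ) : (2 : ℝ) ^ (a + b) = (2 : ℝ) ^ a * (2 : ℝ) ^ b := Real.rpow_add (by norm_num) a b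

theorem one_le_pw {a : ℝ} (h : 0 ≤ a) : (1 : ℝ) ≤ (2 : ℝ) ^ a := Real.one_le_rpow (by norm_num) h

theorem pw_two (a : ℝ) : (2 : ℝ) ^ (a + 2) = 4 * (2 : ℝ) ^ a := by
  rw [pw_add, Real.rpow_two]
  ring

theorem pw_five (a : ℝ) : (2 : ℝ) ^ (a + 5) = 32 * (2 : ℝ) ^ a := by
  rw [pw_add, show (5 : ℝ) = ((5 : ℕ) : ℝ) by norm_num, Real.rpow_natCast]
  ring

theorem pw_nat (a b : ℕ) : (2 : ℝ) ^ ((a : ℝ) * b) = 2 ^ (a * b) := by
  rw [← Real.rpow_natCast]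
  push_cast
  rfl

theorem card_near (F : Finset ℤ) (t B : ℝ) (hB : 0 ≤ B) (h : ∀ x ∈ F, |(x : ℝ) - t| ≤ B) : (#F : ℝ) ≤ 2 * B + 1 := by
  have h1 : F ⊆ Finset.Icc ⌈t - B⌉ ⌊t + B⌋ := fun x hx => by
    have := abs_le.1 (h x hx)
    exact mem_Icc.2 ⟨Int.ceil_le.2 (by linarith), Int.le_floor.2 (by linarith)⟩
  have h2 := card_le_card h1
  rw [Int.card_Icc] at h2
  have h3 := Int.floor_le (t + B)
  have h4 := Int.le_ceil (t - B)
  rcases le_or_gt 0 (⌊t + B⌋ + 1 - ⌈t - B⌉) with h0 | h0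
  · have h5 : (#F : ℤ) ≤ ⌊t + B⌋ + 1 - ⌈t - B⌉ := by
      rw [← Int.toNat_of_nonneg h0]
      exact_mod_cast h2
    have h6 : (#F : ℝ) ≤ (⌊t + B⌋ : ℝ) + 1 - ⌈t - B⌉ := by exact_mod_cast h5
    linarith
  · rw [Int.toNat_of_nonpos h0.le, Nat.le_zero] at h2
    rw [h2]
    push_cast
    linarith

theorem card_fib {α β : Type} [DecidableEq β] (S : Finset α) (T : Finset β) (f : α → β) (B : ℝ)
    (hf : ∀ a ∈ S, f a ∈ T) (h : ∀ b ∈ T, (#(S.filter fun a => f a = b) : ℝ) ≤ B) : (#S : ℝ) ≤ #T * B := by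
  rw [card_eq_sum_card_fiberwise (f := f) (s := S) (t := T) fun a ha => hf a ha]
  push_cast
  simpa using sum_le_card_nsmul _ _ _ h

/-- points near a line with the second coordinate in a given set -/
theorem card_line (G : Finset (ℤ × ℤ)) (Y : Finset ℤ) (a w e : ℝ) (he : 0 ≤ e)
    (h : ∀ z ∈ G, z.2 ∈ Y ∧ |(z.1 : ℝ) + a * z.2 - w| ≤ (2 : ℝ) ^ e) : (#G : ℝ) ≤ #Y * (2 : ℝ) ^ (e + 2) := by
  refine card_fib G Y Prod.snd _ (fun z hz => (h z hz).1) fun y _ => ?_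
  have h1 : #(G.filter fun z => z.2 = y) = #((G.filter fun z => z.2 = y).image Prod.fst) := by
    refine (card_image_of_injOn fun z hz z' hz' e => ?_).symm
    exact Prod.ext e ((mem_filter.1 (mem_coe.1 hz)).2.trans (mem_filter.1 (mem_coe.1 hz')).2.symm)
  have h2 := card_near ((G.filter fun z => z.2 = y).image Prod.fst) (w - a * y) ((2 : ℝ) ^ e) (by positivity)
    fun x hx => by
      obtain ⟨z, hz, rfl⟩ := mem_image.1 hx
      obtain ⟨hz1, rfl⟩ := mem_filter.1 hz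
      have := (h z hz1).2
      rwa [show (z.1 : ℝ) - (w - a * z.2) = z.1 + a * z.2 - w by ring]
  rw [h1, pw_two]
  have := one_le_pw he
  linarith

theorem treg_cell {κ e : ℝ} {N m : ℕ} {X : Finset ℤ} (h : TReg κ e N m X) {j : ℕ} (hj : j ≤ N) (c : ℤ) :
    (#(X.filter fun x => x / 2 ^ (j * m) = c) : ℝ) ≤ (2 : ℝ) ^ (κ * j * m + e) := by
  simpa using h.two 0 j (Nat.zero_le _) hj c

theorem treg_card {κ e : ℝ} {N m : ℕ} {X : Finset ℤ} (h : TReg κ e N m X) :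
    (#X : ℝ) ≤ (2 : ℝ) ^ (κ * N * m + e) := by
  simpa using h.all 0 (Nat.zero_le _)

theorem sub_div (x s : ℤ) (a b : ℕ) : (x - s * 2 ^ (a + b)) / 2 ^ a = x / 2 ^ a - s * 2 ^ b := by
  rw [show x - s * 2 ^ (a + b) = x + -(s * 2 ^ b) * 2 ^ a by ring, Int.add_mul_ediv_right _ _ (by positivity)]
  ring

theorem div_div (x : ℤ) (a b : ℕ) : x / 2 ^ a / 2 ^ b = x / 2 ^ (a + b) := by
  rw [Int.ediv_ediv_of_nonneg (by positivity), ← pow_add]

theorem div_close (x : ℤ) (r : ℕ) : |((x / 2 ^ r : ℤ) : ℝ) - x / 2 ^ r| ≤ 1 := by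
  have h := floor_div_pow (x : ℝ) r
  rw [Int.floor_intCast] at h
  rw [← h, abs_le]
  have := Int.floor_le ((x : ℝ) / 2 ^ r)
  have := Int.lt_floor_add_one ((x : ℝ) / 2 ^ r)
  constructor <;> linarith

theorem xs_bd {x s : ℤ} {r : ℕ} (h : x / 2 ^ r = s) : |((x - s * 2 ^ r : ℤ) : ℝ)| ≤ 2 ^ r := by
  have h1 := div_close x r
  rw [h] at h1
  have h0 : (0 : ℝ) < 2 ^ r := by positivity
  have h2 : ((x - s * 2 ^ r : ℤ) : ℝ) = -(((s : ℝ) - x / 2 ^ r) * 2 ^ r) := by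
    push_cast
    field_simp
    ring
  rw [h2, abs_neg, abs_mul, abs_of_pos h0]
  exact mul_le_of_le_one_left h0.le h1

theorem ys_bd {y : ℤ} {j₀ N' m : ℕ} {e : ℝ} (h : |(y : ℝ)| ≤ (2 : ℝ) ^ (((j₀ : ℝ) + N') * m + e)) :
    |((y / 2 ^ (j₀ * m) : ℤ) : ℝ)| ≤ 2 ^ (N' * m) * (2 : ℝ) ^ e + 1 := by
  have h1 := abs_le.1 (div_close y (j₀ * m))
  have h0 : (0 : ℝ) < 2 ^ (j₀ * m) := by positivity
  have h2 : |(y : ℝ) / 2 ^ (j₀ * m)| ≤ 2 ^ (N' * m) * (2 : ℝ) ^ e := by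
    rw [abs_div, abs_of_pos h0, div_le_iff₀ h0]
    rw [add_mul, pw_add, pw_add, pw_nat, pw_nat] at h
    linarith
  rw [abs_le] at h2 ⊢
  constructor <;> linarith

variable {κ e E' : ℝ} {j₀ N' m : ℕ}

theorem greg_xs {W₀ : Finset ℤ} (s : ℤ) (he : 0 ≤ e) (hE : e + 1 ≤ E' * N' * m) (h : TReg κ e (j₀ + N') m W₀) :
    GReg κ E' N' m (XS W₀ (N' * m) s) := by
  refine ⟨fun x hx => ?_, fun j hj c => ?_, fun j hj => ?_⟩
  · obtain ⟨w, hw, rfl⟩ := mem_image.1 hx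
    refine (xs_bd (mem_filter.1 hw).2).trans ?_
    rw [← pw_nat]
    exact pw_le (by linarith)
  · obtain ⟨i, rfl⟩ := Nat.exists_eq_add_of_le' hj
    have h1 := treg_cell h (j := i) (by omega) (c + s * 2 ^ (j * m))
    have h2 : ((XS W₀ ((i + j) * m) s).filter fun x => x / 2 ^ ((i + j - j) * m) = c) ⊆
        (W₀.filter fun x => x / 2 ^ (i * m) = c + s * 2 ^ (j * m)).image fun x => x - s * 2 ^ ((i + j) * m) := by
      intro x hx
      obtain ⟨hx1, hx2⟩ := mem_filter.1 hx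
      obtain ⟨w, hw, rfl⟩ := mem_image.1 hx1
      refine mem_image.2 ⟨w, mem_filter.2 ⟨(mem_filter.1 hw).1, ?_⟩, rfl⟩
      rw [Nat.add_sub_cancel, add_mul, sub_div] at hx2
      linarith
    refine (Nat.cast_le.2 ((card_le_card h2).trans card_image_le)).trans (h1.trans (pw_le ?_))
    push_cast at hE ⊢
    linarith
  · obtain ⟨i, rfl⟩ := Nat.exists_eq_add_of_le' hj
    have h1 := h.two i (i + j) (by omega) (by omega) s
    have h2 : ((XS W₀ ((i + j) * m) s).image fun x => x / 2 ^ ((i + j - j) * m)) ⊆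
        ((W₀.filter fun x => x / 2 ^ ((i + j) * m) = s).image fun x => x / 2 ^ (i * m)).image
          fun x => x - s * 2 ^ (j * m) := by
      intro x hx
      obtain ⟨x', hx1, rfl⟩ := mem_image.1 hx
      obtain ⟨w, hw, rfl⟩ := mem_image.1 hx1
      refine mem_image.2 ⟨_, mem_image.2 ⟨w, hw, rfl⟩, ?_⟩
      rw [Nat.add_sub_cancel, add_mul, sub_div]
    refine (Nat.cast_le.2 ((card_le_card h2).trans card_image_le)).trans (h1.trans (pw_le ?_))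
    push_cast at hE ⊢
    linarith

theorem greg_ys {Y : Finset ℤ} (he : 0 ≤ e) (hE : e + 1 ≤ E' * N' * m) (h : TReg κ e (j₀ + N') m Y)
    (hY : ∀ y ∈ Y, |(y : ℝ)| ≤ (2 : ℝ) ^ (((j₀ : ℝ) + N') * m + e)) : GReg κ E' N' m (YS Y (j₀ * m)) := by
  refine ⟨fun x hx => ?_, fun j hj c => ?_, fun j hj => ?_⟩
  · obtain ⟨y, hy, rfl⟩ := mem_image.1 hx
    refine (ys_bd (hY y hy)).trans (le_trans ?_ (pw_le (a := (N' : ℝ) * m + e + 1) (by linarith)))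
    rw [pw_add, Real.rpow_one, ← pw_nat, ← pw_add]
    have := one_le_pw (a := (N' : ℝ) * m + e) (by positivity)
    linarith
  · obtain ⟨i, rfl⟩ := Nat.exists_eq_add_of_le' hj
    have h1 := h.two j₀ (j₀ + i) (by omega) (by omega) c
    have h2 : ((YS Y (j₀ * m)).filter fun x => x / 2 ^ ((i + j - j) * m) = c) ⊆
        (Y.filter fun x => x / 2 ^ ((j₀ + i) * m) = c).image fun x => x / 2 ^ (j₀ * m) := by
      intro x hx
      obtain ⟨hx1, hx2⟩ := mem_filter.1 hx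
      obtain ⟨y, hy, rfl⟩ := mem_image.1 hx1
      refine mem_image.2 ⟨y, mem_filter.2 ⟨hy, ?_⟩, rfl⟩
      rwa [Nat.add_sub_cancel, div_div, ← add_mul] at hx2
    refine (Nat.cast_le.2 (card_le_card h2)).trans (h1.trans (pw_le ?_))
    push_cast at hE ⊢
    linarith
  · obtain ⟨i, rfl⟩ := Nat.exists_eq_add_of_le' hj
    have h1 := h.all (j₀ + i) (by omega)
    have h2 : ((YS Y (j₀ * m)).image fun x => x / 2 ^ ((i + j - j) * m)) ⊆
        Y.image fun x => x / 2 ^ ((j₀ + i) * m) := by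
      intro x hx
      obtain ⟨x', hx1, rfl⟩ := mem_image.1 hx
      obtain ⟨y, hy, rfl⟩ := mem_image.1 hx1
      refine mem_image.2 ⟨y, hy, ?_⟩
      rw [Nat.add_sub_cancel, div_div, ← add_mul]
    refine (Nat.cast_le.2 (card_le_card h2)).trans (h1.trans (pw_le ?_))
    push_cast at hE ⊢
    linarith

theorem third {Y W₀ : Finset ℤ} (s : ℤ) (he : 0 ≤ e) (hY : TReg κ e (j₀ + N') m Y) (hW : TReg κ e (j₀ + N') m W₀)
    (a : ℝ) (G : Finset (ℤ × ℤ)) (w₀ : ℤ × ℤ → ℤ)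
    (hG : ∀ z ∈ G, z.2 ∈ Y ∧ w₀ z ∈ W₀ ∧ w₀ z / 2 ^ (N' * m) = s ∧ |(z.1 : ℝ) + a * z.2 - w₀ z| ≤ (2 : ℝ) ^ e) :
    (#G : ℝ) ≤ (2 : ℝ) ^ (κ * ((j₀ : ℝ) + 2 * N') * m + 3 * e + 2) := by
  have h1 := card_fib G (W₀.filter fun x => x / 2 ^ (N' * m) = s) w₀ (#Y * (2 : ℝ) ^ (e + 2))
    (fun z hz => mem_filter.2 ⟨(hG z hz).2.1, (hG z hz).2.2.1⟩) fun w _ => card_line _ Y a w e he fun z hz => by
      obtain ⟨hz1, rfl⟩ := mem_filter.1 hz
      exact ⟨(hG z hz1).1, (hG z hz1).2.2.2⟩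
  refine h1.trans ((mul_le_mul (treg_cell hW (j := N') (by omega) s)
    (mul_le_mul_of_nonneg_right (treg_card hY) (by positivity)) (by positivity) (by positivity)).trans (le_of_eq ?_))
  rw [← pw_add, ← pw_add]
  congr 1
  push_cast
  ring

/-- the number of points of a regular set in a long interval -/
theorem card_win {W₁ : Finset ℤ} (s : ℤ) (he : 0 ≤ e) (hW : TReg κ e (j₀ + N') m W₁) :
    (#(W₁.filter fun w : ℤ => |(w : ℝ) - s * 2 ^ (N' * m)| ≤ 7 * (2 ^ (N' * m) * (2 : ℝ) ^ e)) : ℝ) ≤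
      (2 : ℝ) ^ (κ * N' * m + 2 * e + 5) := by
  have h0 : (0 : ℝ) < 2 ^ (N' * m) := by positivity
  have h1 := card_fib (W₁.filter fun w : ℤ => |(w : ℝ) - s * 2 ^ (N' * m)| ≤ 7 * (2 ^ (N' * m) * (2 : ℝ) ^ e))
    (Finset.Icc (s - ⌊7 * (2 : ℝ) ^ e + 1⌋) (s + ⌊7 * (2 : ℝ) ^ e + 1⌋)) (fun w => w / 2 ^ (N' * m))
    ((2 : ℝ) ^ (κ * N' * m + e)) (fun w hw => by
      refine mem_Icc_near ?_
      have a1 := abs_le.1 (div_close w (N' * m))
      have a2 : |(w : ℝ) / 2 ^ (N' * m) - s| ≤ 7 * (2 : ℝ) ^ e := by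
        rw [div_sub' h0.ne', abs_div, abs_of_pos h0, div_le_iff₀ h0, mul_comm _ (s : ℝ)]
        linarith [(mem_filter.1 hw).2]
      rw [abs_le] at a2 ⊢
      constructor <;> linarith) fun c _ => by
      refine le_trans (Nat.cast_le.2 (card_le_card fun w hw => ?_)) (treg_cell hW (j := N') (by omega) c)
      obtain ⟨hw1, hw2⟩ := mem_filter.1 hw
      exact mem_filter.2 ⟨(mem_filter.1 hw1).1, hw2⟩
  have h2 := card_Icc_le s (7 * (2 : ℝ) ^ e + 1) (by positivity)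
  have h3 := one_le_pw he
  refine h1.trans ((mul_le_mul_of_nonneg_right (h2.trans (show _ ≤ 32 * (2 : ℝ) ^ e by linarith))
    (by positivity)).trans (le_of_eq ?_))
  rw [← pw_five, ← pw_add]
  congr 1
  ring

theorem approx {x y x' y' w₀ w a₀ a₁ q t B : ℝ} (hq : 0 < q) (hB : 1 ≤ B) (hμ : |q * (a₁ - a₀)| ≤ 1)
    (h0 : |x + a₀ * y - w₀| ≤ B) (h1 : |x + a₁ * y - w| ≤ B) (hy : |y' - y / q| ≤ 1) (hx : x' = w₀ - t) :
    |x' + q * (a₁ - a₀) * y' - (w - t)| ≤ 4 * B := by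
  have e1 : x' + q * (a₁ - a₀) * y' - (w - t) =
      -(x + a₀ * y - w₀) + (x + a₁ * y - w) + q * (a₁ - a₀) * (y' - y / q) := by
    rw [hx]
    field_simp
    ring
  have e2 : |q * (a₁ - a₀) * (y' - y / q)| ≤ 1 := by
    rw [abs_mul]
    exact mul_le_one₀ hμ (abs_nonneg _) hy
  rw [e1]
  rw [abs_le] at h0 h1 e2 ⊢
  constructor <;> linarith

end Zm

open Zm in
theorem zm : ZM := by
  classical
  intro κ e E' j₀ N' m Y W₀ s hκ he hE hY hW hYb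
  refine ⟨greg_xs s he hE hW, greg_ys he hE hY hYb, third s he hY hW, ?_⟩
  intro a₀ a₁ W₁ G w₀ hW₁ hμ hG
  have he1 := one_le_pw he
  refine ⟨G.image fun z => (w₀ z - s * 2 ^ (N' * m), z.2 / 2 ^ (j₀ * m)),
    (W₁.filter fun w : ℤ => |(w : ℝ) - s * 2 ^ (N' * m)| ≤ 7 * (2 ^ (N' * m) * (2 : ℝ) ^ e)).image
      fun w : ℤ => (w : ℝ) - s * 2 ^ (N' * m), ?_, ?_, ?_, ?_⟩
  · intro z' hz'
    obtain ⟨z, hz, rfl⟩ := mem_image.1 hz'
    obtain ⟨b1, b2, b3, -⟩ := hG z hz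
    exact ⟨mem_image.2 ⟨w₀ z, mem_filter.2 ⟨b2, b3⟩, rfl⟩, mem_image.2 ⟨z.2, b1, rfl⟩⟩
  · rw [mul_comm]
    refine card_fib G _ (fun z => (w₀ z - s * 2 ^ (N' * m), z.2 / 2 ^ (j₀ * m))) _
      (fun z hz => mem_image.2 ⟨z, hz, rfl⟩) fun p _ => ?_
    have h1 := card_line (G.filter fun z => (w₀ z - s * 2 ^ (N' * m), z.2 / 2 ^ (j₀ * m)) = p)
      (Y.filter fun y => y / 2 ^ (j₀ * m) = p.2) a₀ ((p.1 + s * 2 ^ (N' * m) : ℤ) : ℝ) e he fun z hz => by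
        obtain ⟨hz1, rfl⟩ := mem_filter.1 hz
        obtain ⟨b1, -, -, b4, -⟩ := hG z hz1
        refine ⟨mem_filter.2 ⟨b1, rfl⟩, ?_⟩
        rwa [sub_add_cancel]
    refine h1.trans ((mul_le_mul_of_nonneg_right (treg_cell hY (j := j₀) (by omega) p.2)
      (by positivity)).trans (le_of_eq ?_))
    rw [← pw_add]
    congr 1
    ring
  · exact (Nat.cast_le.2 card_image_le).trans (card_win s he hW₁)
  · intro z' hz'
    obtain ⟨z, hz, rfl⟩ := mem_image.1 hz'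
    obtain ⟨b1, b2, b3, b4, w, b5, b6⟩ := hG z hz
    have h1 := approx (x' := ((w₀ z - s * 2 ^ (N' * m) : ℤ) : ℝ)) (t := s * 2 ^ (N' * m)) (by positivity) he1 hμ b4 b6
      (div_close z.2 (j₀ * m)) (by push_cast; rfl)
    refine ⟨(w : ℝ) - s * 2 ^ (N' * m), mem_image.2 ⟨w, mem_filter.2 ⟨b5, ?_⟩, rfl⟩, by rw [pw_two]; exact h1⟩
    have h2 := xs_bd b3
    have h3 := ys_bd (hYb z.2 b1)
    have h4 : |(2 : ℝ) ^ (j₀ * m) * (a₁ - a₀) * ((z.2 / 2 ^ (j₀ * m) : ℤ) : ℝ)| ≤ 2 ^ (N' * m) * (2 : ℝ) ^ e + 1 := by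
      rw [abs_mul]
      exact (mul_le_of_le_one_left (abs_nonneg _) hμ).trans h3
    have h5 : (1 : ℝ) ≤ 2 ^ (N' * m) := one_le_pow₀ (by norm_num)
    have h6 : (2 : ℝ) ^ (N' * m) ≤ 2 ^ (N' * m) * (2 : ℝ) ^ e := le_mul_of_one_le_right (by positivity) he1
    have h7 : (2 : ℝ) ^ e ≤ 2 ^ (N' * m) * (2 : ℝ) ^ e := le_mul_of_one_le_left (by positivity) h5
    rw [abs_le] at h1 h2 h4 ⊢
    constructor <;> linarith

end Vale.Agent.P076N.RG
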