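import Vale.Agent.P076N.RG.Top
import Vale.Agent.P076N.RG.Tl
import Vale.Agent.P076N.RG.Tr
import Vale.Agent.P076N.RG.W2
import Vale.Agent.P076N.RG.Wnd
import Vale.Agent.P076N.RG.Han
import Vale.Agent.P076N.RG.Fp
import Vale.Agent.P076N.RG.Aep
import Vale.Agent.P076N.RG.Alp
import Vale.Agent.P076N.RG.Bpc
import Vale.Agent.P076N.RG.Bpe
import Vale.Agent.P076N.RG.Zm

/-!
# P076N / RG : the block RING (helper5)
-/

namespace Vale.Agent.P076N.RG

/-- **RING** -/
theorem ring (k : ℕ) (hk : 1 ≤ k) (h : StLW k) : StRING k :=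
  ring_of hk (tl k hk h) (tr k hk) (w2 k) (wnd k hk shr (han k) (alp k) (bpe aep (bpc fro pin zm)))

end Vale.Agent.P076N.RG
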