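import Vale.Agent.P076N.Tube
import Vale.Agent.P076.H732.FinDefs

/-!
# P076N / RG : the rows of the block RING (helper5).  Plan: notes/P076/ring-h5.md

`StRING k` ⇐ `TL TR W2 WND`, `WND` ⇐ `SHR HAN ALP BPe`, `BPe` ⇐ `AEP BPc`, `BPc` ⇐ `FRO PIN ZM` and `H200.rsg`.
All entropy bounds are hereditary: they hold for every law `Q` dominated by `Λ` times the base law.
-/

set_option linter.all false

open Finset Vale.Agent.P127 Vale.Agent.P127.Stk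
open scoped RealInnerProductSpace

namespace Vale.Agent.P076N.RG

open Vale.Agent.P076.H732 (GReg)

noncomputable section

/-! ## counting -/

/-- regular set of integers at the scales `2 ^ (i m)`, `i ≤ N` -/
structure TReg (κ e : ℝ) (N m : ℕ) (X : Finset ℤ) : Prop where
  two : ∀ i j : ℕ, i ≤ j → j ≤ N → ∀ c : ℤ,
    (#((X.filter fun x => x / 2 ^ (j * m) = c).image fun x => x / 2 ^ (i * m)) : ℝ) ≤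
      (2 : ℝ) ^ (κ * ((j : ℝ) - i) * m + e)
  all : ∀ i ≤ N, (#(X.image fun x => x / 2 ^ (i * m)) : ℝ) ≤ (2 : ℝ) ^ (κ * ((N : ℝ) - i) * m + e)

open Classical in
/-- **[FRO]** zoom to an interval where the multipliers are Frostman (maximise `count * 2 ^ (s j m)`) -/
def FRO : Prop := ∀ (ι : Type) (J : Finset ι) (al : ι → ℝ) (N m : ℕ) (s A : ℝ), 0 ≤ s → 0 ≤ A → J.Nonempty →
  (∀ i ∈ J, |al i| ≤ A) → Set.InjOn (fun i => ⌊(2 : ℝ) ^ (N * m) * al i⌋) (J : Set ι) →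
  ∃ j₀ ≤ N, ∃ c : ℤ, (J.filter fun i => ⌊(2 : ℝ) ^ (j₀ * m) * al i⌋ = c).Nonempty ∧
    (#J : ℝ) ≤ (2 * A + 2) * (2 : ℝ) ^ ((N - j₀) * m) * (2 : ℝ) ^ (s * j₀ * m) ∧
    ∀ j, j₀ + j ≤ N → ∀ x : ℝ, (#(J.filter fun i => |al i - x| ≤ ((2 : ℝ) ^ ((j₀ + j) * m))⁻¹) : ℝ) ≤
      3 * (2 : ℝ) ^ (-(s * j * m)) * #(J.filter fun i => ⌊(2 : ℝ) ^ (j₀ * m) * al i⌋ = c)

open Classical in
/-- **[PIN]** Cauchy-Schwarz for a pin `i₀`, then a popular label `s` -/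
def PIN : Prop := ∀ (ι α τ : Type) (J : Finset ι) (P : Finset α) (G : ι → Finset α) (lab : ι → α → τ) (A B K U : ℝ),
  J.Nonempty → 0 < B → (#P : ℝ) ≤ A →
  (∀ i ∈ J, G i ⊆ P ∧ B ≤ #(G i) ∧ (#((G i).image (lab i)) : ℝ) ≤ K ∧ ∀ s, (#((G i).filter fun z => lab i z = s) : ℝ) ≤ U) →
  ∃ i₀ ∈ J, ∃ s : τ, ∃ J' ⊆ J, B ^ 2 * #J ≤ 2 * A * K * U * #J' ∧
    ∀ i ∈ J', B ^ 2 ≤ 2 * A * K * #((G i₀ ∩ G i).filter fun z => lab i₀ z = s)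

/-- the part of `W` in the cell `s` of side `2 ^ r`, translated to the origin -/
def XS (W : Finset ℤ) (r : ℕ) (s : ℤ) : Finset ℤ := (W.filter fun x => x / 2 ^ r = s).image fun x => x - s * 2 ^ r

/-- `Y` at the scale `2 ^ r` -/
def YS (Y : Finset ℤ) (r : ℕ) : Finset ℤ := Y.image fun y => y / 2 ^ r

/-- **[ZM]** the zoomed sets and graphs; `N = j₀ + N'` -/
def ZM : Prop := ∀ (κ e E' : ℝ) (j₀ N' m : ℕ) (Y W₀ : Finset ℤ) (s : ℤ), 0 ≤ κ → 0 ≤ e → e + 1 ≤ E' * N' * m →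
  TReg κ e (j₀ + N') m Y → TReg κ e (j₀ + N') m W₀ → (∀ y ∈ Y, |(y : ℝ)| ≤ (2 : ℝ) ^ (((j₀ : ℝ) + N') * m + e)) →
  GReg κ E' N' m (XS W₀ (N' * m) s) ∧ GReg κ E' N' m (YS Y (j₀ * m)) ∧
  (∀ (a : ℝ) (G : Finset (ℤ × ℤ)) (w₀ : ℤ × ℤ → ℤ),
    (∀ z ∈ G, z.2 ∈ Y ∧ w₀ z ∈ W₀ ∧ w₀ z / 2 ^ (N' * m) = s ∧ |(z.1 : ℝ) + a * z.2 - w₀ z| ≤ (2 : ℝ) ^ e) →
    (#G : ℝ) ≤ (2 : ℝ) ^ (κ * ((j₀ : ℝ) + 2 * N') * m + 3 * e + 2)) ∧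
  ∀ (a₀ a₁ : ℝ) (W₁ : Finset ℤ) (G : Finset (ℤ × ℤ)) (w₀ : ℤ × ℤ → ℤ), TReg κ e (j₀ + N') m W₁ →
    |(2 : ℝ) ^ (j₀ * m) * (a₁ - a₀)| ≤ 1 →
    (∀ z ∈ G, z.2 ∈ Y ∧ w₀ z ∈ W₀ ∧ w₀ z / 2 ^ (N' * m) = s ∧ |(z.1 : ℝ) + a₀ * z.2 - w₀ z| ≤ (2 : ℝ) ^ e ∧
      ∃ w ∈ W₁, |(z.1 : ℝ) + a₁ * z.2 - w| ≤ (2 : ℝ) ^ e) →
    ∃ (G' : Finset (ℤ × ℤ)) (W' : Finset ℝ), (∀ z ∈ G', z.1 ∈ XS W₀ (N' * m) s ∧ z.2 ∈ YS Y (j₀ * m)) ∧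
      (#G : ℝ) ≤ (2 : ℝ) ^ (κ * j₀ * m + 2 * e + 2) * #G' ∧ (#W' : ℝ) ≤ (2 : ℝ) ^ (κ * N' * m + 2 * e + 5) ∧
      ∀ z ∈ G', ∃ w ∈ W', |(z.1 : ℝ) + (2 : ℝ) ^ (j₀ * m) * (a₁ - a₀) * z.2 - w| ≤ (2 : ℝ) ^ (e + 2)

/-- **[BPc]** the projection theorem in the plane, counting form, many multipliers at the finest scale only -/
def BPc : Prop := ∀ γ σ : ℝ, 0 < γ → 0 < σ → ∃ (E : ℝ) (N m₀ : ℕ), 0 < E ∧ 1 ≤ N ∧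
  ∀ (m : ℕ) (κ : ℝ), m₀ ≤ m → γ ≤ κ → κ ≤ 1 - γ →
  ∀ (ι : Type) (J : Finset ι) (al : ι → ℝ) (P : Finset (ℤ × ℤ)) (Y : Finset ℤ) (G : ι → Finset (ℤ × ℤ)) (W : ι → Finset ℤ),
    (2 : ℝ) ^ (σ * N * m) ≤ #J → Set.InjOn (fun i => ⌊(2 : ℝ) ^ (N * m) * al i⌋) (J : Set ι) →
    (#P : ℝ) ≤ (2 : ℝ) ^ ((2 * κ + E) * N * m) → TReg κ (E * N * m) N m Y →
    (∀ y ∈ Y, |(y : ℝ)| ≤ (2 : ℝ) ^ ((1 + E) * N * m)) →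
    (∀ i ∈ J, |al i| ≤ (2 : ℝ) ^ (E * N * m) ∧ G i ⊆ P ∧ (2 : ℝ) ^ ((2 * κ - E) * N * m) ≤ #(G i) ∧
      TReg κ (E * N * m) N m (W i) ∧
      ∀ z ∈ G i, z.2 ∈ Y ∧ ∃ w ∈ W i, |(z.1 : ℝ) + al i * z.2 - w| ≤ (2 : ℝ) ^ (E * N * m)) → False

/-! ## from entropies to counts -/

/-- the conditional probability of `X` given `Y`, at `ω` -/
def ci {Ω S T : Type} [Fintype Ω] (P : Law Ω) (X : Ω → S) (Y : Ω → T) (ω : Ω) : ℝ :=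
  P.pr (fun ω' => (X ω', Y ω')) (X ω, Y ω) / P.pr Y (Y ω)

open Classical in
/-- **[AEP]** typical sets: hereditary entropy bounds give pointwise bounds off small events; counts and masses -/
def AEP : Prop := ∀ (Ω S T : Type) [Fintype Ω] (P : Law Ω) (X : Ω → S) (Y : Ω → T),
  (∀ Λ L : ℝ, 0 < Λ → (∀ Q : Law Ω, Dom Q id P Λ → hc Q X Y ≤ L) →
    prE P (fun ω => 2 * Λ * ci P X Y ω ≤ Real.exp (-L)) ≤ 1 / Λ) ∧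
  (∀ Λ L : ℝ, 0 < Λ → (∀ Q : Law Ω, Dom Q id P Λ → L ≤ hc Q X Y) →
    prE P (fun ω => 2 * Real.exp (-L) ≤ ci P X Y ω) ≤ 1 / Λ) ∧
  (∀ (E : Ω → Prop) (t : ℝ) (y : T), (∀ ω, E ω → 0 < P.w ω ∧ Y ω = y ∧ t ≤ ci P X Y ω) →
    t * #((univ.filter E).image X) ≤ 1) ∧
  (∀ (E : Ω → Prop) (t : ℝ) (y : T), (∀ ω, E ω → Y ω = y ∧ ci P X Y ω ≤ t) →
    prE P E ≤ t * #((univ.filter E).image X) * P.pr Y y) ∧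
  ∀ (A : Finset S) (L : ℝ), 0 ≤ L → (∀ ω, 0 < P.w ω → X ω ∈ A) →
    hc P X Y ≤ Real.log 2 + L + prE P (fun ω => ci P X Y ω ≤ Real.exp (-L)) * Real.log #A

/-- **[BPe]** the projection theorem in the plane, hereditary entropy form; `n = N m` -/
def BPe : Prop := ∀ γ σ : ℝ, 0 < γ → 0 < σ → ∃ (E Λ : ℝ) (N m₀ : ℕ), 0 < E ∧ 2 ≤ Λ ∧ 1 ≤ N ∧
  ∀ (m : ℕ) (κ : ℝ), m₀ ≤ m → γ ≤ κ → κ ≤ 1 - γ →
  ∀ (Ω φ δ : Type) [Fintype Ω] (R : Law Ω) (F : Ω → φ) (D : Ω → δ) (X Y W : Ω → ℤ) (al : Ω → ℝ),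
    Fn R F D → Fn R al D →
    (∀ ω, 0 < R.w ω → |(Y ω : ℝ)| ≤ (2 : ℝ) ^ ((1 + E) * N * m) ∧ |al ω| ≤ (2 : ℝ) ^ (E * N * m) ∧
      |(X ω : ℝ) + al ω * Y ω - W ω| ≤ (2 : ℝ) ^ (E * N * m)) →
    (∀ Q : Law Ω, Dom Q id R Λ →
      (∀ a ≤ N * m, |hc Q (fun ω => Y ω / 2 ^ a) F - κ * ((N : ℝ) * m - a) * Real.log 2| ≤ E * N * m ∧
        |hc Q (fun ω => W ω / 2 ^ a) D - κ * ((N : ℝ) * m - a) * Real.log 2| ≤ E * N * m) ∧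
      hc Q (fun ω => (X ω, Y ω)) F ≤ 2 * κ * N * m * Real.log 2 + E * N * m ∧
      2 * κ * N * m * Real.log 2 - E * N * m ≤ hc Q (fun ω => (X ω, Y ω)) D) →
    σ * N * m ≤ hc R (fun ω => ⌊(2 : ℝ) ^ (N * m) * al ω⌋) F → False

/-! ## one window -/

/-- the coordinates in `A` -/
def tup {Ω ι : Type} [DecidableEq ι] (V : ι → Ω → ℤ) (A : Finset ι) (ω : Ω) : ι → ℤ := fun i => if i ∈ A then V i ω else 0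

/-- **[SHR]** chain rule and submodularity -/
def SHR : Prop := ∀ (Ω ι Γ : Type) [Fintype Ω] [Fintype ι] [DecidableEq ι] (Q : Law Ω) (V : ι → Ω → ℤ) (G : Ω → Γ)
  (A T : Finset ι), Disjoint A T →
    hc Q (tup V A) G + ∑ i ∈ T, hc Q (V i) (fun ω => (tup V (univ.erase i) ω, G ω)) ≤ hc Q (tup V (A ∪ T)) G

/-- a lattice point `(zx, zt)` of a cube with label `B`, `k + 1` lattice directions `dz`, functionals `(ν, v)` -/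
structure Wn (Ω : Type) (k : ℕ) where
  β : Type
  B : Ω → β
  zx : Ω → Zv k
  zt : Ω → ℤ
  dz : Ω → Fin (k + 1) → Zv k
  ν : Ω → Fin (k + 1) → Vc k
  v : Ω → Fin (k + 1) → ℝ

/-- the direction with digits `q` at the resolution `2 ^ (-n)` -/
def dd {k : ℕ} (n : ℕ) (q : Zv k) : Vc k := ((2 : ℝ) ^ n)⁻¹ • toV q

namespace Wn

variable {Ω : Type} {k : ℕ} (Z : Wn Ω k)

def d (n : ℕ) (ω : Ω) (i : Fin (k + 1)) : Vc k := dd n (Z.dz ω i)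

/-- time at the scale `2 ^ a` -/
def tm (a : ℕ) (ω : Ω) : ℤ := Z.zt ω / 2 ^ a

/-- cell of side `2 ^ a` -/
def cl (a : ℕ) (ω : Ω) : Zv k × ℤ := (dv (2 ^ a) (Z.zx ω), Z.tm a ω)

/-- projection along the direction `i` at the scale `2 ^ a` -/
def prj (n a : ℕ) (i : Fin (k + 1)) (ω : Ω) : Zv k := flv (2 ^ a) (toV (Z.zx ω) - (Z.zt ω : ℝ) • Z.d n ω i)

/-- the cube and the first `k` directions -/
def F (ω : Ω) : (Fin k → Zv k) × Z.β := (fun c => Z.dz ω c.castSucc, Z.B ω)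

/-- the cube and all directions -/
def D (ω : Ω) : (Fin (k + 1) → Zv k) × Z.β := (Z.dz ω, Z.B ω)

/-- the functional `(μ, s)` at the point, at the scale `2 ^ a` -/
def V (μ : Ω → Fin (k + 1) → Vc k) (s : Ω → Fin (k + 1) → ℝ) (a : ℕ) (i : Fin (k + 1)) (ω : Ω) : ℤ :=
  ⌊(⟪μ ω i, toV (Z.zx ω)⟫ - s ω i * Z.zt ω) / 2 ^ a⌋

/-- the multipliers: `(ν c, v c) + al c • (ν last, v last)` kills the last direction -/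
def al (n : ℕ) (c : Fin k) (ω : Ω) : ℝ :=
  -(⟪Z.ν ω c.castSucc, Z.d n ω (Fin.last k)⟫ - Z.v ω c.castSucc) /
    (⟪Z.ν ω (Fin.last k), Z.d n ω (Fin.last k)⟫ - Z.v ω (Fin.last k))

/-- the geometric conditions; `A⁻¹` = transversality -/
structure Geo [Fintype Ω] (R : Law Ω) (n : ℕ) (Cd A : ℝ) : Prop where
  box : ∀ ω, 0 < R.w ω → (∀ l, |Z.zx ω l| ≤ 2 ^ n) ∧ |Z.zt ω| ≤ 2 ^ n
  fn : Fn R (fun ω => (Z.ν ω, Z.v ω)) Z.F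
  bd : ∀ ω, 0 < R.w ω → ∀ i, ‖Z.d n ω i‖ ≤ Cd ∧ ‖Z.ν ω i‖ ≤ 1 ∧ |Z.v ω i| ≤ Cd
  kill : ∀ ω, 0 < R.w ω → ∀ (i : Fin (k + 1)) (c : Fin k), c.castSucc ≠ i → ⟪Z.ν ω i, Z.d n ω c.castSucc⟫ = Z.v ω i
  tr : ∀ ω, 0 < R.w ω → ∀ i, A⁻¹ ≤ |⟪Z.ν ω i, Z.d n ω i⟫ - Z.v ω i|

end Wn

/-- **[HAN]** entropies of functionals: upper bound by the cells, lower bound by the time on the tubes -/
def HAN (k : ℕ) : Prop := ∀ (Ω Γ : Type) [Fintype Ω] (Q : Law Ω) (Z : Wn Ω k) (n a : ℕ) (μ : Ω → Fin (k + 1) → Vc k)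
  (s : Ω → Fin (k + 1) → ℝ) (G : Ω → Γ) (A : ℝ), 1 ≤ A → Fn Q (fun ω => (μ ω, s ω)) G → Fn Q G Z.D → Fn Q Z.B G →
    (∀ ω, 0 < Q.w ω → ∀ i, ‖μ ω i‖ ≤ A ∧ |s ω i| ≤ A) →
    hc Q (tup (Z.V μ s a) univ) G ≤ hc Q (Z.cl a) Z.B + (k + 1) * Real.log (2 * (k + 1) * A + 5) ∧
    ∀ i, (∀ ω, 0 < Q.w ω → (∀ j, j ≠ i → ⟪μ ω j, Z.d n ω i⟫ = s ω j) ∧ A⁻¹ ≤ |⟪μ ω i, Z.d n ω i⟫ - s ω i|) →
      hc Q (Z.tm a) (fun ω => (Z.prj n a i ω, Z.D ω)) - (k + 2) * Real.log (2 * (k + 1) * A ^ 2 + 5) ≤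
        hc Q (Z.V μ s a i) (fun ω => (tup (Z.V μ s a) (univ.erase i) ω, G ω))

/-- **[ALP]** the multipliers determine the last direction -/
def ALP (k : ℕ) : Prop := ∀ (Ω : Type) [Fintype Ω] (R : Law Ω) (Z : Wn Ω k) (n : ℕ) (Cd A : ℝ), 1 ≤ A → Cd ≤ A →
  Z.Geo R n Cd A → hc R (fun ω => Z.dz ω (Fin.last k)) Z.F ≤
    ∑ c : Fin k, hc R (fun ω => ⌊(2 : ℝ) ^ n * Z.al n c ω⌋) Z.F + k * Real.log (8 * k * A ^ 3 + 3)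

/-- **[WND]** there is no such window; `n = N m` -/
def WND (k : ℕ) : Prop := ∀ γ σ Cd : ℝ, 0 < γ → 0 < σ → ∃ (E Λ : ℝ) (N m₀ : ℕ), 0 < E ∧ 2 ≤ Λ ∧ 1 ≤ N ∧
  ∀ (m w : ℕ) (κ : ℝ), m₀ ≤ m → (w : ℝ) ≤ E * N * m → γ ≤ κ → κ ≤ 1 - γ →
  ∀ (Ω : Type) [Fintype Ω] (R : Law Ω) (Z : Wn Ω k), Z.Geo R (N * m) Cd (2 ^ (w + 1)) →
    (∀ Q : Law Ω, Dom Q id R Λ → ∀ a ≤ N * m,
      hc Q (Z.cl a) Z.B ≤ (k + 1) * κ * ((N : ℝ) * m - a) * Real.log 2 + E * N * m ∧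
      ∀ i, κ * ((N : ℝ) * m - a) * Real.log 2 - E * N * m ≤ hc Q (Z.tm a) (fun ω => (Z.prj (N * m) a i ω, Z.D ω))) →
    σ * N * m ≤ hc R (fun ω => Z.dz ω (Fin.last k)) Z.F → False

/-! ## from the tube system to a window -/

open Classical in
/-- the counting hypothesis of `StRING` -/
def Cnt {Ω : Type} [Fintype Ω] {k : ℕ} (S : TSys Ω k) (κ e : ℝ) (p q : ℕ) : Prop :=
  ∀ a b : ℕ, p ≤ a → a ≤ b → b ≤ q → ∀ ω, 0 < S.P.w ω →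
    (#((univ.filter fun ω' => 0 < S.P.w ω' ∧ S.cel b ω' = S.cel b ω ∧ S.side ω' = S.side ω).image (S.cel a)) : ℝ) ≤
      Real.exp ((k + 1) * κ * ((b : ℝ) - a) * Real.log 2 + e)

/-- **[TL]** hereditary lower bound for the time digits in all inner windows -/
def TL (k : ℕ) : Prop := ∀ (Cu Λ e : ℝ) (M : ℕ), 2 ≤ Λ → 0 < e → ∃ (ε : ℝ) (y₀ : ℕ), 0 < ε ∧
  ∀ (ε' κ : ℝ) (y p w : ℕ) (Ω : Type) [Fintype Ω] (S : TSys Ω k), 0 ≤ ε' → ε' ≤ ε → y₀ ≤ y → (w : ℝ) ≤ ε' * y →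
    S.Bnd Cu → S.Brd (k - 1) w ε' → κ * (M * y) * Real.log 2 - ε' * y ≤ S.hT p p (p + M * y) →
    Cnt S κ (ε' * y) p (p + M * y) →
    ∀ Q : Law Ω, Dom Q id S.P Λ → ∀ a b : ℕ, p + y ≤ a → a ≤ b → b + y ≤ p + M * y →
      κ * ((b : ℝ) - a) * Real.log 2 - e * y ≤ hc Q (S.tm a) fun ω => (S.tm b ω, S.tub p ω, S.side ω)

/-- **[TR]** functionals of the first `k` rounded directions, transversal with large probability -/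
def TR (k : ℕ) : Prop := ∀ n : ℕ, ∃ (ν : (Fin k → Zv k) → Fin (k + 1) → Vc k) (v : (Fin k → Zv k) → Fin (k + 1) → ℝ),
  (∀ f i, ‖ν f i‖ ≤ 1) ∧ (∀ f i (C : ℝ), 0 ≤ C → (∀ c, ‖dd n (f c)‖ ≤ C) → |v f i| ≤ C) ∧
  (∀ f i (c : Fin k), c.castSucc ≠ i → ⟪ν f i, dd n (f c)⟫ = v f i) ∧
  ∀ (w : ℕ) (β : ℝ) (Ω : Type) [Fintype Ω] (S : TSys Ω k) (P' : Law (Fin (k + 1) → Ω)),
    (∀ x, P'.w x = cw S.P S.ξ k x) → S.Brd (k - 1) w β → k * 2 ^ (w + 1) ≤ 2 ^ n →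
    prE P' (fun x => ¬ ∀ i, ((2 : ℝ) ^ (w + 1))⁻¹ ≤ |⟪ν (fun c => S.dir n (x c.castSucc)) i, dd n (S.dir n (x i))⟫ -
      v (fun c => S.dir n (x c.castSucc)) i|) ≤ (k + 1) * β

/-- the window `[ρ, ρ + n]` of `k + 1` copies -/
def mkW {Ω : Type} [Fintype Ω] {k : ℕ} (S : TSys Ω k) (ρ n : ℕ) (ν : (Fin k → Zv k) → Fin (k + 1) → Vc k)
    (v : (Fin k → Zv k) → Fin (k + 1) → ℝ) : Wn (Fin (k + 1) → Ω) k where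
  β := (Zv k × ℤ) × S.γ
  B := fun x => (S.cel (ρ + n) (x 0), S.side (x 0))
  zx := fun x l => (S.cel ρ (x 0)).1 l % 2 ^ n
  zt := fun x => S.tm ρ (x 0) % 2 ^ n
  dz := fun x i => S.dir n (x i)
  ν := fun x => ν fun c => S.dir n (x c.castSucc)
  v := fun x => v fun c => S.dir n (x c.castSucc)

/-- **[W2]** the entropies of the window -/
def W2 (k : ℕ) : Prop := ∀ Cu : ℝ, ∃ C : ℝ, 0 ≤ C ∧ ∀ (p ρ n a : ℕ) (Ω : Type) [Fintype Ω] (S : TSys Ω k)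
  (ν : (Fin k → Zv k) → Fin (k + 1) → Vc k) (v : (Fin k → Zv k) → Fin (k + 1) → ℝ) (Q : Law (Fin (k + 1) → Ω)),
    p ≤ ρ → a ≤ n → (∀ x, 0 < Q.w x → ∀ i, S.ξ (x i) = S.ξ (x 0) ∧ ‖S.u (x i)‖ ≤ Cu) →
    hc Q ((mkW S ρ n ν v).cl a) (mkW S ρ n ν v).B ≤ hc Q (fun x => S.cel (ρ + a) (x 0)) (mkW S ρ n ν v).B ∧
    ∀ i, hc Q (fun x => S.tm (ρ + a) (x i)) (fun x => (S.tm (ρ + n) (x i), S.tub p (x i), S.side (x i))) -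
        mi Q (fun x => S.cel ρ (x 0)) (mkW S ρ n ν v).dz (mkW S ρ n ν v).B - C ≤
      hc Q ((mkW S ρ n ν v).tm a) fun x => ((mkW S ρ n ν v).prj n a i x, (mkW S ρ n ν v).D x)

end

end Vale.Agent.P076N.RG
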