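import Vale.Agent.P076N.RG.Lib

/-!
# P076N / RG : `StRING k` from the rows `TL TR W2 WND` (helper5)
-/

set_option linter.all false

open Finset Vale.Agent.P127 Vale.Agent.P127.Stk
open scoped RealInnerProductSpace

namespace Vale.Agent.P076N.RG

variable {k : ℕ}

theorem log_two_le : Real.log 2 ≤ 1 := by
  have := Real.log_le_sub_one_of_pos (show (0 : ℝ) < 2 by norm_num)
  linarith

theorem log_two_nn : 0 ≤ Real.log 2 := Real.log_nonneg (by norm_num)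

theorem dir_eq {Ω : Type} [Fintype Ω] (S : TSys Ω k) (y : ℕ) : S.dir y = fun ω => fl y fun l => S.u ω l := by
  funext ω l
  simp [TSys.dir, flv, fl, mul_comm]

/-- the number of rounded velocities -/
theorem hc_dir_le {Ω Ω' : Type} [Fintype Ω] [Fintype Ω'] {T : Type*} (S : TSys Ω k) (Q : Law Ω') (π : Ω' → Ω) (n : ℕ)
    (G : Ω' → T) {Cu : ℝ} (h : ∀ x, 0 < Q.w x → ‖S.u (π x)‖ ≤ Cu) (hn : Real.log (4 * |Cu| + 3) ≤ n) :
    hc Q (fun x => S.dir n (π x)) G ≤ 2 * k * n := by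
  have h0 : (1 : ℝ) ≤ 2 ^ n := one_le_pow₀ one_le_two
  have ha := abs_nonneg Cu
  have h1 := hc_near Q (fun x => S.dir n (π x)) G (r := 2 * |Cu| * 2 ^ n + 1) (by positivity) (by
    intro x x' hx hx' _ l
    simp only [TSys.dir, flv, div_inv_eq_mul]
    refine floor_sub_le ?_
    rw [← sub_mul, abs_mul, abs_of_pos (by positivity : (0 : ℝ) < 2 ^ n)]
    refine mul_le_mul_of_nonneg_right ?_ (by positivity)
    have e1 := (coord_le_norm (S.u (π x)) l).trans ((h x hx).trans (le_abs_self _))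
    have e2 := (coord_le_norm (S.u (π x')) l).trans ((h x' hx').trans (le_abs_self _))
    linarith [abs_sub (S.u (π x) l) (S.u (π x') l)])
  have h2 : Real.log (2 * (2 * |Cu| * 2 ^ n + 1) + 1) ≤ 2 * n := by
    calc Real.log (2 * (2 * |Cu| * 2 ^ n + 1) + 1) ≤ Real.log ((4 * |Cu| + 3) * 2 ^ n) :=
          Real.log_le_log (by positivity) (by nlinarith)
      _ = Real.log (4 * |Cu| + 3) + n * Real.log 2 := by
          rw [Real.log_mul (by positivity) (by positivity), Real.log_pow]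
      _ ≤ 2 * n := by nlinarith [log_two_le, (Nat.cast_nonneg n : (0 : ℝ) ≤ n)]
  rw [Fintype.card_fin] at h1
  nlinarith [(Nat.cast_nonneg k : (0 : ℝ) ≤ k)]

/-- conditioning on a large event -/
theorem hc_le_on' {Ω : Type} [Fintype Ω] {S T : Type*} (P : Law Ω) (E : Ω → Prop) (h : 0 < prE P E) (X : Ω → S)
    (Y : Ω → T) {b : ℝ} (hb0 : 0 ≤ b) (hb : ∀ Q : Law Ω, (∀ ω, 0 < Q.w ω → 0 < P.w ω) → hc Q X Y ≤ b) :
    hc P X Y ≤ Real.log 2 + hc (on P E) X Y + (1 - prE P E) * b := by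
  classical
  have hn := hc_nonneg (on P E) X Y
  rcases (prE_le_one P E).eq_or_lt with h1 | h1
  · have : on P E = P := by
      refine law_ext fun ω => ?_
      rw [on_w h, h1]
      split_ifs with hE
      · simp
      · have h2 : prE P (fun ω => ¬ E ω) = 0 := by rw [prE_not, h1, sub_self]
        have h3 : P.w ω ≤ prE P (fun ω => ¬ E ω) := by
          unfold prE
          refine Finset.single_le_sum (f := P.w) (fun i _ => P.nn i) ?_
          simp [hE]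
        linarith [P.nn ω]
    rw [this, h1]
    linarith [log_two_nn]
  · have h2 := hc_le_on P E h h1 X Y
    have h3 : 0 < prE P (fun ω => ¬ E ω) := by rw [prE_not]; linarith
    have h4 := hb (on P fun ω => ¬ E ω) fun ω hω => (on_pos h3 hω).2
    nlinarith [mul_le_mul_of_nonneg_left h4 (sub_nonneg.2 h1.le)]

theorem exists_step (h : ℕ → ℝ) (L : ℕ) (hL : 0 < L) {R : ℝ} (hR : h L - h 0 ≤ R) :
    ∃ j < L, h (j + 1) - h j ≤ R / L := by
  by_contra hn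
  push Not at hn
  have h1 : ∑ j ∈ range L, R / L < ∑ j ∈ range L, (h (j + 1) - h j) :=
    Finset.sum_lt_sum_of_nonempty (by simpa using hL.ne') fun j hj => hn j (Finset.mem_range.1 hj)
  rw [Finset.sum_range_sub, Finset.sum_const, Finset.card_range, nsmul_eq_mul,
    mul_div_cancel₀ _ (by exact_mod_cast hL.ne')] at h1
  linarith

theorem cel_fn {Ω : Type} [Fintype Ω] (S : TSys Ω k) (a b : ℕ) {ω ω' : Ω} (h : S.cel a ω = S.cel a ω') :
    S.cel (a + b) ω = S.cel (a + b) ω' := by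
  simp only [TSys.cel, TSys.tm, Prod.mk.injEq] at h ⊢
  refine ⟨funext fun l => ?_, ?_⟩
  · have := congrFun h.1 l
    simp only [flv] at this ⊢
    rw [floor_div_add, floor_div_add, this]
  · rw [floor_div_add, floor_div_add, h.2]

theorem xi_cel {Ω : Type} [Fintype Ω] (S : TSys Ω k) (a : ℕ) {ω ω' : Ω} (h : S.ξ ω = S.ξ ω') :
    S.cel a ω = S.cel a ω' ∧ S.side ω = S.side ω' := by
  simp [TSys.cel, TSys.tm, TSys.x, TSys.t, TSys.side, h]

/-- a window where the point is almost independent of the directions -/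
theorem exists_win {Ω : Type} [Fintype Ω] (S : TSys Ω k) (Q : Law (Fin (k + 1) → Ω)) (r n L : ℕ) (hL : 0 < L) {Cu : ℝ}
    (h : ∀ x, 0 < Q.w x → ∀ i, ‖S.u (x i)‖ ≤ Cu) (hn : Real.log (4 * |Cu| + 3) ≤ n) :
    ∃ j < L, mi Q (fun x => S.cel (r + j * n) (x 0)) (fun x i => S.dir n (x i))
      (fun x => (S.cel (r + j * n + n) (x 0), S.side (x 0))) ≤ (k + 1) * (2 * k * n) / L := by
  set H : ℕ → ℝ := fun j => hc Q (fun x i => S.dir n (x i)) fun x => (S.cel (r + j * n) (x 0), S.side (x 0)) with hH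
  obtain ⟨j, hj, h1⟩ := exists_step H L hL (R := (k + 1) * (2 * k * n)) (by
    have e0 : 0 ≤ H 0 := hc_nonneg _ _ _
    have e1 : H L ≤ ∑ _i : Fin (k + 1), (2 * k * n : ℝ) :=
      (hc_pi_le Q (fun i x => S.dir n (x i)) _).trans
        (Finset.sum_le_sum fun i _ => hc_dir_le S Q (fun x => x i) n _ (fun x hx => h x hx i) hn)
    simp only [Finset.sum_const, Finset.card_univ, Fintype.card_fin, nsmul_eq_mul] at e1
    push_cast at e1
    linarith)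
  refine ⟨j, hj, le_trans ?_ h1⟩
  rw [mi_symm, mi]
  have e : r + (j + 1) * n = r + j * n + n := by ring
  simp only [hH, e]
  refine sub_le_sub_left (hc_mono_right Q _ fun x x' _ _ hx => ?_) _
  simp only [Prod.mk.injEq] at hx ⊢
  exact ⟨hx.1, cel_fn S _ _ hx.1, hx.2⟩

section core

variable {Ω : Type} [Fintype Ω] {S : TSys Ω k} {P' : Law (Fin (k + 1) → Ω)} {Cu : ℝ}
  {ν : (Fin k → Zv k) → Fin (k + 1) → Vc k} {v : (Fin k → Zv k) → Fin (k + 1) → ℝ}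

theorem cp_supp (hP' : ∀ x, P'.w x = cw S.P S.ξ k x) (hB : S.Bnd Cu) (x : Fin (k + 1) → Ω) (hx : 0 < P'.w x)
    (i : Fin (k + 1)) : S.ξ (x i) = S.ξ (x 0) ∧ ‖S.u (x i)‖ ≤ Cu :=
  ⟨(cw_supp hP' hx).1 i, hB _ ((cw_supp hP' hx).2 i)⟩

theorem geo_of (hP' : ∀ x, P'.w x = cw S.P S.ξ k x) (hB : S.Bnd Cu) (ρ n : ℕ) (A : ℝ) (R : Law (Fin (k + 1) → Ω))
    (hν : ∀ f i, ‖ν f i‖ ≤ 1) (hv : ∀ f i (C : ℝ), 0 ≤ C → (∀ c, ‖dd n (f c)‖ ≤ C) → |v f i| ≤ C)
    (hkill : ∀ f i (c : Fin k), c.castSucc ≠ i → ⟪ν f i, dd n (f c)⟫ = v f i)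
    (hR : ∀ x, 0 < R.w x → 0 < P'.w x ∧ ∀ i, A⁻¹ ≤
      |⟪ν (fun c => S.dir n (x c.castSucc)) i, dd n (S.dir n (x i))⟫ - v (fun c => S.dir n (x c.castSucc)) i|) :
    (mkW S ρ n ν v).Geo R n (|Cu| + k) A := by
  have hdn : ∀ x, 0 < P'.w x → ∀ i, ‖dd n (S.dir n (x i))‖ ≤ |Cu| + k := fun x hx i => by
    have e1 := dd_dir_norm n (S.u (x i))
    have e2 : ((2 : ℝ) ^ n)⁻¹ ≤ 1 := inv_le_one_of_one_le₀ (one_le_pow₀ one_le_two)
    have e3 := norm_le_insert' (dd n (flv (2 ^ n)⁻¹ (S.u (x i)))) (S.u (x i))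
    have e4 := ((cp_supp hP' hB x hx i).2).trans (le_abs_self Cu)
    have e5 := mul_le_mul_of_nonneg_left e2 (Nat.cast_nonneg k : (0 : ℝ) ≤ k)
    show ‖dd n (flv (2 ^ n)⁻¹ (S.u (x i)))‖ ≤ _
    linarith
  have h2 : (0 : ℤ) < 2 ^ n := by positivity
  refine ⟨fun x _ => ⟨fun l => ?_, ?_⟩, fun x x' _ _ h => ?_, fun x hx i => ?_, fun x hx i c hc => hkill _ i c hc,
    fun x hx i => (hR x hx).2 i⟩
  · exact (abs_of_nonneg (Int.emod_nonneg _ h2.ne')).trans_le (Int.emod_lt_of_pos _ h2).le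
  · exact (abs_of_nonneg (Int.emod_nonneg _ h2.ne')).trans_le (Int.emod_lt_of_pos _ h2).le
  · have h1 : (fun c : Fin k => S.dir n (x c.castSucc)) = fun c : Fin k => S.dir n (x' c.castSucc) :=
      (Prod.ext_iff.1 h).1
    show (ν _, v _) = (ν _, v _)
    rw [h1]
  · have hx' := (hR x hx).1
    exact ⟨hdn x hx' i, hν _ i, hv _ i _ (by positivity) fun c => hdn x hx' _⟩

theorem cnt_of (hP' : ∀ x, P'.w x = cw S.P S.ξ k x) {κ e Λ : ℝ} {p q ρ n a : ℕ} (hCt : Cnt S κ e p q) (h1 : p ≤ ρ)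
    (h2 : a ≤ n) (h3 : ρ + n ≤ q) {Q : Law (Fin (k + 1) → Ω)} (hQP : Dom Q id P' Λ) :
    hc Q (fun x => S.cel (ρ + a) (x 0)) (mkW S ρ n ν v).B ≤ (k + 1) * κ * ((n : ℝ) - a) * Real.log 2 + e := by
  classical
  have ha' : ((ρ + n : ℕ) : ℝ) - (ρ + a : ℕ) = n - a := by push_cast; ring
  refine (hc_le_logr Q _ _ (Real.exp ((k + 1) * κ * ((n : ℝ) - a) * Real.log 2 + e)) fun x hx => ?_).trans_eq
    (Real.log_exp _)
  have h4 := hCt (ρ + a) (ρ + n) (by omega) (by omega) h3 (x 0) ((cw_supp hP' (hQP.pos hx)).2 0)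
  refine ⟨_, by simpa only [ha'] using h4, ?_⟩
  intro x' hx' hB'
  refine Finset.mem_image_of_mem _ (Finset.mem_filter.2 ⟨Finset.mem_univ _, ?_⟩)
  exact ⟨(cw_supp hP' (hQP.pos hx')).2 0, (Prod.ext_iff.1 hB').1, (Prod.ext_iff.1 hB').2⟩

theorem dom_marg (hP' : ∀ x, P'.w x = cw S.P S.ξ k x) {Λ : ℝ} {Q : Law (Fin (k + 1) → Ω)} (hQP : Dom Q id P' Λ)
    (i : Fin (k + 1)) : Dom (push Q fun x => x i) id S.P Λ := fun ω => by
  have d1 : Dom P' (fun x => x i) S.P 1 := fun ω => by rw [cw_marg hP', one_mul]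
  rw [pr_id, push_w]
  simpa using (hQP.comp d1) ω

theorem ric_of (hP' : ∀ x, P'.w x = cw S.P S.ξ k x) (hB : S.Bnd Cu) (ρ : ℕ) {n y N : ℕ} (hny : n ≤ y) (hyn : y ≤ n + N)
    (b1 : Real.log (4 * |Cu| + 3) ≤ n) (Tr : (Fin (k + 1) → Ω) → Prop) (hp0 : 0 < prE P' Tr) :
    hc S.P (S.dir y) S.ξ ≤ k * N + 1 + (1 - prE P' Tr) * (2 * k * n) +
      hc (on P' Tr) (fun x => (mkW S ρ n ν v).dz x (Fin.last k)) (mkW S ρ n ν v).F := by
  have hs := cp_supp hP' hB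
  have c1 := cw_indep hP' (Fin.last k) (S.dir n) (fun x (c : Fin k) => S.dir n (x c.castSucc))
    fun x x' h => funext fun c => by rw [h _ (Fin.castSucc_lt_last c).ne]
  have c2 := hc_mono_right P' (fun x => S.dir n (x (Fin.last k))) (Y := (mkW S ρ n ν v).F)
    (Y' := fun x => (fun c : Fin k => S.dir n (x c.castSucc), S.ξ (x (Fin.last k)))) (by
      intro x x' hx hx' h
      have h1 := Prod.ext_iff.1 h
      have h2 : S.ξ (x 0) = S.ξ (x' 0) := by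
        rw [← (hs x hx (Fin.last k)).1, ← (hs x' hx' (Fin.last k)).1]
        exact h1.2
      exact Prod.ext h1.1 (Prod.ext (xi_cel S _ h2).1 (xi_cel S 0 h2).2))
  have c3 := hc_le_on' P' Tr hp0 (fun x => S.dir n (x (Fin.last k))) (mkW S ρ n ν v).F (b := 2 * k * n)
    (by positivity) fun Q hQ => hc_dir_le S Q (fun x => x (Fin.last k)) n _ (fun x hx => (hs x (hQ x hx) _).2) b1
  have c4 := hc_le_add S.P (S.dir y) (S.dir n) S.ξ
  have c5 : hc S.P (S.dir y) (fun ω => (S.dir n ω, S.ξ ω)) ≤ k * N := by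
    rw [dir_eq, dir_eq]
    refine (hc_fl_digits_le S.P hny (fun ω l => S.u ω l) S.ξ).trans ?_
    have : ((y - n : ℕ) : ℝ) ≤ N := by exact_mod_cast (by omega : y - n ≤ N)
    rw [Fintype.card_fin]
    have h3 : (k : ℝ) * ((y - n : ℕ) : ℝ) ≤ k * N := mul_le_mul_of_nonneg_left this (by positivity)
    exact (mul_le_of_le_one_right (by positivity) log_two_le).trans h3
  show _ ≤ _ + hc (on P' Tr) (fun x => S.dir n (x (Fin.last k))) (mkW S ρ n ν v).F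
  linarith [log_two_le]

end core

theorem pow_aux {w n : ℕ} (h1 : (w : ℝ) ≤ n / 2) (h2 : (2 * k + 2 : ℝ) ≤ n) : k * 2 ^ (w + 1) ≤ 2 ^ n := by
  have a2 : k + (w + 1) ≤ n := by
    have : ((k + (w + 1) : ℕ) : ℝ) ≤ n := by push_cast; linarith
    exact_mod_cast this
  calc k * 2 ^ (w + 1) ≤ 2 ^ k * 2 ^ (w + 1) := Nat.mul_le_mul_right _ Nat.lt_two_pow_self.le
    _ = 2 ^ (k + (w + 1)) := (pow_add _ _ _).symm
    _ ≤ 2 ^ n := Nat.pow_le_pow_right two_pos a2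

/-- the choice of `ε` -/
theorem exists_eps (hk : 1 ≤ k) {εT E σ : ℝ} (h1 : 0 < εT) (h2 : 0 < E) (h3 : 0 < σ) :
    ∃ ε : ℝ, 0 < ε ∧ ε ≤ εT ∧ ε ≤ E / 2 ∧ ε ≤ 1 / 4 ∧ (k + 1) * ε ≤ 1 / 4 ∧ (k + 1) * ε * (2 * k) ≤ σ / 8 := by
  have hk0 : (1 : ℝ) ≤ k := by exact_mod_cast hk
  set ε : ℝ := min (min εT (E / 2)) (min (1 / (4 * (k + 1))) (σ / (16 * (k + 1) * k))) with hε
  have hε0 : 0 < ε := by positivity
  have hε3 : (k + 1) * ε ≤ 1 / 4 := by
    have : ε ≤ 1 / (4 * (k + 1)) := (min_le_right _ _).trans (min_le_left _ _)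
    rw [le_div_iff₀ (by positivity)] at this
    linarith
  refine ⟨ε, hε0, (min_le_left _ _).trans (min_le_left _ _), (min_le_left _ _).trans (min_le_right _ _), by nlinarith,
    hε3, ?_⟩
  have : ε ≤ σ / (16 * (k + 1) * k) := (min_le_right _ _).trans (min_le_right _ _)
  rw [le_div_iff₀ (by positivity)] at this
  linarith

/-- the choice of `n₀` -/
theorem exists_n0 (Cu : ℝ) (N : ℕ) {Λ C E σ : ℝ} (h0 : 0 ≤ Λ) (h1 : 0 ≤ C) (h2 : 0 < E) (h3 : 0 < σ) :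
    ∃ n₀ : ℕ, ∀ n : ℕ, n₀ ≤ n → Real.log (4 * |Cu| + 3) ≤ n ∧ 2 * Λ + C ≤ E * n / 4 ∧ (2 * k + 2 : ℝ) ≤ n ∧
      (k : ℝ) * N + 1 ≤ σ * n / 4 := by
  obtain ⟨n₀, hn₀⟩ := exists_nat_ge (Real.log (4 * |Cu| + 3) + (8 * Λ + 4 * C) / E + (2 * k + 2) + 4 * (k * N + 1) / σ)
  refine ⟨n₀, fun n hn => ?_⟩
  have hn0 : (n₀ : ℝ) ≤ n := by exact_mod_cast hn
  have hlog0 : 0 ≤ Real.log (4 * |Cu| + 3) := Real.log_nonneg (by linarith [abs_nonneg Cu])
  have t1 : 0 ≤ (8 * Λ + 4 * C) / E := by positivity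
  have t2 : 0 ≤ 4 * ((k : ℝ) * N + 1) / σ := by positivity
  have t3 : (0 : ℝ) ≤ 2 * k + 2 := by positivity
  refine ⟨by linarith, ?_, by linarith, ?_⟩
  · have : (8 * Λ + 4 * C) / E ≤ n := by linarith
    rw [div_le_iff₀ h2] at this
    linarith
  · have : 4 * ((k : ℝ) * N + 1) / σ ≤ n := by linarith
    rw [div_le_iff₀ h3] at this
    linarith

theorem win_aux {Λ E L n x : ℝ} (hΛ : 2 ≤ Λ) (hE : 0 < E) (hn : 0 ≤ n) (hL0 : 0 < L) (hL : 16 * Λ * (k + 1) * k / E < L)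
    (hx : x ≤ (k + 1) * (2 * k * n) / L) : Λ * 2 * (x + Real.log 2) ≤ E * n / 4 + 2 * Λ := by
  have e3 : Λ * 2 * ((k + 1) * (2 * k * n) / L) ≤ E * n / 4 := by
    rw [div_lt_iff₀ hE] at hL
    rw [← mul_div_assoc, div_le_iff₀ hL0]
    nlinarith
  have e4 : Λ * 2 * (x + Real.log 2) ≤ Λ * 2 * ((k + 1) * (2 * k * n) / L + 1) :=
    mul_le_mul_of_nonneg_left (add_le_add hx log_two_le) (by linarith)
  linarith

theorem ring_of (hk : 1 ≤ k) (hTL : TL k) (hTR : TR k) (hW2 : W2 k) (hW : WND k) : StRING k := by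
  classical
  intro γ σ Cu hγ hσ
  obtain ⟨E, Λ, N, m₀, hE, hΛ, hN, hW⟩ := hW γ (σ / 2) (|Cu| + k) hγ (half_pos hσ)
  obtain ⟨C, hC, hW2⟩ := hW2 Cu
  obtain ⟨L, hL⟩ := exists_nat_gt (16 * Λ * (k + 1) * k / E)
  have hL0 : (0 : ℝ) < L := lt_of_le_of_lt (by positivity) hL
  obtain ⟨εT, yT, hεT, hTL⟩ := hTL Cu (Λ * 2) (E / 8) (L + 2) (by linarith) (by positivity)
  obtain ⟨n₀, hn₀⟩ := exists_n0 (k := k) Cu N (by linarith : 0 ≤ Λ) hC hE hσ
  obtain ⟨ε, hε0, hε1, hε2, hε5, hε3, hε4⟩ := exists_eps hk hεT hE hσ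
  refine ⟨L + 2, max yT (N * (m₀ + n₀ + 1)), ε, by omega, hε0, ?_⟩
  intro y p w κ Ω _ S hy hw hκ1 hκ2 hB hBr hT hCt hdir
  obtain ⟨m, hm1, hny, hyn⟩ : ∃ m, m₀ + n₀ + 1 ≤ m ∧ N * m ≤ y ∧ y ≤ N * m + N := by
    refine ⟨y / N, ?_, Nat.mul_div_le y N, ?_⟩
    · rw [Nat.le_div_iff_mul_le hN, mul_comm]
      exact (le_max_right _ _).trans hy
    · have := Nat.lt_mul_div_succ y hN
      rw [mul_add, mul_one] at this
      exact this.le
  have hW' := hW m w κ (by omega)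
  have hmn : m ≤ N * m := Nat.le_mul_of_pos_left _ hN
  have hNn : N ≤ N * m := Nat.le_mul_of_pos_right _ (by omega)
  have hnR : (N : ℝ) * m = (N * m : ℕ) := by push_cast; ring
  simp only [mul_assoc E, mul_assoc (σ / 2), hnR] at hW'
  clear hW hnR
  generalize N * m = n at *
  obtain ⟨b1, b2, b3, b4⟩ := hn₀ n (by omega)
  have hn0 : (0 : ℝ) ≤ n := Nat.cast_nonneg n
  have hy2 : (y : ℝ) ≤ 2 * n := by exact_mod_cast (by omega : y ≤ 2 * n)
  have hyn' : (n : ℝ) ≤ y := by exact_mod_cast hny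
  have hy0 : (0 : ℝ) ≤ y := Nat.cast_nonneg y
  have hEy : E * y ≤ E * (2 * n) := mul_le_mul_of_nonneg_left hy2 hE.le
  have hεy : ε * y ≤ E * n := by linarith [mul_le_mul_of_nonneg_right hε2 hy0]
  obtain ⟨P', hP'⟩ := cw_exists S.P S.ξ k
  have hs := cp_supp hP' hB
  obtain ⟨j, hj, hmi⟩ := exists_win S P' (p + y) n L (by exact_mod_cast hL0) (fun x hx i => (hs x hx i).2) b1
  have hρq : p + y + j * n + n + y ≤ p + (L + 2) * y := by
    have : (j + 1) * n ≤ L * y := Nat.mul_le_mul hj hny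
    rw [add_mul, one_mul] at this
    rw [add_mul]
    omega
  have hρp : p + y ≤ p + y + j * n := Nat.le_add_right _ _
  generalize p + y + j * n = ρ at *
  obtain ⟨ν, v, hν, hv, hkill, hTR⟩ := hTR n
  have hbad := hTR w ε Ω S P' hP' hBr (pow_aux (by linarith [mul_le_mul_of_nonneg_right hε5 hy0]) b3)
  obtain ⟨Tr, hTr⟩ : ∃ Tr : (Fin (k + 1) → Ω) → Prop, Tr = fun x => ∀ i, ((2 : ℝ) ^ (w + 1))⁻¹ ≤
    |⟪ν (fun c => S.dir n (x c.castSucc)) i, dd n (S.dir n (x i))⟫ - v (fun c => S.dir n (x c.castSucc)) i| := ⟨_, rfl⟩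
  rw [prE_not, ← hTr] at hbad
  have hp : 1 / 2 ≤ prE P' Tr := by linarith
  have hp0 : 0 < prE P' Tr := by linarith
  have hRP : Dom (on P' Tr) id P' 2 := by simpa using Dom.on (P := P') (E := Tr) (p := 1 / 2) (by norm_num) hp
  refine hW' (hw.trans hεy) hκ1 hκ2 _ (on P' Tr) (mkW S ρ n ν v) ?_ ?_ ?_
  · refine geo_of hP' hB ρ n _ _ hν hv hkill fun x hx => ⟨(on_pos hp0 hx).2, ?_⟩
    have := (on_pos hp0 hx).1
    rw [hTr] at this
    exact this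
  · intro Q hQ a ha
    have hQP : Dom Q id P' (Λ * 2) := hQ.comp hRP
    obtain ⟨w1, w2⟩ := hW2 p ρ n a Ω S ν v Q (by omega) ha fun x hx => hs x (hQP.pos hx)
    refine ⟨w1.trans ((cnt_of hP' hCt (by omega) ha (by omega) hQP).trans (by linarith)), fun i => le_trans ?_ (w2 i)⟩
    have e1 := hTL ε κ y p w Ω S hε0.le hε1 ((le_max_left _ _).trans hy) hw hB hBr hT hCt _ (dom_marg hP' hQP i)
      (ρ + a) (ρ + n) (by omega) (by omega) hρq
    have ha' : ((ρ + n : ℕ) : ℝ) - (ρ + a : ℕ) = n - a := by push_cast; ring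
    rw [push_hc, ha'] at e1
    have e5 : mi Q (fun x => S.cel ρ (x 0)) (mkW S ρ n ν v).dz (mkW S ρ n ν v).B ≤ E * n / 4 + 2 * Λ :=
      (hQP.mi_le (fun x => S.cel ρ (x 0)) (mkW S ρ n ν v).dz (mkW S ρ n ν v).B).trans (win_aux hΛ hE hn0 hL0 hL hmi)
    have e7 : hc Q (S.tm (ρ + a) ∘ fun x => x i) ((fun ω => (S.tm (ρ + n) ω, S.tub p ω, S.side ω)) ∘ fun x => x i) =
        hc Q (fun x => S.tm (ρ + a) (x i)) (fun x => (S.tm (ρ + n) (x i), S.tub p (x i), S.side (x i))) := rfl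
    linarith [mul_nonneg hE.le hn0]
  · have c1 := ric_of (ν := ν) (v := v) hP' hB ρ hny hyn b1 Tr hp0
    have c6 : (1 - prE P' Tr) * (2 * k * n) ≤ σ / 8 * n := by
      calc (1 - prE P' Tr) * (2 * k * n) ≤ (k + 1) * ε * (2 * k * n) :=
            mul_le_mul_of_nonneg_right hbad (by positivity)
        _ = (k + 1) * ε * (2 * k) * n := by ring
        _ ≤ σ / 8 * n := mul_le_mul_of_nonneg_right hε4 hn0
    linarith [mul_le_mul_of_nonneg_left hyn' hσ.le, mul_nonneg hσ.le hn0]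

end Vale.Agent.P076N.RG
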